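import Vale.Agent.P358.Gen.Defs
import Vale.Agent.P358.Upper
import Vale.Agent.P358.Achieve

/-!
# Capacity of the generalized amplitude-damping channel, given the one-step bound
-/

namespace Vale.Agent.P358.Gen

open Matrix Real Finset
open Vale.Agent.P358.Ind (Cfg mass occ head splitFirst sum_split mass_succ mass_nonneg occ_zero
  occ_succ pop exists_vectors diag_sum_mass diag_sum_occ trace_eq_sum_re superadd_vN)
open scoped ComplexOrder

variable {γ ν : ℝ}

/-! ## A Kraus form -/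

/-- Real Kraus coefficients of the channel. -/
noncomputable def kr4 (γ ν : ℝ) : Fin 4 → Matrix (Fin 2) (Fin 2) ℝ :=
  ![!![√(1 - ν), 0; 0, √(1 - ν) * √(1 - γ)], !![0, √(1 - ν) * √γ; 0, 0],
    !![√ν * √(1 - γ), 0; 0, √ν], !![0, 0; √ν * √γ, 0]]

/-- The matrix whose columns are the images of `ψ` under the product Kraus operators. -/
noncomputable def out4 (γ ν : ℝ) (n : ℕ) (ψ : Cfg n → ℂ) :
    Matrix (Cfg n) (Fin n → Fin 4) ℂ :=
  fun x s => ∑ y, (∏ i, (kr4 γ ν (s i) (x i) (y i) : ℂ)) * ψ y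

lemma gadc_single4 (hγ0 : 0 ≤ γ) (hγ1 : γ ≤ 1) (hν0 : 0 ≤ ν) (hν1 : ν ≤ 1) (a b x y : Fin 2) :
    gadc γ ν (Matrix.single a b (1 : ℂ)) x y =
      ∑ s, (kr4 γ ν s x a : ℂ) * star (kr4 γ ν s y b : ℂ) := by
  have hr : ∀ s u v, star ((kr4 γ ν s u v : ℝ) : ℂ) = ((kr4 γ ν s u v : ℝ) : ℂ) := fun s u v =>
    Complex.conj_ofReal _
  simp only [hr, ← Complex.ofReal_mul, ← Complex.ofReal_sum]
  have h1 := Real.mul_self_sqrt hγ0
  have h2 := Real.mul_self_sqrt (sub_nonneg.2 hγ1)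
  have h3 := Real.mul_self_sqrt hν0
  have h4 := Real.mul_self_sqrt (sub_nonneg.2 hν1)
  have e : ∀ u v : ℝ, u * v * (u * v) = (u * u) * (v * v) := fun u v => by ring
  have e1 : √(1 - ν) * (√(1 - ν) * √(1 - γ)) = (1 - ν) * √(1 - γ) := by rw [← mul_assoc, h4]
  have e2 : √(1 - ν) * √(1 - γ) * √(1 - ν) = (1 - ν) * √(1 - γ) := by
    rw [mul_right_comm, h4]
  have e3 : √ν * √(1 - γ) * √ν = ν * √(1 - γ) := by rw [mul_right_comm, h3]
  have e4 : √ν * (√ν * √(1 - γ)) = ν * √(1 - γ) := by rw [← mul_assoc, h3]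
  fin_cases a <;> fin_cases b <;> fin_cases x <;> fin_cases y <;>
    simp [gadc, kr4, Matrix.single, Fin.sum_univ_four, e, e1, e2, e3, e4, h2, h3, h4] <;>
    ring_nf <;>
    simp only [← Complex.ofReal_pow, Real.sq_sqrt hγ0, Real.sq_sqrt hν0,
      Real.sq_sqrt (sub_nonneg.2 hγ1), Real.sq_sqrt (sub_nonneg.2 hν1)] <;>
    push_cast <;> ring

lemma tensorPow_outer (hγ0 : 0 ≤ γ) (hγ1 : γ ≤ 1) (hν0 : 0 ≤ ν) (hν1 : ν ≤ 1) {n : ℕ}
    (ψ φ : Cfg n → ℂ) :
    tensorPow (gadc γ ν) n (vecMulVec ψ (star φ)) = out4 γ ν n ψ * (out4 γ ν n φ)ᴴ := by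
  ext x y
  simp only [tensorPow, of_apply, gadc_single4 hγ0 hγ1 hν0 hν1, Fintype.prod_sum, mul_apply,
    conjTranspose_apply, out4, vecMulVec_apply, Pi.star_apply, star_sum, star_mul', star_prod,
    Finset.sum_mul, Finset.mul_sum]
  conv_lhs => rw [Finset.sum_comm]; arg 2; ext b; rw [Finset.sum_comm]
  conv_lhs => rw [Finset.sum_comm]
  refine Finset.sum_congr rfl fun s _ => Finset.sum_congr rfl fun a _ =>
    Finset.sum_congr rfl fun b _ => ?_
  rw [Finset.prod_mul_distrib]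
  ring

lemma gram_eq_sum {n : ℕ} {κ : Type} [Fintype κ] (ψ : κ → Cfg n → ℂ) :
    Ind.gram ψ = ∑ k, vecMulVec (ψ k) (star (ψ k)) := by
  ext x y
  simp [Ind.gram, Matrix.sum_apply, vecMulVec_apply]

lemma tensorPow_posSemidef (hγ0 : 0 ≤ γ) (hγ1 : γ ≤ 1) (hν0 : 0 ≤ ν) (hν1 : ν ≤ 1) {n : ℕ}
    {ρ : Matrix (Cfg n) (Cfg n) ℂ} (hρ : ρ.PosSemidef) :
    (tensorPow (gadc γ ν) n ρ).PosSemidef := by
  obtain ⟨ψ, rfl⟩ := exists_vectors hρ
  rw [gram_eq_sum, tensorPow_sum]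
  exact posSemidef_sum _ fun k _ => by
    rw [tensorPow_outer hγ0 hγ1 hν0 hν1]
    exact posSemidef_self_mul_conjTranspose _

lemma weighted_diag {n : ℕ} (w : Fin n → Fin 2 → ℂ) (X : Matrix (Cfg n) (Cfg n) ℂ) :
    ∑ x, (∏ j, w j (x j)) * tensorPow (gadc γ ν) n X x x =
      ∑ a, ∑ b, (∏ j, ∑ c, w j c * gadc γ ν (Matrix.single (a j) (b j) (1 : ℂ)) c c) * X a b := by
  simp only [Fintype.prod_sum, Finset.sum_mul, tensorPow, of_apply, Finset.mul_sum]
  rw [Finset.sum_comm]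
  refine Finset.sum_congr rfl fun a _ => ?_
  rw [Finset.sum_comm]
  refine Finset.sum_congr rfl fun b _ => Finset.sum_congr rfl fun x _ => ?_
  rw [Finset.prod_mul_distrib]
  ring

lemma trace_tensorPow {n : ℕ} (X : Matrix (Cfg n) (Cfg n) ℂ) :
    (tensorPow (gadc γ ν) n X).trace = X.trace := by
  have h := weighted_diag (γ := γ) (ν := ν) (fun _ _ => (1 : ℂ)) X
  simp only [Finset.prod_const_one, one_mul] at h
  have e : ∀ a b : Fin 2, ∑ c, gadc γ ν (Matrix.single a b (1 : ℂ)) c c =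
      if a = b then 1 else 0 := fun a b => by
    fin_cases a <;> fin_cases b <;> simp [gadc, Matrix.single, Fin.sum_univ_two]
  simp only [e, Fintype.prod_boole, ← funext_iff] at h
  simpa [Matrix.trace] using h

lemma pop_tensorPow {n : ℕ} (i : Fin n) {X : Matrix (Cfg n) (Cfg n) ℂ} (htr : X.trace.re = 1) :
    pop i (tensorPow (gadc γ ν) n X) = outPop γ ν (pop i X) := by
  have h := weighted_diag (γ := γ) (ν := ν)
    (fun j c => if j = i then (if c = 1 then (1 : ℂ) else 0) else 1) X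
  set val : Fin 2 → ℝ := fun c => γ * ν + if c = 1 then 1 - γ else 0 with hval
  have e : ∀ (j : Fin n) (a b : Fin 2),
      ∑ c, (if j = i then (if c = 1 then (1 : ℂ) else 0) else 1) *
        gadc γ ν (Matrix.single a b (1 : ℂ)) c c =
      (if a = b then 1 else 0) * (if j = i then (val a : ℂ) else 1) := fun j a b => by
    by_cases hj : j = i <;> fin_cases a <;> fin_cases b <;>
      simp [hj, gadc, hval, Matrix.single, Fin.sum_univ_two] <;> ring
  beta_reduce at h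
  simp only [e] at h
  simp only [Finset.prod_mul_distrib, Fintype.prod_boole, Finset.prod_ite_eq', Finset.mem_univ,
    if_true] at h
  simp only [← funext_iff, ite_mul, one_mul, zero_mul, Finset.sum_ite_eq, Finset.mem_univ,
    if_true] at h
  have h' := congrArg Complex.re h
  simp only [Complex.re_sum, Complex.re_ofReal_mul] at h'
  have hl : pop i (tensorPow (gadc γ ν) n X) =
      ∑ x, (if x i = 1 then tensorPow (gadc γ ν) n X x x else 0).re := by
    refine Finset.sum_congr rfl fun x _ => ?_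
    split <;> simp
  rw [hl, h']
  calc ∑ x, val (x i) * (X x x).re
      = γ * ν * ∑ x, (X x x).re + (1 - γ) * ∑ x, (if x i = 1 then (X x x).re else 0) := by
        rw [Finset.mul_sum, Finset.mul_sum, ← Finset.sum_add_distrib]
        refine Finset.sum_congr rfl fun x _ => ?_
        simp only [hval]
        split <;> ring
    _ = _ := by rw [← trace_eq_sum_re, htr, outPop, pop]; ring

lemma output_isState (hγ0 : 0 ≤ γ) (hγ1 : γ ≤ 1) (hν0 : 0 ≤ ν) (hν1 : ν ≤ 1) {n : ℕ}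
    {ρ : Matrix (Cfg n) (Cfg n) ℂ} (hρ : IsState ρ) : IsState (tensorPow (gadc γ ν) n ρ) :=
  ⟨tensorPow_posSemidef hγ0 hγ1 hν0 hν1 hρ.1, by rw [trace_tensorPow]; exact hρ.2⟩

lemma trace_outer {n : ℕ} (ψ : Cfg n → ℂ) : (vecMulVec ψ (star ψ)).trace.re = mass ψ := by
  simp [Matrix.trace, vecMulVec_apply, mass, Complex.normSq_apply]

/-! ## The induction -/

lemma tensorPow_cons {n : ℕ} (X : Matrix (Cfg (n + 1)) (Cfg (n + 1)) ℂ) (a b : Fin 2)
    (x y : Cfg n) :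
    tensorPow (gadc γ ν) (n + 1) X (Fin.cons a x) (Fin.cons b y) =
      ∑ c, ∑ c', gadc γ ν (Matrix.single c c' (1 : ℂ)) a b *
        tensorPow (gadc γ ν) n (Matrix.of fun u v => X (Fin.cons c u) (Fin.cons c' v)) x y := by
  simp only [tensorPow, of_apply]
  rw [sum_split]
  conv_lhs =>
    arg 1; arg 2; ext u; rw [sum_split]
  conv_lhs =>
    arg 2; arg 2; ext u; rw [sum_split]
  simp only [Fin.prod_univ_succ, Fin.cons_zero, Fin.cons_succ, Fin.sum_univ_two,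
    Finset.sum_add_distrib, Finset.mul_sum, mul_assoc]
  abel

lemma split_eq_stepOut (hγ0 : 0 ≤ γ) (hγ1 : γ ≤ 1) (hν0 : 0 ≤ ν) (hν1 : ν ≤ 1) {n : ℕ}
    (ψ : Cfg (n + 1) → ℂ) :
    (tensorPow (gadc γ ν) (n + 1) (vecMulVec ψ (star ψ))).submatrix (splitFirst n) (splitFirst n) =
      stepOut γ ν (out4 γ ν n (head ψ 0)) (out4 γ ν n (head ψ 1)) := by
  have hb : ∀ c c' : Fin 2, (Matrix.of fun u v =>
      vecMulVec ψ (star ψ) (Fin.cons c u) (Fin.cons c' v)) =
      vecMulVec (head ψ c) (star (head ψ c')) := fun c c' => rfl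
  ext (x | x) (y | y) <;>
    simp only [submatrix_apply, splitFirst, Equiv.coe_fn_mk, Sum.elim_inl, Sum.elim_inr] <;>
    rw [tensorPow_cons] <;>
    simp only [stepOut, hb, tensorPow_outer hγ0 hγ1 hν0 hν1, fromBlocks_apply₁₁,
      fromBlocks_apply₁₂, fromBlocks_apply₂₁, fromBlocks_apply₂₂, Fin.sum_univ_two] <;>
    simp [gadc, Matrix.single] <;> (try push_cast) <;> (try ring_nf) <;> simp

lemma pure_bound (hγ0 : 0 ≤ γ) (hγ1 : γ ≤ 1) (hν0 : 0 ≤ ν) (hν1 : ν ≤ 1) (hstep : GenStep γ ν) :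
    ∀ (n : ℕ) (ψ : Cfg n → ℂ), ∃ v : Fin n → ℝ,
      (∀ i, Mix (pureGen γ ν) (mass ψ) (occ i ψ) (v i)) ∧
      negMulLog (mass ψ) + ∑ i, v i ≤ vN (tensorPow (gadc γ ν) n (vecMulVec ψ (star ψ)))
  | 0, ψ => by
    refine ⟨fun _ => 0, fun i => i.elim0, ?_⟩
    have hps := tensorPow_posSemidef hγ0 hγ1 hν0 hν1
      (posSemidef_vecMulVec_self_star ψ)
    rw [vN_unique hps.1, ← trace_outer, ← trace_tensorPow (γ := γ) (ν := ν) (vecMulVec ψ (star ψ))]
    simp [Matrix.trace]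
  | n + 1, ψ => by
    obtain ⟨v₀, hv₀, h₀⟩ := pure_bound hγ0 hγ1 hν0 hν1 hstep n (head ψ 0)
    obtain ⟨v₁, hv₁, h₁⟩ := pure_bound hγ0 hγ1 hν0 hν1 hstep n (head ψ 1)
    have hm : ∀ c, (out4 γ ν n (head ψ c) * (out4 γ ν n (head ψ c))ᴴ).trace.re =
        mass (head ψ c) := fun c => by
      rw [← tensorPow_outer hγ0 hγ1 hν0 hν1, trace_tensorPow, trace_outer]
    refine ⟨Fin.cons (mass ψ * pureGen γ ν (mass (head ψ 1) / mass ψ)) (fun i => v₀ i + v₁ i),
      ?_, ?_⟩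
    · refine Fin.cases ?_ (fun i => ?_)
      · rw [Fin.cons_zero, occ_zero]
        exact Mix.point (pureGen γ ν) (mass_nonneg _) (by
          rw [mass_succ]; linarith [mass_nonneg (head ψ 0)])
      · rw [Fin.cons_succ, occ_succ, mass_succ]
        exact (hv₀ i).add (hv₁ i)
    · have h := hstep (Cfg n) (Fin n → Fin 4) (out4 γ ν n (head ψ 0)) (out4 γ ν n (head ψ 1))
      rw [hm, hm, ← mass_succ, ← split_eq_stepOut hγ0 hγ1 hν0 hν1, vN_submatrix,
        ← tensorPow_outer hγ0 hγ1 hν0 hν1, ← tensorPow_outer hγ0 hγ1 hν0 hν1] at h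
      rw [Fin.sum_univ_succ, Fin.cons_zero]
      simp only [Fin.cons_succ, Finset.sum_add_distrib]
      linarith

lemma state_bound (hγ0 : 0 ≤ γ) (hγ1 : γ ≤ 1) (hν0 : 0 ≤ ν) (hν1 : ν ≤ 1) (hstep : GenStep γ ν)
    {n : ℕ} {ρ : Matrix (Cfg n) (Cfg n) ℂ} (hρ : IsState ρ) :
    ∃ v : Fin n → ℝ, (∀ i, Mix (pureGen γ ν) 1 (pop i ρ) (v i)) ∧
      ∑ i, v i ≤ vN (tensorPow (gadc γ ν) n ρ) := by
  obtain ⟨ψ, rfl⟩ := exists_vectors hρ.1
  choose v hv hle using fun k => pure_bound hγ0 hγ1 hν0 hν1 hstep n (ψ k)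
  have hm : ∑ k, mass (ψ k) = 1 := by
    rw [diag_sum_mass]
    have h := congrArg Complex.re hρ.2
    rw [Complex.one_re, trace_eq_sum_re] at h
    exact h
  refine ⟨fun i => ∑ k, v k i, fun i => ?_, ?_⟩
  · have h := Mix.sum Finset.univ fun k _ => hv k i
    rwa [hm, diag_sum_occ] at h
  · have h := superadd_vN n (fun k => tensorPow (gadc γ ν) n (vecMulVec (ψ k) (star (ψ k))))
      (fun k => tensorPow_posSemidef hγ0 hγ1 hν0 hν1 (posSemidef_vecMulVec_self_star _))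
      (by simp only [trace_sum, trace_tensorPow, Complex.re_sum, trace_outer]; exact hm)
    simp only [trace_sum, trace_tensorPow, Complex.re_sum, trace_outer, hm, negMulLog_one,
      sub_zero] at h
    rw [gram_eq_sum, tensorPow_sum, Finset.sum_comm]
    refine le_trans ?_ h
    exact Finset.sum_le_sum fun k _ => by linarith [hle k]

/-! ## The scalar formula -/

/-- The set of scalar ensemble values. -/
def formulaSet (γ ν : ℝ) : Set ℝ :=
  {r : ℝ | ∃ (m : ℕ) (w q : Fin m → ℝ), (∀ a, 0 ≤ w a) ∧ ∑ a, w a = 1 ∧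
    (∀ a, q a ∈ Set.Icc (0 : ℝ) 1) ∧
    r = (binEntropy (outPop γ ν (∑ a, w a * q a)) - ∑ a, w a * pureGen γ ν (q a)) / Real.log 2}

lemma pureGen_nonneg (hγ0 : 0 ≤ γ) (hγ1 : γ ≤ 1) (hν0 : 0 ≤ ν) (hν1 : ν ≤ 1) (q : ℝ) :
    0 ≤ pureGen γ ν q := by
  have hD : 0 ≤ outPop γ ν q * (1 - outPop γ ν q) - (1 - γ) * (q * (1 - q)) := by
    have e : outPop γ ν q * (1 - outPop γ ν q) - (1 - γ) * (q * (1 - q)) =
        γ * (ν * (1 - ν) + (1 - γ) * (q - ν) ^ 2) := by unfold outPop; ring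
    rw [e]
    exact mul_nonneg hγ0 (add_nonneg (mul_nonneg hν0 (sub_nonneg.2 hν1))
      (mul_nonneg (sub_nonneg.2 hγ1) (sq_nonneg _)))
  unfold pureGen
  refine binEntropy_nonneg ?_ ?_
  · have : √(1 - 4 * (outPop γ ν q * (1 - outPop γ ν q) - (1 - γ) * (q * (1 - q)))) ≤ 1 :=
      Real.sqrt_le_one.2 (by linarith)
    linarith
  · linarith [Real.sqrt_nonneg
      (1 - 4 * (outPop γ ν q * (1 - outPop γ ν q) - (1 - γ) * (q * (1 - q))))]

lemma formulaSet_bddAbove (hγ0 : 0 ≤ γ) (hγ1 : γ ≤ 1) (hν0 : 0 ≤ ν) (hν1 : ν ≤ 1) :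
    BddAbove (formulaSet γ ν) := by
  refine ⟨1, ?_⟩
  rintro r ⟨m, w, q, hw, -, -, rfl⟩
  rw [div_le_one (Real.log_pos one_lt_two)]
  have h1 := binEntropy_le_log_two (p := outPop γ ν (∑ a, w a * q a))
  have h2 : 0 ≤ ∑ a, w a * pureGen γ ν (q a) :=
    Finset.sum_nonneg fun a _ => mul_nonneg (hw a) (pureGen_nonneg hγ0 hγ1 hν0 hν1 _)
  linarith

lemma sum_getElem (l : List (ℝ × ℝ)) (F : ℝ × ℝ → ℝ) :
    ∑ i : Fin l.length, F (l.get i) = (l.map F).sum := by
  rw [← List.sum_ofFn]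
  congr 1
  exact List.ofFn_getElem_eq_map l F

lemma mix_le_formula (hγ0 : 0 ≤ γ) (hγ1 : γ ≤ 1) (hν0 : 0 ≤ ν) (hν1 : ν ≤ 1) {s v : ℝ}
    (h : Mix (pureGen γ ν) 1 s v) :
    binEntropy (outPop γ ν s) - v ≤ genFormula γ ν * Real.log 2 := by
  obtain ⟨l, hl, hm, hs, hv⟩ := h
  rw [← sum_getElem] at hm hs hv
  have hl' : ∀ i : Fin l.length, 0 ≤ (l.get i).1 ∧ 0 ≤ (l.get i).2 ∧ (l.get i).2 ≤ 1 :=
    fun i => hl _ (List.get_mem l i)
  have hle : (binEntropy (outPop γ ν s) - ∑ i, (l.get i).1 * pureGen γ ν (l.get i).2) /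
      Real.log 2 ≤ genFormula γ ν :=
    le_csSup (formulaSet_bddAbove hγ0 hγ1 hν0 hν1) ⟨l.length, fun i => (l.get i).1,
      fun i => (l.get i).2, fun i => (hl' i).1, hm, fun i => (hl' i).2, by rw [hs]⟩
  rw [div_le_iff₀ (Real.log_pos one_lt_two)] at hle
  linarith

theorem holevo_upper (hγ0 : 0 ≤ γ) (hγ1 : γ ≤ 1) (hν0 : 0 ≤ ν) (hν1 : ν ≤ 1)
    (hstep : GenStep γ ν) (n : ℕ) : (n * genFormula γ ν) ∈ upperBounds (holevoValues (gadc γ ν) n) := by
  rintro r ⟨m, w, ρ, hw, hw1, hρ, rfl⟩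
  choose v hv hle using fun a => state_bound hγ0 hγ1 hν0 hν1 hstep (hρ a)
  have hmix : ∀ i : Fin n, Mix (pureGen γ ν) 1 (∑ a, w a * pop i (ρ a)) (∑ a, w a * v a i) :=
    fun i => by
      have := Mix.sum Finset.univ fun a _ => (hv a i).scale (hw a)
      simpa [hw1] using this
  have hout : IsState (∑ a, (w a : ℂ) • tensorPow (gadc γ ν) n (ρ a)) := by
    refine ⟨posSemidef_sum _ fun a _ =>
      (output_isState hγ0 hγ1 hν0 hν1 (hρ a)).1.smul (by exact_mod_cast hw a), ?_⟩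
    simp only [trace_sum, trace_smul, trace_tensorPow, (hρ _).2, smul_eq_mul, mul_one]
    exact_mod_cast hw1
  have h1 := vN_le_marginals hout
  have hmarg : ∀ i : Fin n,
      (∑ x with x i = 1, ((∑ a, (w a : ℂ) • tensorPow (gadc γ ν) n (ρ a)) x x).re) =
        outPop γ ν (∑ a, w a * pop i (ρ a)) := fun i => by
    have hp : ∀ a, pop i (tensorPow (gadc γ ν) n (ρ a)) = outPop γ ν (pop i (ρ a)) :=
      fun a => pop_tensorPow i (by rw [(hρ a).2]; rfl)
    have : ∑ a, w a * outPop γ ν (pop i (ρ a)) = outPop γ ν (∑ a, w a * pop i (ρ a)) := by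
      simp only [outPop, mul_add, Finset.sum_add_distrib, ← Finset.sum_mul, hw1, one_mul,
        Finset.mul_sum]
      congr 1
      exact Finset.sum_congr rfl fun a _ => by ring
    rw [← this]
    simp only [← hp]
    simp only [pop, ← Finset.sum_filter, Finset.mul_sum, Matrix.sum_apply, Complex.re_sum,
      Matrix.smul_apply, smul_eq_mul, Complex.re_ofReal_mul]
    exact Finset.sum_comm
  simp only [hmarg] at h1
  have h2 : ∑ i : Fin n, (binEntropy (outPop γ ν (∑ a, w a * pop i (ρ a))) - ∑ a, w a * v a i) ≤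
      ∑ _i : Fin n, genFormula γ ν * Real.log 2 :=
    Finset.sum_le_sum fun i _ => mix_le_formula hγ0 hγ1 hν0 hν1 (hmix i)
  rw [Finset.sum_sub_distrib, Finset.sum_const, Finset.card_univ, Fintype.card_fin, nsmul_eq_mul,
    Finset.sum_comm] at h2
  simp only [← Finset.mul_sum] at h2
  have h3 : ∑ a, w a * ∑ i, v a i ≤ ∑ a, w a * vN (tensorPow (gadc γ ν) n (ρ a)) :=
    Finset.sum_le_sum fun a _ => mul_le_mul_of_nonneg_left (hle a) (hw a)
  simp only [entropyBits, mul_div_assoc', ← Finset.sum_div]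
  rw [div_sub_div_same, div_le_iff₀ (Real.log_pos one_lt_two)]
  linarith

/-! ## The product ensembles -/

lemma gadc_sign {q : ℝ} (h0 : 0 ≤ q) (h1 : q ≤ 1) (b : Fin 2) :
    gadc γ ν (signState q b) =
      !![((1 - outPop γ ν q : ℝ) : ℂ), (√(1 - γ) * (√(1 - q) * sgnAmp b q) : ℝ);
        (√(1 - γ) * (√(1 - q) * sgnAmp b q) : ℝ), (outPop γ ν q : ℝ)] := by
  have e0 : (√(1 - q) : ℂ) * (√(1 - q) : ℂ) = ((1 - q : ℝ) : ℂ) := by
    rw [← Complex.ofReal_mul, Real.mul_self_sqrt (sub_nonneg.mpr h1)]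
  have e1 : (sgnAmp b q : ℂ) * (sgnAmp b q : ℂ) = (q : ℂ) := by
    rw [← Complex.ofReal_mul, sgnAmp_sq h0]
  ext i j
  fin_cases i <;> fin_cases j <;>
    simp [gadc, signState, signVec, vecMulVec_apply, outPop, e0, e1] <;> (try ring_nf) <;> simp

lemma gadc_sign_isState (hγ0 : 0 ≤ γ) (hγ1 : γ ≤ 1) (hν0 : 0 ≤ ν) (hν1 : ν ≤ 1) {q : ℝ}
    (h0 : 0 ≤ q) (h1 : q ≤ 1) (b : Fin 2) : IsState (gadc γ ν (signState q b)) := by
  constructor
  · set v := signVec q b with hv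
    have e : gadc γ ν (signState q b) =
        (Matrix.of fun (x : Fin 2) (s : Fin 4) => ∑ a, (kr4 γ ν s x a : ℂ) * v a) *
        (Matrix.of fun (x : Fin 2) (s : Fin 4) => ∑ a, (kr4 γ ν s x a : ℂ) * v a)ᴴ := by
      ext x y
      rw [gadc_expand]
      simp only [gadc_single4 hγ0 hγ1 hν0 hν1, mul_apply, conjTranspose_apply, of_apply,
        signState, vecMulVec_apply, Pi.star_apply, ← hv, Fin.sum_univ_two, star_add, star_mul',
        Fin.sum_univ_four]
      ring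
    rw [e]
    exact posSemidef_self_mul_conjTranspose _
  · rw [gadc_sign h0 h1, Matrix.trace_fin_two]
    simp

lemma gadc_sign_entropy (hγ0 : 0 ≤ γ) (hγ1 : γ ≤ 1) (hν0 : 0 ≤ ν) (hν1 : ν ≤ 1) {q : ℝ}
    (h0 : 0 ≤ q) (h1 : q ≤ 1) (b : Fin 2) :
    vN (gadc γ ν (signState q b)) = pureGen γ ν q := by
  rw [vN_two (gadc_sign_isState hγ0 hγ1 hν0 hν1 h0 h1 b), gadc_sign h0 h1, det_fin_two]
  simp only [of_apply, cons_val', cons_val_zero, cons_val_one, empty_val', cons_val_fin_one,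
    ← Complex.ofReal_mul, ← Complex.ofReal_sub, Complex.ofReal_re, pureGen]
  congr 4
  have e0 := Real.mul_self_sqrt (sub_nonneg.mpr h1)
  have e1 := sgnAmp_sq h0 b
  have e2 := Real.mul_self_sqrt (sub_nonneg.mpr hγ1)
  linear_combination 4 * (sgnAmp b q * sgnAmp b q) * (√(1 - γ) * √(1 - γ)) * e0 +
    4 * (1 - q) * (√(1 - γ) * √(1 - γ)) * e1 + 4 * (1 - q) * q * e2

theorem achieve_ensemble (hγ0 : 0 ≤ γ) (hγ1 : γ ≤ 1) (hν0 : 0 ≤ ν) (hν1 : ν ≤ 1) {r : ℝ}
    (hr : r ∈ formulaSet γ ν) (n : ℕ) : (n : ℝ) * r ∈ holevoValues (gadc γ ν) n := by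
  obtain ⟨m, w, q, hw, hw1, hq, rfl⟩ := hr
  set σ : Fin (Fintype.card (Fin n → Fin m × Fin 2)) ≃ (Fin n → Fin m × Fin 2) :=
    (Fintype.equivFin _).symm with hσ
  set u : Fin m × Fin 2 → ℝ := fun p => w p.1 / 2 with hu
  have hu1 : ∑ p, u p = 1 := by
    simp only [hu, Fintype.sum_prod_type, Fin.sum_univ_two, add_halves, hw1]
  set W : (Fin n → Fin m × Fin 2) → ℝ := fun τ => ∏ i, u (τ i) with hW
  have hW1 : ∑ τ, W τ = 1 := by
    simp only [hW]
    rw [← Fintype.prod_sum (fun (_ : Fin n) p => u p)]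
    simp [hu1]
  set site : Fin m × Fin 2 → Matrix (Fin 2) (Fin 2) ℂ := fun p => signState (q p.1) p.2 with hsite
  have hs : ∀ p, IsState (site p) := fun p => signState_isState (hq p.1).1 (hq p.1).2 p.2
  have ho : ∀ p, IsState (gadc γ ν (site p)) := fun p =>
    gadc_sign_isState hγ0 hγ1 hν0 hν1 (hq p.1).1 (hq p.1).2 p.2
  refine ⟨_, fun a => W (σ a), fun a => piKron fun i => site (σ a i),
    fun a => Finset.prod_nonneg fun i _ => div_nonneg (hw _) (by norm_num),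
    (σ.sum_comp W).trans hW1, fun a => piKron_isState fun i => hs _, ?_⟩
  have hent : ∀ τ : Fin n → Fin m × Fin 2,
      entropyBits (tensorPow (gadc γ ν) n (piKron fun i => site (τ i))) =
        (∑ i, pureGen γ ν (q (τ i).1)) / Real.log 2 := fun τ => by
    rw [entropyBits, tensorPow_piKron, vN_piKron fun i => ho _]
    simp only [hsite, gadc_sign_entropy hγ0 hγ1 hν0 hν1 (hq _).1 (hq _).2]
  have hmean : ∑ τ, W τ * ∑ i, pureGen γ ν (q (τ i).1) = n * ∑ a, w a * pureGen γ ν (q a) := by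
    simp only [Finset.mul_sum]
    rw [Finset.sum_comm]
    have hj : ∀ j : Fin n, ∑ τ : Fin n → Fin m × Fin 2, W τ * pureGen γ ν (q (τ j).1) =
        ∑ a, w a * pureGen γ ν (q a) := fun j => by
      have e : ∀ τ : Fin n → Fin m × Fin 2, W τ * pureGen γ ν (q (τ j).1) =
          ∏ i, (u (τ i) * if i = j then pureGen γ ν (q (τ i).1) else 1) := fun τ => by
        rw [Finset.prod_mul_distrib, Finset.prod_ite_eq', if_pos (Finset.mem_univ _)]
      simp only [e]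
      rw [← Fintype.prod_sum (fun (i : Fin n) p =>
        u p * if i = j then pureGen γ ν (q p.1) else 1), Finset.prod_eq_single j]
      · simp only [hu, if_true, Fintype.sum_prod_type, Fin.sum_univ_two]
        exact Finset.sum_congr rfl fun a _ => by ring
      · intro i _ hi
        simp [hi, hu1]
      · simp
    simp only [hj, Finset.sum_const, Finset.card_univ, Fintype.card_fin, nsmul_eq_mul,
      Finset.mul_sum]
  set p := outPop γ ν (∑ a, w a * q a) with hp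
  set avg : Fin 2 → ℝ := ![1 - p, p] with havg
  have hcell : ∀ c d : Fin 2, ∑ x : Fin m × Fin 2, (u x : ℂ) * gadc γ ν (site x) c d =
      diagonal (fun c => (avg c : ℂ)) c d := by
    intro c d
    have hpe : p = ∑ a, w a * outPop γ ν (q a) := by
      simp only [hp, outPop, mul_add, Finset.sum_add_distrib, ← Finset.sum_mul, hw1, one_mul,
        Finset.mul_sum]
      congr 1
      exact Finset.sum_congr rfl fun a _ => by ring
    simp only [hsite, Fintype.sum_prod_type, Fin.sum_univ_two,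
      gadc_sign (hq _).1 (hq _).2, hu]
    fin_cases c <;> fin_cases d <;> simp [havg, sgnAmp]
    · rw [hpe]
      have hw1' : (∑ a, (w a : ℂ)) = 1 := by exact_mod_cast hw1
      push_cast
      refine Eq.trans ?_ (congrArg (· - _) hw1')
      rw [← Finset.sum_sub_distrib]
      exact Finset.sum_congr rfl fun a _ => by ring
    · rw [hpe]
      push_cast
      exact Finset.sum_congr rfl fun a _ => by ring
  have havgS : IsState (diagonal fun c => (avg c : ℂ)) := by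
    have e : (diagonal fun c => (avg c : ℂ)) = ∑ x, (u x : ℂ) • gadc γ ν (site x) := by
      ext c d
      simp [Matrix.sum_apply, hcell]
    refine ⟨e ▸ posSemidef_sum _ fun x _ => (ho x).1.smul
      (by exact_mod_cast div_nonneg (hw x.1) (by norm_num)), ?_⟩
    simp [Matrix.trace, Fin.sum_univ_two, havg]
  have hw' : ∑ a, (W (σ a) : ℂ) • tensorPow (gadc γ ν) n (piKron fun i => site (σ a i)) =
      piKron fun _ : Fin n => diagonal fun c => (avg c : ℂ) := by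
    rw [σ.sum_comp fun τ : Fin n → Fin m × Fin 2 =>
      (W τ : ℂ) • tensorPow (gadc γ ν) n (piKron fun i => site (τ i))]
    ext x y
    simp only [tensorPow_piKron]
    simp only [Matrix.sum_apply, Matrix.smul_apply, piKron, of_apply,
      smul_eq_mul, hW, Complex.ofReal_prod, ← Finset.prod_mul_distrib]
    rw [← Fintype.prod_sum (fun (i : Fin n) z => (u z : ℂ) * gadc γ ν (site z) (x i) (y i))]
    simp only [hcell]
  rw [σ.sum_comp fun τ => W τ * entropyBits (tensorPow (gadc γ ν) n (piKron fun i => site (τ i))),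
    hw', entropyBits, vN_piKron fun _ => havgS]
  simp only [hent, mul_div_assoc', ← Finset.sum_div, hmean, vN_diagonal, Fin.sum_univ_two, havg,
    cons_val_zero, cons_val_one, Finset.sum_const, Finset.card_univ, Fintype.card_fin,
    nsmul_eq_mul, binEntropy_eq_negMulLog_add_negMulLog_one_sub]
  ring

lemma formulaSet_nonempty (γ ν : ℝ) : (formulaSet γ ν).Nonempty :=
  ⟨_, 1, fun _ => 1, fun _ => 0, fun _ => zero_le_one, by simp, fun _ => ⟨le_rfl, zero_le_one⟩,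
    rfl⟩

theorem holevoValues_isLUB (hγ0 : 0 ≤ γ) (hγ1 : γ ≤ 1) (hν0 : 0 ≤ ν) (hν1 : ν ≤ 1)
    (hstep : GenStep γ ν) (n : ℕ) :
    IsLUB (holevoValues (gadc γ ν) n) (n * genFormula γ ν) := by
  refine ⟨holevo_upper hγ0 hγ1 hν0 hν1 hstep n, fun b hb => ?_⟩
  obtain ⟨r₀, hr₀⟩ := formulaSet_nonempty γ ν
  rcases Nat.eq_zero_or_pos n with rfl | hn
  · simpa using hb (achieve_ensemble hγ0 hγ1 hν0 hν1 hr₀ 0)
  · have hn' : (0 : ℝ) < n := by exact_mod_cast hn
    rw [mul_comm, ← le_div_iff₀ hn']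
    refine csSup_le ⟨r₀, hr₀⟩ fun r hr => ?_
    rw [le_div_iff₀ hn', mul_comm]
    exact hb (achieve_ensemble hγ0 hγ1 hν0 hν1 hr n)

/-- The capacity, given the one-step bound. -/
theorem capacity_of_step (hγ0 : 0 ≤ γ) (hγ1 : γ ≤ 1) (hν0 : 0 ≤ ν) (hν1 : ν ≤ 1)
    (hstep : GenStep γ ν) :
    (∀ n : ℕ, IsLUB (holevoValues (gadc γ ν) n) (n * genFormula γ ν)) ∧
      (∀ n : ℕ, holevoChi (gadc γ ν) n = n * holevoChi (gadc γ ν) 1) ∧
      IsLUB (perUseValues (gadc γ ν)) (genFormula γ ν) := by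
  have hlub := holevoValues_isLUB hγ0 hγ1 hν0 hν1 hstep
  have hchi : ∀ n : ℕ, holevoChi (gadc γ ν) n = n * genFormula γ ν := fun n =>
    (hlub n).csSup_eq ⟨_, achieve_ensemble hγ0 hγ1 hν0 hν1 (formulaSet_nonempty γ ν).some_mem n⟩
  refine ⟨hlub, fun n => by rw [hchi, hchi]; simp, ?_, fun b hb => ?_⟩
  · rintro r ⟨n, hn, v, hv, rfl⟩
    rw [div_le_iff₀ (by exact_mod_cast hn), mul_comm]
    exact (hlub n).1 hv
  · have hmem : b ∈ upperBounds (holevoValues (gadc γ ν) 1) := fun v hv =>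
      hb ⟨1, le_rfl, v, hv, by simp⟩
    simpa using (hlub 1).2 hmem

end Vale.Agent.P358.Gen
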