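import Vale.Agent.P358.Basic

/-!
# Definitions for the capacity of the generalized amplitude-damping channel at every `ν`
-/

namespace Vale.Agent.P358.Gen

open Matrix Real
open scoped ComplexOrder

variable {ι : Type} [Fintype ι] [DecidableEq ι]

/-- The block-diagonal part of a matrix for the grading `g`. -/
def pinch (g : ι → Fin 2) (A : Matrix ι ι ℂ) : Matrix ι ι ℂ :=
  Matrix.of fun i j => if g i = g j then A i j else 0

/-- The diagonal matrix with value `c (g i)` at `i`. -/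
noncomputable def gdiag (g : ι → Fin 2) (c : Fin 2 → ℝ) : Matrix ι ι ℂ :=
  Matrix.diagonal fun i => (c (g i) : ℂ)

/-- The function whose maximum over block-diagonal positive semidefinite `R` is `omegaC`. -/
noncomputable def omegaFun (g : ι → Fin 2) (c : Fin 2 → ℝ) (τ R : Matrix ι ι ℂ) : ℝ :=
  vN (pinch g τ) + vN R - vN (τ + R) - (gdiag g c * R).trace.re

/-- The supremum of `omegaFun` over block-diagonal positive semidefinite `R`. -/
noncomputable def omegaC (g : ι → Fin 2) (c : Fin 2 → ℝ) (τ : Matrix ι ι ℂ) : ℝ :=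
  sSup {v : ℝ | ∃ R : Matrix ι ι ℂ, R.PosSemidef ∧ pinch g R = R ∧ v = omegaFun g c τ R}

/-- The larger eigenvalue of the scalar four-block matrix. -/
noncomputable def quadP (u w a b : ℝ) : ℝ :=
  (a + u + (b + w) + √((a + u - (b + w)) ^ 2 + 4 * (u * w))) / 2

/-- The smaller eigenvalue of the scalar four-block matrix. -/
noncomputable def quadM (u w a b : ℝ) : ℝ :=
  (a + u + (b + w) - √((a + u - (b + w)) ^ 2 + 4 * (u * w))) / 2

/-- The scalar entropy excess of the four-block matrix. -/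
noncomputable def quadFn (u w a b : ℝ) : ℝ :=
  negMulLog u + negMulLog w + negMulLog a + negMulLog b -
    negMulLog (quadP u w a b) - negMulLog (quadM u w a b)

/-- Excited-state population of the output. -/
noncomputable def outPop (γ ν q : ℝ) : ℝ := (1 - γ) * q + γ * ν

/-- Output entropy (natural log) of a pure input of excited population `q`. -/
noncomputable def pureGen (γ ν q : ℝ) : ℝ :=
  binEntropy ((1 - √(1 - 4 * (outPop γ ν q * (1 - outPop γ ν q) - (1 - γ) * (q * (1 - q))))) / 2)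

/-- The output of the channel on one qubit of a joint pure state with components `P`, `Q`. -/
noncomputable def stepOut {d m : Type} [Fintype m] (γ ν : ℝ) (P Q : Matrix d m ℂ) :
    Matrix (d ⊕ d) (d ⊕ d) ℂ :=
  fromBlocks (((1 - γ * ν : ℝ) : ℂ) • (P * Pᴴ) + ((γ * (1 - ν) : ℝ) : ℂ) • (Q * Qᴴ))
    ((Real.sqrt (1 - γ) : ℂ) • (P * Qᴴ)) ((Real.sqrt (1 - γ) : ℂ) • (Q * Pᴴ))
    (((γ * ν : ℝ) : ℂ) • (P * Pᴴ) + ((1 - γ * (1 - ν) : ℝ) : ℂ) • (Q * Qᴴ))

/-- The one-step bound in homogeneous form. -/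
def GenStep (γ ν : ℝ) : Prop :=
  ∀ (d m : Type) [Fintype d] [DecidableEq d] [Fintype m] [DecidableEq m] (P Q : Matrix d m ℂ),
    ((P * Pᴴ).trace.re + (Q * Qᴴ).trace.re) *
        pureGen γ ν ((Q * Qᴴ).trace.re / ((P * Pᴴ).trace.re + (Q * Qᴴ).trace.re)) +
      (vN (P * Pᴴ) - negMulLog (P * Pᴴ).trace.re) + (vN (Q * Qᴴ) - negMulLog (Q * Qᴴ).trace.re) +
      negMulLog ((P * Pᴴ).trace.re + (Q * Qᴴ).trace.re) ≤ vN (stepOut γ ν P Q)

/-- The scalar formula for the Holevo capacity, in bits. -/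
noncomputable def genFormula (γ ν : ℝ) : ℝ :=
  sSup {r : ℝ | ∃ (m : ℕ) (w q : Fin m → ℝ), (∀ a, 0 ≤ w a) ∧ ∑ a, w a = 1 ∧
    (∀ a, q a ∈ Set.Icc (0 : ℝ) 1) ∧
    r = (binEntropy (outPop γ ν (∑ a, w a * q a)) - ∑ a, w a * pureGen γ ν (q a)) / Real.log 2}

end Vale.Agent.P358.Gen
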