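import Vale.Agent.P358.Gen.Gibbs

/-!
# Derivatives of the matrix exponential along a line, tested against a trace
-/

namespace Vale.Agent.P358.Gen

open Matrix Real Filter Topology MeasureTheory
open scoped ComplexOrder Matrix.Norms.L2Operator

variable {ι : Type} [Fintype ι] [DecidableEq ι]

/-- The integrand of the derivative of `tr M e^(A + h B)`. -/
noncomputable def duh (M A A' B : Matrix ι ι ℂ) (s : ℝ) : ℝ :=
  (M * (NormedSpace.exp (s • A') * B * NormedSpace.exp ((1 - s) • A))).trace.re

theorem continuous_exp_mat : Continuous (NormedSpace.exp : Matrix ι ι ℂ → Matrix ι ι ℂ) := by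
  letI : NormedAlgebra ℚ (Matrix ι ι ℂ) := .restrictScalars ℚ ℂ _
  exact NormedSpace.exp_continuous

theorem continuous_duh (M A B : Matrix ι ι ℂ) :
    Continuous (Function.uncurry fun (h : ℝ) s => duh M A (A + h • B) B s) := by
  have h1 : Continuous fun p : ℝ × ℝ => NormedSpace.exp (p.2 • (A + p.1 • B)) :=
    continuous_exp_mat.comp
      (continuous_snd.smul (continuous_const.add (continuous_fst.smul continuous_const)))
  have h2 : Continuous fun p : ℝ × ℝ => NormedSpace.exp ((1 - p.2) • A) :=
    continuous_exp_mat.comp ((continuous_const.sub continuous_snd).smul continuous_const)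
  have h3 : Continuous fun p : ℝ × ℝ =>
      M * (NormedSpace.exp (p.2 • (A + p.1 • B)) * B * NormedSpace.exp ((1 - p.2) • A)) :=
    continuous_const.matrix_mul ((h1.matrix_mul continuous_const).matrix_mul h2)
  exact Complex.continuous_re.comp h3.matrix_trace

/-- The real linear functional `X ↦ tr (M X)`. -/
noncomputable def trMulL (M : Matrix ι ι ℂ) : Matrix ι ι ℂ →L[ℝ] ℝ :=
  ⟨{ toFun := fun X => (M * X).trace.re
     map_add' := fun X Y => by simp [Matrix.mul_add]
     map_smul' := fun c X => by simp [trace_smul] },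
    Complex.continuous_re.comp (continuous_const.matrix_mul continuous_id).matrix_trace⟩

/-- The derivative of the interpolation between two exponentials. -/
theorem hasDerivAt_interp (A A' : Matrix ι ι ℂ) (s : ℝ) :
    HasDerivAt (fun s : ℝ => NormedSpace.exp (s • A') * NormedSpace.exp ((1 - s) • A))
      (NormedSpace.exp (s • A') * (A' - A) * NormedSpace.exp ((1 - s) • A)) s := by
  have h1 : HasDerivAt (fun s : ℝ => NormedSpace.exp (s • A'))
      (NormedSpace.exp (s • A') * A') s := hasDerivAt_exp_smul_const A' s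
  have h2 : HasDerivAt (fun s : ℝ => NormedSpace.exp ((1 - s) • A))
      ((-1 : ℝ) • (A * NormedSpace.exp ((1 - s) • A))) s :=
    (hasDerivAt_exp_smul_const' A (1 - s)).scomp s ((hasDerivAt_id' s).const_sub 1)
  refine (h1.mul h2).congr_deriv ?_
  rw [neg_one_smul, mul_neg, ← sub_eq_add_neg, mul_sub, sub_mul, ← mul_assoc (NormedSpace.exp _) A]

/-- The derivative of the traced interpolation. -/
theorem hasDerivAt_interp_tr (M A B : Matrix ι ι ℂ) (h s : ℝ) :
    HasDerivAt (fun s : ℝ => trMulL M (NormedSpace.exp (s • (A + h • B)) *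
      NormedSpace.exp ((1 - s) • A))) (h * duh M A (A + h • B) B s) s := by
  set A' := A + h • B with hA'
  refine ((trMulL M).hasFDerivAt.comp_hasDerivAt s (hasDerivAt_interp A A' s)).congr_deriv ?_
  change (M * (NormedSpace.exp (s • A') * (A' - A) * NormedSpace.exp ((1 - s) • A))).trace.re = _
  rw [duh, show A' - A = h • B by rw [hA', add_sub_cancel_left], mul_smul_comm, smul_mul_assoc,
    mul_smul_comm, trace_smul, Complex.smul_re, smul_eq_mul]

theorem continuous_duh_snd (M A B : Matrix ι ι ℂ) (h : ℝ) :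
    Continuous (duh M A (A + h • B) B) :=
  (continuous_duh M A B).uncurry_left h

theorem continuous_duh_zero (M A B : Matrix ι ι ℂ) : Continuous (duh M A A B) := by
  have h := continuous_duh_snd M A B 0
  rw [zero_smul, add_zero] at h
  exact h

/-- Duhamel's formula tested against `M`. -/
theorem duhamel (M A B : Matrix ι ι ℂ) (h : ℝ) :
    (M * NormedSpace.exp (A + h • B)).trace.re - (M * NormedSpace.exp A).trace.re =
      h * ∫ s in (0 : ℝ)..1, duh M A (A + h • B) B s := by
  set A' := A + h • B with hA'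
  have hd : ∀ s ∈ Set.uIcc (0 : ℝ) 1, HasDerivAt
      (fun s : ℝ => trMulL M (NormedSpace.exp (s • A') * NormedSpace.exp ((1 - s) • A)))
      (h * duh M A A' B s) s := by
    intro s _
    rw [hA']
    exact hasDerivAt_interp_tr M A B h s
  have hc : Continuous fun s : ℝ => h * duh M A A' B s :=
    (continuous_duh_snd M A B h).const_mul h
  have := intervalIntegral.integral_eq_sub_of_hasDerivAt hd (hc.intervalIntegrable _ _)
  rw [intervalIntegral.integral_const_mul] at this
  rw [this]
  simp [trMulL]

/-- The derivative of `tr M e^(A + h B)` at `0`. -/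
theorem hasDerivAt_mul_exp (M A B : Matrix ι ι ℂ) :
    HasDerivAt (fun h : ℝ => (M * NormedSpace.exp (A + h • B)).trace.re)
      (∫ s in (0 : ℝ)..1, duh M A A B s) 0 := by
  have hc : Continuous fun h : ℝ => ∫ s in (0 : ℝ)..1, duh M A (A + h • B) B s :=
    intervalIntegral.continuous_parametric_intervalIntegral_of_continuous'
      (continuous_duh M A B) 0 1
  have h0 := hc.tendsto 0
  simp only [zero_smul, add_zero] at h0
  rw [hasDerivAt_iff_tendsto_slope]
  refine (h0.mono_left nhdsWithin_le_nhds).congr' ?_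
  filter_upwards [self_mem_nhdsWithin] with h (hh : h ≠ 0)
  rw [slope_def_field, zero_smul, add_zero, duhamel, sub_zero, mul_div_assoc, mul_comm h]
  field_simp

/-- The derivative of `tr e^(A + h B)`. -/
theorem hasDerivAt_trace_exp (A B : Matrix ι ι ℂ) (h0 : ℝ) :
    HasDerivAt (fun h : ℝ => (NormedSpace.exp (A + h • B)).trace.re)
      (B * NormedSpace.exp (A + h0 • B)).trace.re h0 := by
  have h1 := hasDerivAt_mul_exp 1 (A + h0 • B) B
  set A' := A + h0 • B with hA'
  have hk : ∀ s : ℝ, duh 1 A' A' B s = (B * NormedSpace.exp A').trace.re := by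
    intro s
    rw [duh, Matrix.one_mul, trace_mul_cycle, trace_mul_comm, ← Matrix.exp_add_of_commute]
    · rw [← add_smul, sub_add_cancel, one_smul]
    · exact ((Commute.refl A').smul_left _).smul_right _
  simp only [hk, intervalIntegral.integral_const, sub_zero, one_smul] at h1
  refine ((h1.comp_of_eq (h := fun x : ℝ => x - h0) h0 ((hasDerivAt_id h0).sub_const h0)
    (sub_self h0).symm).congr_deriv (mul_one _)).congr_of_eventuallyEq ?_
  refine Eventually.of_forall fun h => ?_
  simp only [Function.comp_apply, Matrix.one_mul, hA', add_assoc, ← add_smul, add_sub_cancel]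

/-- A second difference is bounded below if the second derivative is nonnegative. -/
theorem second_diff {Ψ ψ : ℝ → ℝ} {d : ℝ} (h1 : ∀ h, HasDerivAt Ψ (ψ h) h)
    (h2 : HasDerivAt ψ d 0) (hd : 0 ≤ d) {ε : ℝ} (hε : 0 < ε) :
    ∀ᶠ h in 𝓝[>] (0 : ℝ), -ε * h ^ 2 ≤ Ψ h + Ψ (-h) - 2 * Ψ 0 := by
  have h3 := (hasDerivAt_iff_isLittleO.1 h2).def (half_pos hε)
  obtain ⟨δ, hδ, hb⟩ := Metric.eventually_nhds_iff.1 h3
  filter_upwards [Ioo_mem_nhdsGT hδ] with h hh
  set φ := fun x : ℝ => Ψ x + Ψ (-x) + ε * x ^ 2 with hφ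
  have hφd : ∀ x : ℝ, HasDerivAt φ (ψ x - ψ (-x) + 2 * ε * x) x := by
    intro x
    refine (((h1 x).add ((h1 (-x)).comp x (hasDerivAt_neg x))).add
      ((hasDerivAt_pow 2 x).const_mul ε)).congr_deriv ?_
    push_cast; ring
  have hm : MonotoneOn φ (Set.Icc 0 h) := by
    refine monotoneOn_of_deriv_nonneg (convex_Icc 0 h)
      (fun x _ => (hφd x).continuousAt.continuousWithinAt)
      (fun x _ => (hφd x).differentiableAt.differentiableWithinAt) fun x hx => ?_
    rw [interior_Icc] at hx
    rw [(hφd x).deriv]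
    have a := hb (show dist x 0 < δ by
      rw [Real.dist_eq, sub_zero, abs_of_pos hx.1]; linarith [hx.2, hh.2])
    have b := hb (show dist (-x) 0 < δ by
      rw [Real.dist_eq, sub_zero, abs_neg, abs_of_pos hx.1]; linarith [hx.2, hh.2])
    simp only [sub_zero, smul_eq_mul, Real.norm_eq_abs, abs_neg, abs_of_pos hx.1] at a b
    have := mul_nonneg hx.1.le hd
    have := mul_pos hε hx.1
    linarith [(abs_le.1 a).1, (abs_le.1 b).2]
  have := hm (Set.left_mem_Icc.2 hh.1.le) (Set.right_mem_Icc.2 hh.1.le) hh.1.le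
  simp only [hφ, neg_zero] at this
  linarith

/-- The diagonal of signs of a grading. -/
def sgn (g : ι → Fin 2) : Matrix ι ι ℂ := diagonal fun i => if g i = 0 then 1 else -1

theorem pinch_eq_half (g : ι → Fin 2) (A : Matrix ι ι ℂ) :
    pinch g A = (1 / 2 : ℂ) • (A + sgn g * A * sgn g) := by
  ext i j
  simp only [pinch, sgn, Matrix.of_apply, Matrix.smul_apply, Matrix.add_apply, mul_diagonal,
    diagonal_mul, smul_eq_mul]
  rcases Fin.eq_zero_or_eq_succ (g i) with hi | ⟨k, hi⟩ <;>
    rcases Fin.eq_zero_or_eq_succ (g j) with hj | ⟨l, hj⟩ <;>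
    simp [hi, hj, Subsingleton.elim _ (0 : Fin 1)] <;> ring

theorem sgn_mul_sgn (g : ι → Fin 2) : sgn g * sgn g = 1 := by
  rw [sgn, diagonal_mul_diagonal, ← diagonal_one]
  congr 1
  funext i
  split_ifs <;> ring

theorem sgn_conjTranspose (g : ι → Fin 2) : (sgn g)ᴴ = sgn g := by
  rw [sgn, diagonal_conjTranspose]
  congr 1
  funext i
  simp only [Pi.star_apply]
  split_ifs <;> simp

theorem pinch_fixed_iff {g : ι → Fin 2} {A : Matrix ι ι ℂ} :
    pinch g A = A ↔ Commute (sgn g) A := by
  constructor
  · intro h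
    rw [← h]
    ext i j
    simp only [sgn, pinch, mul_diagonal, diagonal_mul, Matrix.of_apply]
    split_ifs <;> simp_all
  · intro h
    rw [pinch_eq_half, h.eq, Matrix.mul_assoc, sgn_mul_sgn, Matrix.mul_one, smul_add, ← add_smul]
    norm_num

/-- Preimage of a block-diagonal Hermitian matrix under the derivative of `exp` at `Z`. -/
theorem exists_preimage (g : ι → Fin 2) {Z D : Matrix ι ι ℂ} (hZ : Z.IsHermitian)
    (hZb : pinch g Z = Z) (hD : D.IsHermitian) (hDb : pinch g D = D) :
    ∃ L : Matrix ι ι ℂ, L.IsHermitian ∧ pinch g L = L ∧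
      ∀ M, (∫ s in (0 : ℝ)..1, duh M Z Z L s) = (M * D).trace.re := by
  obtain ⟨V, z, v1, v2, hZe, -, -⟩ := exp_frame hZ
  set m : ι → ι → ℝ := fun i j => ∫ s in (0 : ℝ)..1, Real.exp (s * z i) * Real.exp ((1 - s) * z j)
    with hm
  have hcm : ∀ i j, Continuous fun s : ℝ => Real.exp (s * z i) * Real.exp ((1 - s) * z j) :=
    fun i j => by fun_prop
  have hm0 : ∀ i j, 0 < m i j := fun i j =>
    intervalIntegral.intervalIntegral_pos_of_pos ((hcm i j).intervalIntegrable _ _)
      (fun s => by positivity) one_pos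
  have hms : ∀ i j, m i j = m j i := by
    intro i j
    simp only [hm]
    have := intervalIntegral.integral_comp_sub_left (a := 0) (b := 1)
      (fun s => Real.exp (s * z j) * Real.exp ((1 - s) * z i)) 1
    rw [sub_self, sub_zero] at this
    rw [← this]
    refine intervalIntegral.integral_congr fun s _ => ?_
    simp only [sub_sub_cancel]
    ring
  set C : Matrix ι ι ℂ := of fun i j => (Vᴴ * D * V) i j / (m i j : ℂ) with hC
  set L₀ := V * C * Vᴴ with hL₀
  have hC' : C.IsHermitian := by
    ext i j
    have hD' := congrFun (congrFun (isHermitian_conjTranspose_mul_mul V hD).eq i) j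
    rw [conjTranspose_apply] at hD'
    simp only [hC, conjTranspose_apply, of_apply, star_div₀, hD']
    rw [hms j i, Complex.star_def, Complex.conj_ofReal]
  have hL₀h : L₀.IsHermitian := isHermitian_mul_mul_conjTranspose V hC'
  have hexp : ∀ s : ℝ, NormedSpace.exp (s • Z) =
      V * diagonal (fun i => (Real.exp (s * z i) : ℂ)) * Vᴴ := by
    intro s
    rw [← exp_conj_diag v1 v2]
    congr 1
    conv_lhs => rw [hZe]
    rw [← Matrix.smul_mul, ← Matrix.mul_smul, ← diagonal_smul]
    congr 3
    funext i
    simp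
  have hT : ∀ M, (∫ s in (0 : ℝ)..1, duh M Z Z L₀ s) = (M * D).trace.re := by
    intro M
    set M' := Vᴴ * M * V with hM'
    have hs : ∀ s : ℝ, duh M Z Z L₀ s =
        ∑ i, ∑ j, (M' j i * C i j).re * (Real.exp (s * z i) * Real.exp ((1 - s) * z j)) := by
      intro s
      rw [duh, hexp, hexp, hL₀]
      have e : V * diagonal (fun i => (Real.exp (s * z i) : ℂ)) * Vᴴ * (V * C * Vᴴ) *
          (V * diagonal (fun i => (Real.exp ((1 - s) * z i) : ℂ)) * Vᴴ) =
          V * (diagonal (fun i => (Real.exp (s * z i) : ℂ)) * (Vᴴ * V) * C * (Vᴴ * V) *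
            diagonal (fun i => (Real.exp ((1 - s) * z i) : ℂ))) * Vᴴ := by
        simp only [Matrix.mul_assoc]
      rw [e, v2, Matrix.mul_one, Matrix.mul_one, ← Matrix.mul_assoc, trace_mul_comm,
        ← Matrix.mul_assoc, ← Matrix.mul_assoc, ← hM']
      simp only [trace, diag, Matrix.mul_apply (M := M'), Complex.re_sum, mul_diagonal,
        diagonal_mul]
      rw [Finset.sum_comm]
      refine Finset.sum_congr rfl fun i _ => Finset.sum_congr rfl fun j _ => ?_
      simp [Complex.mul_re, Complex.mul_im, -Complex.ofReal_exp]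
      ring
    simp only [hs]
    have hi2 : ∀ i j, Continuous fun s : ℝ =>
        (M' j i * C i j).re * (Real.exp (s * z i) * Real.exp ((1 - s) * z j)) :=
      fun i j => continuous_const.mul (hcm i j)
    rw [intervalIntegral.integral_finsetSum fun i _ =>
      (continuous_finsetSum _ fun j _ => hi2 i j).intervalIntegrable _ _]
    simp only [intervalIntegral.integral_finsetSum fun j _ => (hi2 _ j).intervalIntegrable _ _,
      intervalIntegral.integral_const_mul]
    have e : (M * D).trace = (M' * (Vᴴ * D * V)).trace := by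
      rw [hM', show Vᴴ * M * V * (Vᴴ * D * V) = Vᴴ * (M * (V * Vᴴ) * D * V) by
        simp only [Matrix.mul_assoc], v1, Matrix.mul_one, trace_mul_comm Vᴴ,
        Matrix.mul_assoc (M * D), v1, Matrix.mul_one]
    rw [e]
    simp only [trace, diag, Matrix.mul_apply (M := M'), Complex.re_sum]
    rw [Finset.sum_comm]
    refine Finset.sum_congr rfl fun j _ => Finset.sum_congr rfl fun i _ => ?_
    have hne : (m i j : ℂ) ≠ 0 := by exact_mod_cast (hm0 i j).ne'
    rw [show (∫ s in (0 : ℝ)..1, Real.exp (s * z i) * Real.exp ((1 - s) * z j)) = m i j from rfl,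
      mul_comm, ← Complex.re_ofReal_mul]
    congr 1
    simp only [hC, of_apply]
    field_simp
  refine ⟨pinch g L₀, ?_, ?_, fun M => ?_⟩
  · ext i j
    simp only [conjTranspose_apply, pinch, of_apply]
    have := congrFun (congrFun hL₀h.eq i) j
    rw [conjTranspose_apply] at this
    by_cases h : g i = g j
    · rw [if_pos h, if_pos h.symm, this]
    · rw [if_neg h, if_neg (Ne.symm h), star_zero]
  · ext i j
    simp only [pinch, of_apply]
    split_ifs <;> rfl
  · have hJ : Commute (sgn g) Z := pinch_fixed_iff.1 hZb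
    have hJD : Commute (sgn g) D := pinch_fixed_iff.1 hDb
    have hsplit : ∀ s, duh M Z Z (pinch g L₀) s =
        1 / 2 * (duh M Z Z L₀ s + duh (sgn g * M * sgn g) Z Z L₀ s) := by
      intro s
      have c1 : Commute (sgn g) (NormedSpace.exp (s • Z)) := (hJ.smul_right s).exp_right
      have c2 : Commute (sgn g) (NormedSpace.exp ((1 - s) • Z)) := (hJ.smul_right _).exp_right
      simp only [duh, pinch_eq_half, Matrix.mul_add, Matrix.add_mul, Matrix.mul_smul,
        Matrix.smul_mul, trace_smul, trace_add, smul_eq_mul]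
      have e : NormedSpace.exp (s • Z) * (sgn g * L₀ * sgn g) * NormedSpace.exp ((1 - s) • Z) =
          sgn g * (NormedSpace.exp (s • Z) * L₀ * NormedSpace.exp ((1 - s) • Z)) * sgn g := by
        simp only [← Matrix.mul_assoc, ← c1.eq]
        simp only [Matrix.mul_assoc, c2.eq]
      have e2 : ∀ Y : Matrix ι ι ℂ, (M * (sgn g * Y * sgn g)).trace = (sgn g * M * sgn g * Y).trace := by
        intro Y
        rw [← Matrix.mul_assoc M, trace_mul_comm, ← Matrix.mul_assoc M, ← Matrix.mul_assoc (sgn g)]
        simp only [Matrix.mul_assoc]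
      rw [e, e2]
      simp only [Matrix.mul_assoc, Complex.mul_re, Complex.add_re]
      norm_num
    simp only [hsplit]
    have hcd : ∀ M', IntervalIntegrable (duh M' Z Z L₀) volume 0 1 := fun M' =>
      (continuous_duh_zero M' Z L₀).intervalIntegrable _ _
    rw [intervalIntegral.integral_const_mul, intervalIntegral.integral_add (hcd _) (hcd _), hT, hT]
    rw [show sgn g * M * sgn g * D = sgn g * (M * (D * sgn g)) by
      rw [← hJD.eq]; simp only [Matrix.mul_assoc], trace_mul_comm (sgn g)]
    simp only [Matrix.mul_assoc, sgn_mul_sgn, Matrix.mul_one]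
    ring

end Vale.Agent.P358.Gen
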