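import Vale.Agent.P358.Gen.Defs
import Vale.Agent.P358.Entropy

/-!
# Gibbs inequalities and continuity of the entropy
-/

namespace Vale.Agent.P358.Gen

open Matrix Real
open scoped ComplexOrder Matrix.Norms.L2Operator

variable {ι : Type} [Fintype ι] [DecidableEq ι]

/-- Trace of a product of two spectrally decomposed matrices. -/
theorem trace_spec_mul (U V : Matrix ι ι ℂ) (a b : ι → ℝ) :
    ((U * diagonal (fun i => (a i : ℂ)) * Uᴴ) *
      (V * diagonal (fun i => (b i : ℂ)) * Vᴴ)).trace.re =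
      ∑ i, ∑ j, Complex.normSq ((Uᴴ * V) i j) * (a i * b j) := by
  have h : ((U * diagonal (fun i => (a i : ℂ)) * Uᴴ) *
      (V * diagonal (fun i => (b i : ℂ)) * Vᴴ)).trace =
      (diagonal (fun i => (a i : ℂ)) * (Uᴴ * V) * diagonal (fun i => (b i : ℂ)) *
        (Uᴴ * V)ᴴ).trace := by
    rw [conjTranspose_mul, conjTranspose_conjTranspose]
    simp only [Matrix.mul_assoc]
    rw [trace_mul_comm U]
    simp only [Matrix.mul_assoc]
  rw [h]
  generalize Uᴴ * V = O
  simp only [trace, diag, Matrix.mul_apply (M := _ * _ * _), mul_diagonal, diagonal_mul,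
    Complex.re_sum, conjTranspose_apply]
  refine Finset.sum_congr rfl fun i _ => Finset.sum_congr rfl fun j _ => ?_
  simp [Complex.normSq_apply, Complex.mul_re, Complex.mul_im]
  ring

theorem overlap_row {U V : Matrix ι ι ℂ} (hU : Uᴴ * U = 1) (hV : V * Vᴴ = 1) (i : ι) :
    ∑ j, Complex.normSq ((Uᴴ * V) i j) = 1 := by
  have h : (Uᴴ * V) * (Uᴴ * V)ᴴ = 1 := by
    rw [conjTranspose_mul, conjTranspose_conjTranspose, Matrix.mul_assoc,
      ← Matrix.mul_assoc V, hV, Matrix.one_mul, hU]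
  have h2 := congrArg Complex.re (congrFun (congrFun h i) i)
  rw [Matrix.mul_apply, Complex.re_sum] at h2
  simpa [Complex.normSq_apply, Complex.mul_re] using h2

theorem overlap_col {U V : Matrix ι ι ℂ} (hU : U * Uᴴ = 1) (hV : Vᴴ * V = 1) (j : ι) :
    ∑ i, Complex.normSq ((Uᴴ * V) i j) = 1 := by
  have h := overlap_row hV hU j
  rw [← h]
  refine Finset.sum_congr rfl fun i _ => ?_
  have e : (Vᴴ * U) j i = star ((Uᴴ * V) i j) := by
    rw [← conjTranspose_apply, conjTranspose_mul, conjTranspose_conjTranspose]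
  rw [e, Complex.star_def, Complex.normSq_conj]

/-- The trace of a matrix in a unitary frame. -/
theorem trace_conj_diag {U : Matrix ι ι ℂ} (h : Uᴴ * U = 1) (a : ι → ℝ) :
    (U * diagonal (fun i => (a i : ℂ)) * Uᴴ).trace.re = ∑ i, a i := by
  rw [trace_mul_comm, ← Matrix.mul_assoc, h, Matrix.one_mul, trace_diagonal, Complex.re_sum]
  exact Finset.sum_congr rfl fun i _ => Complex.ofReal_re _

/-- The exponential in a unitary frame. -/
theorem exp_conj_diag {U : Matrix ι ι ℂ} (h1 : U * Uᴴ = 1) (h2 : Uᴴ * U = 1) (e : ι → ℝ) :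
    NormedSpace.exp (U * diagonal (fun i => (e i : ℂ)) * Uᴴ) =
      U * diagonal (fun i => (Real.exp (e i) : ℂ)) * Uᴴ := by
  let u : (Matrix ι ι ℂ)ˣ := ⟨U, Uᴴ, h1, h2⟩
  have h := Matrix.exp_units_conj u (diagonal fun i => (e i : ℂ))
  change NormedSpace.exp (U * diagonal (fun i => (e i : ℂ)) * Uᴴ) =
    U * NormedSpace.exp (diagonal fun i => (e i : ℂ)) * Uᴴ at h
  rw [h, Matrix.exp_diagonal]
  congr 3
  funext i
  rw [Pi.coe_exp, ← Complex.exp_eq_exp_ℂ, Complex.ofReal_exp]

/-- A spectral frame of a Hermitian matrix, of its exponential and of the inverse of the latter. -/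
theorem exp_frame {H : Matrix ι ι ℂ} (hH : H.IsHermitian) :
    ∃ (V : Matrix ι ι ℂ) (e : ι → ℝ), V * Vᴴ = 1 ∧ Vᴴ * V = 1 ∧
      H = V * diagonal (fun i => (e i : ℂ)) * Vᴴ ∧
      NormedSpace.exp H = V * diagonal (fun i => (Real.exp (e i) : ℂ)) * Vᴴ ∧
      NormedSpace.exp (-H) = V * diagonal (fun i => (Real.exp (-e i) : ℂ)) * Vᴴ := by
  refine ⟨_, hH.eigenvalues, eigU_mul_conj hH, eigU_conj_mul hH, eq_eigU_diag hH, ?_, ?_⟩
  · conv_lhs => rw [eq_eigU_diag hH]
    exact exp_conj_diag (eigU_mul_conj hH) (eigU_conj_mul hH) _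
  · rw [← exp_conj_diag (eigU_mul_conj hH) (eigU_conj_mul hH)]
    congr 1
    conv_lhs => rw [eq_eigU_diag hH]
    rw [← Matrix.neg_mul, ← Matrix.mul_neg, diagonal_neg]
    congr 3
    funext i
    simp

/-- `S(X) + tr X H - tr e^H + tr X` as a sum over the overlaps of the two eigenbases. -/
theorem gibbs_form {X H : Matrix ι ι ℂ} (hX : X.PosSemidef) (hH : H.IsHermitian) :
    ∃ (U V : Matrix ι ι ℂ) (x e : ι → ℝ), U * Uᴴ = 1 ∧ Uᴴ * U = 1 ∧ V * Vᴴ = 1 ∧ Vᴴ * V = 1 ∧
      (∀ i, 0 ≤ x i) ∧ X = U * diagonal (fun i => (x i : ℂ)) * Uᴴ ∧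
      NormedSpace.exp H = V * diagonal (fun i => (Real.exp (e i) : ℂ)) * Vᴴ ∧
      NormedSpace.exp (-H) = V * diagonal (fun i => (Real.exp (-e i) : ℂ)) * Vᴴ ∧
      vN X + (X * H).trace.re - (NormedSpace.exp H).trace.re + X.trace.re =
        ∑ i, ∑ j, Complex.normSq ((Uᴴ * V) i j) *
          (negMulLog (x i) + x i * e j - Real.exp (e j) + x i) := by
  obtain ⟨V, e, v1, v2, hHe, hExp, hNeg⟩ := exp_frame hH
  set x := hX.1.eigenvalues with hx
  set U : Matrix ι ι ℂ := (hX.1.eigenvectorUnitary : Matrix ι ι ℂ) with hU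
  have u1 : U * Uᴴ = 1 := eigU_mul_conj hX.1
  have u2 : Uᴴ * U = 1 := eigU_conj_mul hX.1
  have hXe : X = U * diagonal (fun i => (x i : ℂ)) * Uᴴ := eq_eigU_diag hX.1
  refine ⟨U, V, x, e, u1, u2, v1, v2, hX.eigenvalues_nonneg, hXe, hExp, hNeg, ?_⟩
  have a1 : vN X = ∑ i, ∑ j, Complex.normSq ((Uᴴ * V) i j) * negMulLog (x i) := by
    rw [vN, dif_pos hX.1]
    refine Finset.sum_congr rfl fun i _ => ?_
    rw [← Finset.sum_mul, overlap_row u2 v1, one_mul, hx]
  have a2 : (X * H).trace.re = ∑ i, ∑ j, Complex.normSq ((Uᴴ * V) i j) * (x i * e j) := by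
    rw [← trace_spec_mul, ← hXe, ← hHe]
  have a3 : (NormedSpace.exp H).trace.re =
      ∑ i, ∑ j, Complex.normSq ((Uᴴ * V) i j) * Real.exp (e j) := by
    rw [hExp, trace_conj_diag v2, Finset.sum_comm]
    refine Finset.sum_congr rfl fun j _ => ?_
    rw [← Finset.sum_mul, overlap_col u1 v2, one_mul]
  have a4 : X.trace.re = ∑ i, ∑ j, Complex.normSq ((Uᴴ * V) i j) * x i := by
    rw [← sum_eigenvalues_eq_trace hX.1]
    refine Finset.sum_congr rfl fun i _ => ?_
    rw [← Finset.sum_mul, overlap_row u2 v1, one_mul, hx]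
  rw [a1, a2, a3, a4]
  simp only [mul_add, mul_sub, Finset.sum_add_distrib, Finset.sum_sub_distrib]

theorem gibbs_scalar {x : ℝ} (hx : 0 ≤ x) (y : ℝ) :
    negMulLog x + x * y - Real.exp y + x ≤ 0 ∧
      (negMulLog x + x * y - Real.exp y + x = 0 → x = Real.exp y) ∧
      -((x - Real.exp y) ^ 2 * Real.exp (-y)) ≤ negMulLog x + x * y - Real.exp y + x := by
  have hpos := Real.exp_pos y
  have hinv : Real.exp (-y) * Real.exp y = 1 := by rw [← Real.exp_add]; simp
  rcases hx.lt_or_eq with hx' | hx'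
  · set r := Real.exp y / x with hr
    have hr0 : 0 < r := div_pos hpos hx'
    have hlog : Real.log r = y - Real.log x := by
      rw [hr, Real.log_div hpos.ne' hx'.ne', Real.log_exp]
    have key : negMulLog x + x * y - Real.exp y + x = x * (Real.log r - (r - 1)) := by
      rw [hlog, negMulLog_eq_neg, hr]; field_simp; ring
    refine ⟨?_, fun h => ?_, ?_⟩
    · rw [key]
      exact mul_nonpos_of_nonneg_of_nonpos hx (by linarith [Real.log_le_sub_one_of_pos hr0])
    · rw [key] at h
      by_contra hne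
      have hr1 : r ≠ 1 := by
        intro h1; rw [hr, div_eq_one_iff_eq hx'.ne'] at h1; exact hne h1.symm
      have := Real.log_lt_sub_one_of_pos hr0 hr1
      rcases mul_eq_zero.1 h with h | h <;> linarith
    · have hl : Real.log x - y ≤ x * Real.exp (-y) - 1 := by
        have := Real.log_le_sub_one_of_pos (mul_pos hx' (Real.exp_pos (-y)))
        rwa [Real.log_mul hx'.ne' (Real.exp_pos _).ne', Real.log_exp, ← sub_eq_add_neg] at this
      have h2 := mul_le_mul_of_nonneg_left hl hx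
      have hsq : (x - Real.exp y) ^ 2 * Real.exp (-y) =
          x * (x * Real.exp (-y) - 1) - x + Real.exp y := by
        linear_combination (Real.exp y - 2 * x) * hinv
      have hn : negMulLog x + x * y = -(x * (Real.log x - y)) := by
        rw [negMulLog_eq_neg]; ring
      rw [hsq]; linarith
  · subst hx'
    refine ⟨by simp [hpos.le], fun h => ?_, ?_⟩
    · simp at h
    · have : (0 - Real.exp y) ^ 2 * Real.exp (-y) = Real.exp y := by
        linear_combination (Real.exp y) * hinv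
      rw [this]; simp

/-- The Gibbs variational inequality. -/
theorem gibbs {X H : Matrix ι ι ℂ} (hX : X.PosSemidef) (hH : H.IsHermitian) :
    vN X + (X * H).trace.re - (NormedSpace.exp H).trace.re + X.trace.re ≤ 0 := by
  obtain ⟨U, V, x, e, _, _, _, _, hx, _, _, _, hf⟩ := gibbs_form hX hH
  rw [hf]
  exact Finset.sum_nonpos fun i _ => Finset.sum_nonpos fun j _ =>
    mul_nonpos_of_nonneg_of_nonpos (Complex.normSq_nonneg _) (gibbs_scalar (hx i) _).1

/-- The equality case of the Gibbs inequality. -/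
theorem gibbs_eq {X H : Matrix ι ι ℂ} (hX : X.PosSemidef) (hH : H.IsHermitian)
    (h : 0 ≤ vN X + (X * H).trace.re - (NormedSpace.exp H).trace.re + X.trace.re) :
    X = NormedSpace.exp H := by
  obtain ⟨U, V, x, e, u1, u2, v1, v2, hx, hXe, hExp, _, hf⟩ := gibbs_form hX hH
  rw [hf] at h
  have hnp : ∀ i j, Complex.normSq ((Uᴴ * V) i j) *
      (negMulLog (x i) + x i * e j - Real.exp (e j) + x i) ≤ 0 := fun i j =>
    mul_nonpos_of_nonneg_of_nonpos (Complex.normSq_nonneg _) (gibbs_scalar (hx i) _).1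
  have h0 : ∀ i j, Complex.normSq ((Uᴴ * V) i j) *
      (negMulLog (x i) + x i * e j - Real.exp (e j) + x i) = 0 := by
    intro i j
    have hs := (Finset.sum_nonpos fun i (_ : i ∈ Finset.univ) =>
      Finset.sum_nonpos fun j (_ : j ∈ Finset.univ) => hnp i j).antisymm h
    have hi := (Finset.sum_eq_zero_iff_of_nonpos fun i _ =>
      Finset.sum_nonpos fun j _ => hnp i j).1 hs i (Finset.mem_univ _)
    exact (Finset.sum_eq_zero_iff_of_nonpos fun j _ => hnp i j).1 hi j (Finset.mem_univ _)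
  have hO : diagonal (fun i => (x i : ℂ)) * (Uᴴ * V) =
      (Uᴴ * V) * diagonal (fun i => (Real.exp (e i) : ℂ)) := by
    ext i j
    rw [diagonal_mul, mul_diagonal]
    rcases mul_eq_zero.1 (h0 i j) with hz | hz
    · rw [Complex.normSq_eq_zero.1 hz]; simp
    · rw [(gibbs_scalar (hx i) _).2.1 hz, mul_comm]
  calc X = U * (diagonal (fun i => (x i : ℂ)) * (Uᴴ * V)) * Vᴴ := by
        simp only [Matrix.mul_assoc, v1, Matrix.mul_one]
        rw [← Matrix.mul_assoc, ← hXe]
    _ = NormedSpace.exp H := by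
        rw [hO, hExp]
        simp only [← Matrix.mul_assoc, u1, Matrix.one_mul]

/-- The quadratic lower bound in the Gibbs inequality. -/
theorem gibbs_lower {X H : Matrix ι ι ℂ} (hX : X.PosSemidef) (hH : H.IsHermitian) :
    -((X - NormedSpace.exp H) * (X - NormedSpace.exp H) * NormedSpace.exp (-H)).trace.re ≤
      vN X + (X * H).trace.re - (NormedSpace.exp H).trace.re + X.trace.re := by
  obtain ⟨U, V, x, e, u1, u2, v1, v2, hx, hXe, hExp, hNeg, hf⟩ := gibbs_form hX hH
  have hinv : NormedSpace.exp H * NormedSpace.exp (-H) = 1 := by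
    rw [← Matrix.exp_add_of_commute _ _ (Commute.refl H).neg_right, add_neg_cancel,
      NormedSpace.exp_zero]
  rw [hf]
  set E := NormedSpace.exp H with hE
  set G := NormedSpace.exp (-H) with hG
  have e1 : ((X - E) * (X - E) * G).trace.re = (X * X * G).trace.re - 2 * X.trace.re + E.trace.re := by
    have h1 : (X * (E * G)).trace = X.trace := by rw [hinv, Matrix.mul_one]
    have h2 : (E * (X * G)).trace = X.trace := by
      rw [trace_mul_comm, Matrix.mul_assoc, show G * E = 1 from mul_eq_one_comm.1 hinv,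
        Matrix.mul_one]
    have h3 : (E * (E * G)).trace = E.trace := by rw [hinv, Matrix.mul_one]
    simp only [sub_mul, mul_sub, trace_sub, Matrix.mul_assoc, Complex.sub_re]
    rw [h1, h2, h3]; ring
  have hX2 : X * X = U * diagonal (fun i => ((x i * x i : ℝ) : ℂ)) * Uᴴ := by
    conv_lhs => rw [hXe]
    calc U * diagonal (fun i => (x i : ℂ)) * Uᴴ * (U * diagonal (fun i => (x i : ℂ)) * Uᴴ)
        = U * (diagonal (fun i => (x i : ℂ)) * (Uᴴ * U) * diagonal (fun i => (x i : ℂ))) * Uᴴ := by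
          simp only [Matrix.mul_assoc]
      _ = _ := by
          rw [u2, Matrix.mul_one, diagonal_mul_diagonal]
          congr 3; funext i; push_cast; rfl
  have t1 : (X * X * G).trace.re =
      ∑ i, ∑ j, Complex.normSq ((Uᴴ * V) i j) * (x i * x i * Real.exp (-e j)) := by
    rw [hX2, hNeg, trace_spec_mul]
  have t2 : X.trace.re = ∑ i, ∑ j, Complex.normSq ((Uᴴ * V) i j) * x i := by
    conv_lhs => rw [hXe, trace_conj_diag u2]
    refine Finset.sum_congr rfl fun i _ => ?_
    rw [← Finset.sum_mul, overlap_row u2 v1, one_mul]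
  have t3 : E.trace.re = ∑ i, ∑ j, Complex.normSq ((Uᴴ * V) i j) * Real.exp (e j) := by
    rw [hExp, trace_conj_diag v2, Finset.sum_comm]
    refine Finset.sum_congr rfl fun j _ => ?_
    rw [← Finset.sum_mul, overlap_col u1 v2, one_mul]
  rw [e1, t1, t2, t3, Finset.mul_sum]
  simp only [Finset.mul_sum, ← Finset.sum_sub_distrib, ← Finset.sum_add_distrib,
    ← Finset.sum_neg_distrib]
  refine Finset.sum_le_sum fun i _ => Finset.sum_le_sum fun j _ => ?_
  have hinv' : Real.exp (-e j) * Real.exp (e j) = 1 := by rw [← Real.exp_add]; simp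
  calc _ = Complex.normSq ((Uᴴ * V) i j) *
        -((x i - Real.exp (e j)) ^ 2 * Real.exp (-e j)) := by
        linear_combination (Complex.normSq ((Uᴴ * V) i j) * (Real.exp (e j) - 2 * x i)) * hinv'
    _ ≤ _ := mul_le_mul_of_nonneg_left (gibbs_scalar (hx i) _).2.2 (Complex.normSq_nonneg _)

/-- The entropy of an exponential. -/
theorem vN_exp {H : Matrix ι ι ℂ} (hH : H.IsHermitian) :
    vN (NormedSpace.exp H) = -(NormedSpace.exp H * H).trace.re := by
  obtain ⟨V, e, v1, v2, hHe, hExp, _⟩ := exp_frame hH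
  rw [hExp, vN_isometry_conj V v2, vN_diagonal]
  conv_rhs => rw [hHe]
  rw [trace_spec_mul, v2, ← Finset.sum_neg_distrib]
  refine Finset.sum_congr rfl fun i _ => ?_
  rw [Finset.sum_eq_single i (fun j _ hji => by simp [Ne.symm hji]) (by simp)]
  simp [negMulLog_eq_neg, mul_comm]

theorem posDef_exp {H : Matrix ι ι ℂ} (hH : H.IsHermitian) : (NormedSpace.exp H).PosDef := by
  obtain ⟨V, e, v1, v2, _, hExp, _⟩ := exp_frame hH
  rw [hExp]
  refine (Matrix.PosDef.diagonal fun i => ?_).mul_mul_conjTranspose_same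
    (Matrix.vecMul_injective_of_isUnit ⟨⟨V, Vᴴ, v1, v2⟩, rfl⟩)
  exact_mod_cast Real.exp_pos (e i)

/-- Every positive definite matrix is the exponential of a Hermitian one. -/
theorem exists_log {E : Matrix ι ι ℂ} (hE : E.PosDef) :
    ∃ H : Matrix ι ι ℂ, H.IsHermitian ∧ NormedSpace.exp H = E := by
  set U : Matrix ι ι ℂ := (hE.1.eigenvectorUnitary : Matrix ι ι ℂ) with hU
  refine ⟨U * diagonal (fun i => ((Real.log (hE.1.eigenvalues i) : ℝ) : ℂ)) * Uᴴ,
    isHermitian_mul_mul_conjTranspose U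
      (isHermitian_diagonal_of_self_adjoint _ (funext fun i => Complex.conj_ofReal _)), ?_⟩
  rw [exp_conj_diag (eigU_mul_conj hE.1) (eigU_conj_mul hE.1)]
  conv_rhs => rw [eq_eigU_diag hE.1]
  congr 3
  funext i
  rw [Real.exp_log (hE.eigenvalues_pos i)]

/-- The exponential is injective on Hermitian matrices. -/
theorem exp_inj {A B : Matrix ι ι ℂ} (hA : A.IsHermitian) (hB : B.IsHermitian)
    (h : NormedSpace.exp A = NormedSpace.exp B) : A = B := by
  rw [← CFC.log_exp A hA.isSelfAdjoint, h, CFC.log_exp B hB.isSelfAdjoint]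

/-- The entropy is continuous on bounded sets of positive semidefinite matrices. -/
theorem continuousOn_vN (M : ℝ) :
    ContinuousOn (vN : Matrix ι ι ℂ → ℝ) {A | A.PosSemidef ∧ A.trace.re ≤ M} := by
  have h := (continuousOn_cfc (Matrix ι ι ℂ) (p := IsSelfAdjoint) (s := Set.Icc (0 : ℝ) M)
    isCompact_Icc negMulLog continuous_negMulLog.continuousOn).mono
      (t := {A | A.PosSemidef ∧ A.trace.re ≤ M}) (fun A hA => ⟨hA.1.1.isSelfAdjoint, by
        rw [hA.1.1.spectrum_real_eq_range_eigenvalues]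
        rintro _ ⟨i, rfl⟩
        exact ⟨hA.1.eigenvalues_nonneg i, ((Finset.single_le_sum
          (fun j _ => hA.1.eigenvalues_nonneg j) (Finset.mem_univ i)).trans_eq
            (sum_eigenvalues_eq_trace hA.1.1)).trans hA.2⟩⟩)
  refine ((Complex.continuous_re.comp continuous_id.matrix_trace).comp_continuousOn h).congr ?_
  intro A hA
  simp only [Function.comp_apply, id, vN, dif_pos hA.1.1]
  rw [hA.1.1.cfc_eq, Matrix.IsHermitian.cfc, Unitary.conjStarAlgAut_apply, trace_mul_comm,
    ← Matrix.mul_assoc, Unitary.coe_star_mul_self, Matrix.one_mul, trace_diagonal, Complex.re_sum]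
  exact Finset.sum_congr rfl fun i _ => (Complex.ofReal_re _).symm

end Vale.Agent.P358.Gen
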