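import Vale.Agent.P358.Gen.MaxPrinciple
import Vale.Agent.P358.Gen.Defs
import Vale.Agent.P358.Entropy

/-!
# The operator inequality behind the convexity of `omegaC`
-/

namespace Vale.Agent.P358.Gen

open Matrix Real Finset
open scoped ComplexOrder

set_option linter.unusedSectionVars false

variable {ι : Type} [Fintype ι] [DecidableEq ι]

/-- `exp (t H)` for a real `t`. -/
noncomputable def texp (H : Matrix ι ι ℂ) (t : ℝ) : Matrix ι ι ℂ :=
  NormedSpace.exp ((t : ℂ) • H)

theorem texp_one (H : Matrix ι ι ℂ) : texp H 1 = NormedSpace.exp H := by simp [texp]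

theorem texp_zero (H : Matrix ι ι ℂ) : texp H 0 = 1 := by simp [texp, NormedSpace.exp_zero]

theorem texp_spectral {H : Matrix ι ι ℂ} (hH : H.IsHermitian) (t : ℝ) :
    texp H t = (hH.eigenvectorUnitary : Matrix ι ι ℂ) *
      diagonal (fun i => (Real.exp (t * hH.eigenvalues i) : ℂ)) *
      (hH.eigenvectorUnitary : Matrix ι ι ℂ)ᴴ := by
  set U : Matrix ι ι ℂ := (hH.eigenvectorUnitary : Matrix ι ι ℂ) with hU
  have h1 : U * Uᴴ = 1 := eigU_mul_conj hH
  have hinv : U⁻¹ = Uᴴ := Matrix.inv_eq_right_inv h1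
  have h2 : (t : ℂ) • H = U * diagonal (fun i => ((t * hH.eigenvalues i : ℝ) : ℂ)) * U⁻¹ := by
    conv_lhs => rw [eq_eigU_diag hH, ← hU]
    rw [hinv, ← Matrix.smul_mul, ← Matrix.mul_smul, ← diagonal_smul]
    congr; funext i; simp
  rw [texp, h2, Matrix.exp_conj U _ (IsUnit.of_mul_eq_one _ h1), Matrix.exp_diagonal, hinv]
  congr; funext i
  rw [Pi.coe_exp, Complex.ofReal_exp, Complex.exp_eq_exp_ℂ]

/-- `Re tr (xᴴ e^{sH} y e^{(1-s)H})`. -/
noncomputable def powForm (H : Matrix ι ι ℂ) (s : ℝ) (x y : Matrix ι ι ℂ) : ℝ :=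
  (xᴴ * texp H s * y * texp H (1 - s)).trace.re

theorem powForm_add_left (H : Matrix ι ι ℂ) (s : ℝ) (x x' y : Matrix ι ι ℂ) :
    powForm H s (x + x') y = powForm H s x y + powForm H s x' y := by
  simp [powForm, conjTranspose_add, Matrix.add_mul, trace_add]

theorem powForm_add_right (H : Matrix ι ι ℂ) (s : ℝ) (x y y' : Matrix ι ι ℂ) :
    powForm H s x (y + y') = powForm H s x y + powForm H s x y' := by
  simp [powForm, Matrix.mul_add, Matrix.add_mul, trace_add]

theorem powForm_at_zero (H x : Matrix ι ι ℂ) :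
    powForm H 0 x x = (xᴴ * x * NormedSpace.exp H).trace.re := by
  simp [powForm, texp_zero, texp_one]

theorem powForm_at_one (H x : Matrix ι ι ℂ) :
    powForm H 1 x x = (x * xᴴ * NormedSpace.exp H).trace.re := by
  rw [powForm, sub_self, texp_zero, texp_one, Matrix.mul_one, trace_mul_cycle]

/-- The coordinates of a matrix in the eigenbasis of `H`, as a vector. -/
noncomputable def coord {H : Matrix ι ι ℂ} (hH : H.IsHermitian) :
    Matrix ι ι ℂ →ₗ[ℂ] (ι × ι → ℂ) where
  toFun x p := ((hH.eigenvectorUnitary : Matrix ι ι ℂ)ᴴ * x *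
    (hH.eigenvectorUnitary : Matrix ι ι ℂ)) p.1 p.2
  map_add' x y := by funext p; simp [Matrix.mul_add, Matrix.add_mul]
  map_smul' c x := by funext p; simp

/-- The inverse of `coord`. -/
noncomputable def uncoord {H : Matrix ι ι ℂ} (hH : H.IsHermitian) :
    (ι × ι → ℂ) →ₗ[ℂ] Matrix ι ι ℂ where
  toFun v := (hH.eigenvectorUnitary : Matrix ι ι ℂ) * Matrix.of (fun i j => v (i, j)) *
    (hH.eigenvectorUnitary : Matrix ι ι ℂ)ᴴ
  map_add' v w := by
    rw [← Matrix.add_mul, ← Matrix.mul_add]
    rfl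
  map_smul' c v := by
    simp only [RingHom.id_apply]
    rw [← Matrix.smul_mul, ← Matrix.mul_smul]
    rfl

theorem coord_uncoord {H : Matrix ι ι ℂ} (hH : H.IsHermitian) (v : ι × ι → ℂ) :
    coord hH (uncoord hH v) = v := by
  funext p
  have h := eigU_conj_mul hH
  show ((hH.eigenvectorUnitary : Matrix ι ι ℂ)ᴴ * ((hH.eigenvectorUnitary : Matrix ι ι ℂ) *
    Matrix.of (fun i j => v (i, j)) * (hH.eigenvectorUnitary : Matrix ι ι ℂ)ᴴ) *
    (hH.eigenvectorUnitary : Matrix ι ι ℂ)) p.1 p.2 = v p
  rw [show ∀ A B C : Matrix ι ι ℂ, Aᴴ * (A * B * Aᴴ) * A = (Aᴴ * A) * B * (Aᴴ * A) from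
    fun A B _ => by simp only [Matrix.mul_assoc]]
  · simp [h]
  · exact 0

theorem uncoord_coord {H : Matrix ι ι ℂ} (hH : H.IsHermitian) (x : Matrix ι ι ℂ) :
    uncoord hH (coord hH x) = x := by
  have h := eigU_mul_conj hH
  show (hH.eigenvectorUnitary : Matrix ι ι ℂ) * ((hH.eigenvectorUnitary : Matrix ι ι ℂ)ᴴ * x *
    (hH.eigenvectorUnitary : Matrix ι ι ℂ)) * (hH.eigenvectorUnitary : Matrix ι ι ℂ)ᴴ = x
  calc _ = ((hH.eigenvectorUnitary : Matrix ι ι ℂ) * (hH.eigenvectorUnitary : Matrix ι ι ℂ)ᴴ) * x *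
        ((hH.eigenvectorUnitary : Matrix ι ι ℂ) * (hH.eigenvectorUnitary : Matrix ι ι ℂ)ᴴ) := by
          simp only [Matrix.mul_assoc]
    _ = x := by rw [h, Matrix.one_mul, Matrix.mul_one]

/-- The exponent at the pair `p` at time zero. -/
noncomputable def expAlpha {H : Matrix ι ι ℂ} (hH : H.IsHermitian) (p : ι × ι) : ℝ :=
  hH.eigenvalues p.2

/-- The rate of the exponent at the pair `p`. -/
noncomputable def expBeta {H : Matrix ι ι ℂ} (hH : H.IsHermitian) (p : ι × ι) : ℝ :=
  hH.eigenvalues p.1 - hH.eigenvalues p.2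

theorem powForm_eq {H : Matrix ι ι ℂ} (hH : H.IsHermitian) (s : ℝ) (x y : Matrix ι ι ℂ) :
    powForm H s x y = ∑ p, Real.exp (expAlpha hH p + s * expBeta hH p) *
      (star (coord hH x p) * coord hH y p).re := by
  set U : Matrix ι ι ℂ := (hH.eigenvectorUnitary : Matrix ι ι ℂ) with hU
  have h1 : (xᴴ * texp H s * y * texp H (1 - s)).trace =
      ((Uᴴ * x * U)ᴴ * diagonal (fun i => (Real.exp (s * hH.eigenvalues i) : ℂ)) * (Uᴴ * y * U) *
        diagonal (fun i => (Real.exp ((1 - s) * hH.eigenvalues i) : ℂ))).trace := by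
    rw [texp_spectral hH, texp_spectral hH, ← hU]
    set D := diagonal (fun i => (Real.exp (s * hH.eigenvalues i) : ℂ))
    set D' := diagonal (fun i => (Real.exp ((1 - s) * hH.eigenvalues i) : ℂ))
    calc (xᴴ * (U * D * Uᴴ) * y * (U * D' * Uᴴ)).trace
        = ((xᴴ * U * D * Uᴴ * y * U * D') * Uᴴ).trace := by simp only [Matrix.mul_assoc]
      _ = (Uᴴ * (xᴴ * U * D * Uᴴ * y * U * D')).trace := trace_mul_comm _ _
      _ = _ := by simp only [conjTranspose_mul, conjTranspose_conjTranspose, Matrix.mul_assoc]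
  rw [powForm, h1, Fintype.sum_prod_type, Finset.sum_comm, Matrix.trace, Complex.re_sum]
  refine Finset.sum_congr rfl fun b _ => ?_
  rw [Matrix.diag_apply, mul_diagonal, Matrix.mul_apply, Finset.sum_mul, Complex.re_sum]
  refine Finset.sum_congr rfl fun a _ => ?_
  rw [mul_diagonal, conjTranspose_apply]
  rw [show Real.exp (expAlpha hH (a, b) + s * expBeta hH (a, b)) =
    Real.exp (s * hH.eigenvalues a) * Real.exp ((1 - s) * hH.eigenvalues b) by
      rw [← Real.exp_add]; simp only [expAlpha, expBeta]; ring_nf]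
  show (_ * _ * _ * _ : ℂ).re = _ * (star ((Uᴴ * x * U) a b) * (Uᴴ * y * U) a b).re
  simp [Complex.mul_re, Complex.mul_im, -Complex.ofReal_exp]
  ring

theorem coord_comm {H : Matrix ι ι ℂ} (hH : H.IsHermitian) (y : Matrix ι ι ℂ) :
    coord hH (H * y - y * H) = tilt (expBeta hH) (coord hH y) := by
  funext p
  set U : Matrix ι ι ℂ := (hH.eigenvectorUnitary : Matrix ι ι ℂ) with hU
  set D : Matrix ι ι ℂ := diagonal fun i => (hH.eigenvalues i : ℂ)
  have hD : Uᴴ * H * U = D := eigU_conj_self hH
  have h1 : U * Uᴴ = 1 := eigU_mul_conj hH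
  have e : Uᴴ * (H * y - y * H) * U = D * (Uᴴ * y * U) - (Uᴴ * y * U) * D := by
    rw [← hD, Matrix.mul_sub, Matrix.sub_mul]
    congr 1
    · calc Uᴴ * (H * y) * U = Uᴴ * H * (U * Uᴴ) * y * U := by
            rw [h1, Matrix.mul_one, ← Matrix.mul_assoc]
        _ = _ := by simp only [Matrix.mul_assoc]
    · calc Uᴴ * (y * H) * U = Uᴴ * y * (U * Uᴴ) * H * U := by
            rw [h1, Matrix.mul_one, ← Matrix.mul_assoc]
        _ = _ := by simp only [Matrix.mul_assoc]
  show (Uᴴ * (H * y - y * H) * U) p.1 p.2 = _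
  rw [e, Matrix.sub_apply, diagonal_mul, mul_diagonal]
  show _ = (expBeta hH p : ℂ) * (Uᴴ * y * U) p.1 p.2
  simp only [expBeta]
  push_cast
  ring

/-- The matrix of the weighted form `∑ p, e p * conj (M v) p * (M w) p`. -/
noncomputable def specForm {m : Type} [Fintype m] [DecidableEq m] {n : Type}
    (M : Matrix m n ℂ) (e : m → ℝ) : Matrix n n ℂ :=
  Mᴴ * diagonal (fun p => (e p : ℂ)) * M

theorem rform_specForm {m n : Type} [Fintype m] [DecidableEq m] [Fintype n] (M : Matrix m n ℂ)
    (e : m → ℝ) (v w : n → ℂ) :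
    rform v (specForm M e) w = ∑ p, e p * (star ((M *ᵥ v) p) * (M *ᵥ w) p).re := by
  rw [rform, specForm, ← mulVec_mulVec, ← mulVec_mulVec, dotProduct_mulVec, vecMul_conjTranspose,
    star_star, dotProduct, Complex.re_sum]
  refine Finset.sum_congr rfl fun p _ => ?_
  rw [mulVec_diagonal]
  simp [Complex.mul_re, Complex.mul_im]
  ring

theorem rform_sub {n : Type} [Fintype n] (v : n → ℂ) (A B : Matrix n n ℂ) (w : n → ℂ) :
    rform v (A - B) w = rform v A w - rform v B w := by
  simp [rform, Matrix.sub_mulVec, dotProduct_sub]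

theorem hasDerivAt_specForm {m n : Type} [Fintype m] [DecidableEq m] (M : Matrix m n ℂ)
    {e : ℝ → m → ℝ} {e' : m → ℝ} {s : ℝ} (h : ∀ p, HasDerivAt (fun t => e t p) (e' p) s) (i j : n) :
    HasDerivAt (fun t => specForm M (e t) i j) (specForm M e' i j) s := by
  simp only [specForm, Matrix.mul_apply (M := _ * _), mul_diagonal]
  exact HasDerivAt.fun_sum fun p _ => ((h p).ofReal_comp.const_mul _).mul_const _

theorem hasDerivAt_expLin {m : Type} (α β : m → ℝ) (k : ℕ) (p : m) (s : ℝ) :
    HasDerivAt (fun t => β p ^ k * Real.exp (α p + t * β p))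
      (β p ^ (k + 1) * Real.exp (α p + s * β p)) s :=
  ((((hasDerivAt_id' s).mul_const (β p)).const_add (α p)).exp.const_mul (β p ^ k)).congr_deriv
    (by rw [pow_succ]; ring)

/-- The weights `β ^ k * exp (α + s β)` in the eigenbasis of `H`. -/
noncomputable def weight {H : Matrix ι ι ℂ} (hH : H.IsHermitian) (k : ℕ) (s : ℝ) (p : ι × ι) : ℝ :=
  expBeta hH p ^ k * Real.exp (expAlpha hH p + s * expBeta hH p)

/-- The kernel identity for one spectral form. -/
theorem kernel_sum {H : Matrix ι ι ℂ} (hH : H.IsHermitian) {n : Type} [Fintype n]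
    (M : Matrix (ι × ι) n ℂ) (s : ℝ) (v w : n → ℂ) (x y : Matrix ι ι ℂ)
    (hv : M *ᵥ v = coord hH x) (hw : M *ᵥ w = coord hH y) :
    rform v (specForm M (weight hH 0 s)) v + rform v (specForm M (weight hH 1 s)) w +
      rform w (specForm M (weight hH 1 s)) v + rform w (specForm M (weight hH 2 s)) w =
      powForm H s (x + (H * y - y * H)) (x + (H * y - y * H)) := by
  rw [powForm_eq hH, map_add, coord_comm, rform_specForm, rform_specForm, rform_specForm,
    rform_specForm, hv, hw, ← Finset.sum_add_distrib, ← Finset.sum_add_distrib,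
    ← Finset.sum_add_distrib]
  refine Finset.sum_congr rfl fun p _ => ?_
  simp [weight, tilt, Complex.mul_re, Complex.mul_im, -Complex.ofReal_exp]
  ring

theorem rform_weight_zero {H : Matrix ι ι ℂ} (hH : H.IsHermitian) {n : Type} [Fintype n]
    (M : Matrix (ι × ι) n ℂ) (s : ℝ) (v : n → ℂ) (x : Matrix ι ι ℂ) (hv : M *ᵥ v = coord hH x) :
    rform v (specForm M (weight hH 0 s)) v = powForm H s x x := by
  rw [powForm_eq hH, rform_specForm, hv]
  simp [weight]

theorem powForm_self_eq {H : Matrix ι ι ℂ} (hH : H.IsHermitian) (s : ℝ) (v : ι × ι → ℂ) :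
    powForm H s (uncoord hH v) (uncoord hH v) =
      ∑ p, Real.exp (expAlpha hH p + s * expBeta hH p) * Complex.normSq (v p) := by
  rw [powForm_eq hH, coord_uncoord]
  simp [Complex.normSq_apply, Complex.mul_re]

theorem powForm_self_nonneg {H : Matrix ι ι ℂ} (hH : H.IsHermitian) (s : ℝ) (x : Matrix ι ι ℂ) :
    0 ≤ powForm H s x x := by
  rw [← uncoord_coord hH x, powForm_self_eq hH]
  exact Finset.sum_nonneg fun p _ => mul_nonneg (Real.exp_pos _).le (Complex.normSq_nonneg _)

theorem trace_mul_nonneg {A : Matrix ι ι ℂ} (hA : A.PosSemidef) (x : Matrix ι ι ℂ) :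
    0 ≤ (x * A * xᴴ).trace.re :=
  (Complex.le_def.1 (hA.mul_mul_conjTranspose_same x).trace_nonneg).1

theorem trace_mul_mono {A B : Matrix ι ι ℂ} (h : (A - B).PosSemidef) (x : Matrix ι ι ℂ) :
    (x * B * xᴴ).trace.re ≤ (x * A * xᴴ).trace.re := by
  have := trace_mul_nonneg h x
  rw [Matrix.mul_sub, Matrix.sub_mul, trace_sub, Complex.sub_re] at this
  linarith

theorem powForm_at_zero' (H x : Matrix ι ι ℂ) :
    powForm H 0 x x = (x * NormedSpace.exp H * xᴴ).trace.re := by
  rw [powForm_at_zero, trace_mul_cycle x (NormedSpace.exp H) xᴴ]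

theorem powForm_at_one' (H x : Matrix ι ι ℂ) :
    powForm H 1 x x = (xᴴ * NormedSpace.exp H * xᴴᴴ).trace.re := by
  rw [powForm_at_one, conjTranspose_conjTranspose, trace_mul_cycle xᴴ (NormedSpace.exp H) x]

/-- Monotonicity of the mixed powers. -/
theorem powForm_le {H K : Matrix ι ι ℂ} (hH : H.IsHermitian) (hK : K.IsHermitian)
    (hge : (NormedSpace.exp H - NormedSpace.exp K).PosSemidef) {s : ℝ}
    (hs : s ∈ Set.Icc (0 : ℝ) 1) (x : Matrix ι ι ℂ) : powForm K s x x ≤ powForm H s x x := by
  set M := LinearMap.toMatrix' ((coord hK).comp (uncoord hH)) with hM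
  have hMv : ∀ v, M *ᵥ v = coord hK (uncoord hH v) := fun v => by
    rw [hM, LinearMap.toMatrix'_mulVec]; rfl
  have hd : ∀ k t i j, HasDerivAt (fun t => specForm M (weight hK k t) i j)
      (specForm M (weight hK (k + 1) t) i j) t := fun k t i j =>
    hasDerivAt_specForm M (fun p => hasDerivAt_expLin (expAlpha hK) (expBeta hK) k p t) i j
  have h := maxPrinciple (fun t => specForm M (weight hK 0 t))
    (fun t => specForm M (weight hK 1 t)) (fun t => specForm M (weight hK 2 t))
    (expAlpha hH) (expBeta hH) (hd 0) (hd 1)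
    (fun t _ v w => by
      rw [kernel_sum hK M t v w _ _ (hMv v) (hMv w)]
      exact powForm_self_nonneg hK t _)
    (fun v => by
      have e := powForm_self_eq hH 0 v
      simp only [zero_mul, add_zero] at e
      rw [rform_weight_zero hK M 0 v _ (hMv v), ← e, powForm_at_zero', powForm_at_zero']
      exact trace_mul_mono hge _)
    (fun v => by
      have e := powForm_self_eq hH 1 v
      simp only [one_mul] at e
      rw [rform_weight_zero hK M 1 v _ (hMv v), ← e, powForm_at_one', powForm_at_one']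
      exact trace_mul_mono hge _)
    hs (coord hH x)
  rw [rform_weight_zero hK M s _ _ (hMv _), ← powForm_self_eq hH, uncoord_coord] at h
  exact h

/-! ### Block-diagonal matrices -/

theorem pinch_add (g : ι → Fin 2) (A B : Matrix ι ι ℂ) :
    pinch g (A + B) = pinch g A + pinch g B := by
  ext i j; simp [pinch]; split <;> simp

theorem pinch_sub (g : ι → Fin 2) (A B : Matrix ι ι ℂ) :
    pinch g (A - B) = pinch g A - pinch g B := by
  ext i j; simp [pinch]; split <;> simp

theorem pinch_pinch (g : ι → Fin 2) (A : Matrix ι ι ℂ) : pinch g (pinch g A) = pinch g A := by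
  ext i j; by_cases h : g i = g j <;> simp [pinch, h]

theorem pinch_conjTranspose (g : ι → Fin 2) (A : Matrix ι ι ℂ) :
    pinch g Aᴴ = (pinch g A)ᴴ := by
  ext i j
  simp only [pinch, Matrix.of_apply, conjTranspose_apply]
  rcases eq_or_ne (g i) (g j) with h | h
  · simp [h]
  · simp [h, Ne.symm h]

theorem pinch_mul_left {g : ι → Fin 2} {A : Matrix ι ι ℂ} (hA : pinch g A = A)
    (B : Matrix ι ι ℂ) : pinch g (A * B) = A * pinch g B := by
  ext i j
  have h0 : ∀ k, g i ≠ g k → A i k = 0 := fun k hk => by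
    have := congrFun (congrFun hA i) k
    simpa [pinch, hk] using this.symm
  simp only [pinch, Matrix.of_apply, Matrix.mul_apply]
  by_cases h : g i = g j
  · simp only [h, if_true]
    refine Finset.sum_congr rfl fun k _ => ?_
    by_cases hk : g k = g j
    · simp [hk]
    · rw [h0 k (fun e => hk (e ▸ h)), zero_mul, zero_mul]
  · simp only [h, if_false]
    refine (Finset.sum_eq_zero fun k _ => ?_).symm
    by_cases hk : g k = g j
    · rw [h0 k (fun e => h (e.trans hk)), zero_mul]
    · simp [hk]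

theorem pinch_mul_right {g : ι → Fin 2} {A : Matrix ι ι ℂ} (hA : pinch g A = A)
    (B : Matrix ι ι ℂ) : pinch g (B * A) = pinch g B * A := by
  have h := pinch_mul_left (g := g) (A := Aᴴ) (by rw [pinch_conjTranspose, hA]) Bᴴ
  rw [← conjTranspose_mul, pinch_conjTranspose, pinch_conjTranspose, ← conjTranspose_mul] at h
  exact conjTranspose_injective h

theorem trace_pinch (g : ι → Fin 2) (A : Matrix ι ι ℂ) : (pinch g A).trace = A.trace := by
  simp [Matrix.trace, pinch]

theorem trace_mul_pinch {g : ι → Fin 2} {A : Matrix ι ι ℂ} (hA : pinch g A = A)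
    (B : Matrix ι ι ℂ) : (A * pinch g B).trace = (A * B).trace := by
  rw [← pinch_mul_left hA, trace_pinch]

theorem commute_gdiag {g : ι → Fin 2} {A : Matrix ι ι ℂ} (hA : pinch g A = A) (c : Fin 2 → ℝ) :
    gdiag g c * A = A * gdiag g c := by
  ext i j
  simp only [gdiag, diagonal_mul, mul_diagonal]
  by_cases h : g i = g j
  · rw [h, mul_comm]
  · have : A i j = 0 := by
      have := congrFun (congrFun hA i) j
      simpa [pinch, h] using this.symm
    simp [this]

theorem pinch_eq_self_of_commute {g : ι → Fin 2} {A : Matrix ι ι ℂ}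
    (h : gdiag g ![1, 0] * A = A * gdiag g ![1, 0]) : pinch g A = A := by
  ext i j
  simp only [pinch, Matrix.of_apply]
  by_cases hij : g i = g j
  · simp [hij]
  · simp only [hij, if_false]
    have := congrFun (congrFun h i) j
    simp only [gdiag, diagonal_mul, mul_diagonal] at this
    rcases (show g i = 0 ∨ g i = 1 by omega) with hi | hi <;>
      rcases (show g j = 0 ∨ g j = 1 by omega) with hj | hj <;>
      simp [hi, hj] at this hij <;> simp [this]

theorem pinch_texp {g : ι → Fin 2} {K : Matrix ι ι ℂ} (hK : pinch g K = K) (t : ℝ) :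
    pinch g (texp K t) = texp K t :=
  pinch_eq_self_of_commute
    ((show Commute (gdiag g ![1, 0]) ((t : ℂ) • K) from
      Commute.smul_right (commute_gdiag hK _) _).exp_right).eq

/-- For block-diagonal `K` the block part of a matrix has the smaller form. -/
theorem powForm_pinch_le {g : ι → Fin 2} {K : Matrix ι ι ℂ} (hK : K.IsHermitian)
    (hKb : pinch g K = K) (s : ℝ) (z : Matrix ι ι ℂ) :
    powForm K s (pinch g z) (pinch g z) ≤ powForm K s z z := by
  set a := pinch g z with ha
  set b := z - a with hb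
  have hb0 : pinch g b = 0 := by rw [hb, pinch_sub, ha, pinch_pinch, sub_self]
  have hbt : pinch g bᴴ = 0 := by rw [pinch_conjTranspose, hb0, conjTranspose_zero]
  have hab : powForm K s a b = 0 := by
    have h1 : pinch g (aᴴ * texp K s) = aᴴ * texp K s := by
      rw [pinch_mul_right (pinch_texp hKb s), pinch_conjTranspose, ha, pinch_pinch]
    rw [powForm, ← trace_pinch g, pinch_mul_right (pinch_texp hKb _), pinch_mul_left h1, hb0]
    simp
  have hba : powForm K s b a = 0 := by
    rw [powForm, ← trace_pinch g, pinch_mul_right (pinch_texp hKb _),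
      pinch_mul_right (show pinch g a = a by rw [ha, pinch_pinch]),
      pinch_mul_right (pinch_texp hKb _), hbt]
    simp
  have hz : z = a + b := by rw [hb]; abel
  rw [hz, powForm_add_left, powForm_add_right, powForm_add_right, hab, hba]
  linarith [powForm_self_nonneg hK s b]

theorem exp_pinch_trace_le {g : ι → Fin 2} {X : Matrix ι ι ℂ} (hX : X.PosSemidef)
    (hXb : pinch g X = X) (x : Matrix ι ι ℂ) :
    ((pinch g x)ᴴ * pinch g x * X).trace.re ≤ (xᴴ * x * X).trace.re := by
  set a := pinch g x with ha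
  set b := x - a with hb
  have hab' : pinch g a = a := by rw [ha, pinch_pinch]
  have hb0 : pinch g b = 0 := by rw [hb, pinch_sub, hab', ← ha, sub_self]
  have h1 : (aᴴ * b * X).trace = 0 := by
    rw [← trace_pinch g, pinch_mul_right hXb,
      pinch_mul_left (by rw [pinch_conjTranspose, hab']), hb0]
    simp
  have h2 : (bᴴ * a * X).trace = 0 := by
    rw [← trace_pinch g, pinch_mul_right hXb, pinch_mul_right hab', pinch_conjTranspose, hb0]
    simp
  have hz : x = a + b := by rw [hb]; abel
  have hnn : 0 ≤ (bᴴ * b * X).trace.re := by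
    rw [trace_mul_comm, ← Matrix.mul_assoc, trace_mul_comm, ← Matrix.mul_assoc]
    exact trace_mul_nonneg hX b
  rw [hz, conjTranspose_add, Matrix.add_mul, Matrix.mul_add, Matrix.mul_add]
  simp only [Matrix.add_mul, trace_add, Complex.add_re, h1, h2, Complex.zero_re]
  linarith

/-- The operator inequality. -/
theorem key_var (g : ι → Fin 2) (c : Fin 2 → ℝ) {H K Z L : Matrix ι ι ℂ} (hH : H.IsHermitian)
    (hK : K.IsHermitian) (hKb : pinch g K = K) (hZ : Z.IsHermitian) (hZb : pinch g Z = Z)
    (hHK : pinch g H = K + gdiag g c)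
    (hge : (NormedSpace.exp H - NormedSpace.exp K).PosSemidef)
    (hX : NormedSpace.exp Z = pinch g (NormedSpace.exp H) - NormedSpace.exp K)
    (hL : L.IsHermitian) (hLb : pinch g L = L) {s : ℝ} (hs0 : 0 ≤ s) (hs1 : s ≤ 1) :
    (L * NormedSpace.exp ((s : ℂ) • H) * L * NormedSpace.exp (((1 - s : ℝ) : ℂ) • H)).trace.re ≤
      (L * NormedSpace.exp ((s : ℂ) • K) * L * NormedSpace.exp (((1 - s : ℝ) : ℂ) • K)).trace.re +
      (L * NormedSpace.exp ((s : ℂ) • Z) * L * NormedSpace.exp (((1 - s : ℝ) : ℂ) • Z)).trace.re := by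
  let P : (ι × ι → ℂ) →ₗ[ℂ] Matrix ι ι ℂ :=
    { toFun := fun v => pinch g (uncoord hZ v)
      map_add' := fun v w => by rw [map_add, pinch_add]
      map_smul' := fun r v => by rw [map_smul]; ext i j; simp [pinch]; }
  set M := LinearMap.toMatrix' ((coord hH).comp P) with hM
  set N := LinearMap.toMatrix' ((coord hK).comp P) with hN
  have hMv : ∀ v, M *ᵥ v = coord hH (pinch g (uncoord hZ v)) := fun v => by
    rw [hM, LinearMap.toMatrix'_mulVec]; rfl
  have hNv : ∀ v, N *ᵥ v = coord hK (pinch g (uncoord hZ v)) := fun v => by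
    rw [hN, LinearMap.toMatrix'_mulVec]; rfl
  have hd : ∀ k t i j,
      HasDerivAt (fun t => (specForm M (weight hH k t) - specForm N (weight hK k t)) i j)
      ((specForm M (weight hH (k + 1) t) - specForm N (weight hK (k + 1) t)) i j) t := fun k t i j =>
    (hasDerivAt_specForm M (fun p => hasDerivAt_expLin (expAlpha hH) (expBeta hH) k p t) i j).sub
      (hasDerivAt_specForm N (fun p => hasDerivAt_expLin (expAlpha hK) (expBeta hK) k p t) i j)
  have hXp : (NormedSpace.exp Z).PosSemidef := by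
    rw [← texp_one, texp_spectral hZ]
    refine (PosSemidef.diagonal fun i => ?_).mul_mul_conjTranspose_same _
    show (0 : ℂ) ≤ _
    exact Complex.zero_le_real.2 (Real.exp_pos _).le
  have hXb : pinch g (NormedSpace.exp Z) = NormedSpace.exp Z := by
    rw [← texp_one]; exact pinch_texp hZb 1
  have hEK : pinch g (NormedSpace.exp H - NormedSpace.exp K) = NormedSpace.exp Z := by
    rw [pinch_sub, ← texp_one K, pinch_texp hKb, texp_one, hX]
  have h := maxPrinciple
    (fun t => specForm M (weight hH 0 t) - specForm N (weight hK 0 t))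
    (fun t => specForm M (weight hH 1 t) - specForm N (weight hK 1 t))
    (fun t => specForm M (weight hH 2 t) - specForm N (weight hK 2 t))
    (expAlpha hZ) (expBeta hZ) (hd 0) (hd 1)
    (fun t ht v w => by
      set a := pinch g (uncoord hZ v) with ha
      set b := pinch g (uncoord hZ w) with hb
      have hab : pinch g a = a := by rw [ha, pinch_pinch]
      have hbb : pinch g b = b := by rw [hb, pinch_pinch]
      have e1 := kernel_sum hH M t v w a b (hMv v) (hMv w)
      have e2 := kernel_sum hK N t v w a b (hNv v) (hNv w)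
      simp only [rform_sub]
      have hz : pinch g (a + (H * b - b * H)) = a + (K * b - b * K) := by
        rw [pinch_add, pinch_sub, pinch_mul_right hbb, pinch_mul_left hbb, hab, hHK, Matrix.add_mul,
          Matrix.mul_add, commute_gdiag hbb]
        abel
      have h3 := powForm_pinch_le hK hKb t (a + (H * b - b * H))
      rw [hz] at h3
      have h4 := powForm_le hH hK hge ht (a + (H * b - b * H))
      linarith)
    (fun v => by
      rw [rform_sub, rform_weight_zero hH M 0 v _ (hMv v), rform_weight_zero hK N 0 v _ (hNv v)]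
      have e := powForm_self_eq hZ 0 v
      simp only [zero_mul, add_zero] at e
      rw [← e, powForm_at_zero, powForm_at_zero, powForm_at_zero, ← Complex.sub_re, ← trace_sub,
        ← Matrix.mul_sub, ← trace_mul_pinch (g := g) (by
          rw [pinch_mul_right (pinch_pinch g _), pinch_conjTranspose, pinch_pinch]), hEK]
      exact exp_pinch_trace_le hXp hXb _)
    (fun v => by
      rw [rform_sub, rform_weight_zero hH M 1 v _ (hMv v), rform_weight_zero hK N 1 v _ (hNv v)]
      have e := powForm_self_eq hZ 1 v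
      simp only [one_mul] at e
      rw [← e, powForm_at_one, powForm_at_one, powForm_at_one, ← Complex.sub_re, ← trace_sub,
        ← Matrix.mul_sub, ← trace_mul_pinch (g := g) (by
          rw [pinch_mul_left (pinch_pinch g _), pinch_conjTranspose, pinch_pinch]), hEK]
      have := exp_pinch_trace_le hXp hXb (uncoord hZ v)ᴴ
      rwa [pinch_conjTranspose, conjTranspose_conjTranspose, conjTranspose_conjTranspose] at this)
    (show s ∈ Set.Icc (0 : ℝ) 1 from ⟨hs0, hs1⟩) (coord hZ L)
  rw [rform_sub, rform_weight_zero hH M s _ _ (hMv _), rform_weight_zero hK N s _ _ (hNv _),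
    ← powForm_self_eq hZ, uncoord_coord, hLb] at h
  simp only [powForm, texp, hL.eq] at h
  linarith

end Vale.Agent.P358.Gen
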