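import Mathlib

/-!
# A maximum principle for curves of forms

If `F : ℝ → Matrix n n ℂ` satisfies `[[F, F'], [F', F'']] ≥ 0` on `[0, 1]` and lies below
`diag (exp (α + s β))` at `s = 0, 1`, then it does so on the whole interval.
-/

namespace Vale.Agent.P358.Gen

open Matrix Real Finset Set

variable {n : Type} [Fintype n]

/-- The real part of the sesquilinear form of a matrix. -/
noncomputable def rform (v : n → ℂ) (A : Matrix n n ℂ) (w : n → ℂ) : ℝ :=
  (star v ⬝ᵥ A *ᵥ w).re

theorem rform_eq_sum (v : n → ℂ) (A : Matrix n n ℂ) (w : n → ℂ) :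
    rform v A w = ∑ i, ∑ j, (star (v i) * A i j * w j).re := by
  simp [rform, dotProduct, Matrix.mulVec, Finset.mul_sum, Complex.re_sum, mul_assoc]

theorem rform_add_left (u v : n → ℂ) (A : Matrix n n ℂ) (w : n → ℂ) :
    rform (u + v) A w = rform u A w + rform v A w := by
  simp [rform, add_dotProduct]

theorem rform_add_right (v : n → ℂ) (A : Matrix n n ℂ) (u w : n → ℂ) :
    rform v A (u + w) = rform v A u + rform v A w := by
  simp [rform, Matrix.mulVec_add, dotProduct_add]

theorem rform_smul_left (r : ℝ) (v : n → ℂ) (A : Matrix n n ℂ) (w : n → ℂ) :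
    rform ((r : ℂ) • v) A w = r * rform v A w := by
  simp [rform, smul_dotProduct, Complex.mul_re]

theorem rform_smul_right (r : ℝ) (v : n → ℂ) (A : Matrix n n ℂ) (w : n → ℂ) :
    rform v A ((r : ℂ) • w) = r * rform v A w := by
  simp [rform, Matrix.mulVec_smul, dotProduct_smul, Complex.mul_re]

/-- Squared norm of a vector. -/
noncomputable def nsq (v : n → ℂ) : ℝ := ∑ i, Complex.normSq (v i)

/-- The vector `i ↦ exp (-(α i + s β i) / 2) * v i`. -/
noncomputable def damp (α β : n → ℝ) (s : ℝ) (v : n → ℂ) : n → ℂ :=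
  fun i => (Real.exp (-(α i + s * β i) / 2) : ℂ) * v i

/-- `i ↦ β i * v i`. -/
def tilt (β : n → ℝ) (v : n → ℂ) : n → ℂ := fun i => (β i : ℂ) * v i

omit [Fintype n] in
theorem damp_tilt (α β : n → ℝ) (s : ℝ) (v : n → ℂ) :
    damp α β s (tilt β v) = tilt β (damp α β s v) := by
  funext i; simp [damp, tilt]; ring

omit [Fintype n] in
theorem damp_add (α β : n → ℝ) (s : ℝ) (u v : n → ℂ) :
    damp α β s (u + v) = damp α β s u + damp α β s v := by
  funext i; simp [damp]; ring

omit [Fintype n] in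
theorem damp_smul (α β : n → ℝ) (s : ℝ) (c : ℂ) (v : n → ℂ) :
    damp α β s (c • v) = c • damp α β s v := by
  funext i; simp [damp]; ring

theorem nsq_nonneg (v : n → ℂ) : 0 ≤ nsq v := Finset.sum_nonneg fun _ _ => Complex.normSq_nonneg _

theorem nsq_damp (α β : n → ℝ) (s : ℝ) (v : n → ℂ) :
    ∑ i, Real.exp (α i + s * β i) * Complex.normSq (damp α β s v i) = nsq v := by
  refine Finset.sum_congr rfl fun i _ => ?_
  rw [damp, Complex.normSq_mul, Complex.normSq_ofReal, ← mul_assoc, ← Real.exp_add, ← Real.exp_add]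
  ring_nf
  simp

/-- A quadratic bound `q v ≤ λ |v|²` attained at `v` forces the first-order identity. -/
theorem first_order (A : Matrix n n ℂ) {l : ℝ} (h : ∀ u, rform u A u ≤ l * nsq u) {v : n → ℂ}
    (hv : rform v A v = l * nsq v) (u : n → ℂ) :
    rform v A u + rform u A v = 2 * l * ∑ i, (star (v i) * u i).re := by
  have key : ∀ θ : ℝ, 0 ≤ (l * nsq u - rform u A u) * (θ * θ) +
      (2 * l * ∑ i, (star (v i) * u i).re - (rform v A u + rform u A v)) * θ + 0 := by
    intro θ
    have e : nsq (v + (θ : ℂ) • u) =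
        nsq v + 2 * θ * (∑ i, (star (v i) * u i).re) + θ * θ * nsq u := by
      simp only [nsq, Finset.mul_sum, ← Finset.sum_add_distrib]
      refine Finset.sum_congr rfl fun i _ => ?_
      simp [Complex.normSq_apply, Complex.mul_re]
      ring
    have h1 := h (v + (θ : ℂ) • u)
    rw [e] at h1
    simp only [rform_add_left, rform_add_right, rform_smul_left, rform_smul_right, hv] at h1
    linarith
  have hd := discrim_le_zero key
  rw [discrim] at hd
  nlinarith [sq_nonneg (2 * l * ∑ i, (star (v i) * u i).re - (rform v A u + rform u A v))]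

theorem nsq_smul (c : ℝ) (v : n → ℂ) : nsq ((c : ℂ) • v) = c ^ 2 * nsq v := by
  simp only [nsq, Finset.mul_sum]
  exact Finset.sum_congr rfl fun i _ => by simp [Complex.normSq_mul, sq]

/-- `exp (-(α i + τ β i) / 2) * exp (-(α j + τ β j) / 2)`. -/
noncomputable def pairW (α β : n → ℝ) (i j : n) (τ : ℝ) : ℝ :=
  Real.exp (-(α i + τ * β i) / 2) * Real.exp (-(α j + τ * β j) / 2)

theorem rform_damp (α β : n → ℝ) (τ : ℝ) (A : Matrix n n ℂ) (u v : n → ℂ) :
    rform (damp α β τ u) A (damp α β τ v) =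
      ∑ i, ∑ j, pairW α β i j τ * (star (u i) * A i j * v j).re := by
  simp only [rform_eq_sum, damp, pairW]
  refine Finset.sum_congr rfl fun i _ => Finset.sum_congr rfl fun j _ => ?_
  simp [Complex.mul_re, Complex.mul_im, -Complex.ofReal_exp]
  ring

omit [Fintype n] in
theorem hasDerivAt_pairW (α β : n → ℝ) (i j : n) (τ : ℝ) :
    HasDerivAt (pairW α β i j) (-(β i + β j) / 2 * pairW α β i j τ) τ := by
  have a : ∀ i, HasDerivAt (fun τ => Real.exp (-(α i + τ * β i) / 2))
      (Real.exp (-(α i + τ * β i) / 2) * (-β i / 2)) τ := fun i => by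
    have := (((hasDerivAt_id' τ).mul_const (β i)).const_add (α i)).neg.div_const 2
    simpa using this.exp
  exact ((a i).mul (a j)).congr_deriv (by simp only [pairW]; ring)

/-- The lower order terms are nonnegative at a maximum of the damped form. -/
theorem rest_nonneg (A : Matrix n n ℂ) (α β : n → ℝ) (t : ℝ) {l : ℝ}
    (h : ∀ u, rform (damp α β t u) A (damp α β t u) ≤ l * nsq u) {v : n → ℂ}
    (hv : rform (damp α β t v) A (damp α β t v) = l * nsq v) :
    0 ≤ rform (damp α β t v) A (tilt β (tilt β (damp α β t v))) +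
      rform (tilt β (tilt β (damp α β t v))) A (damp α β t v) -
        2 * rform (tilt β (damp α β t v)) A (tilt β (damp α β t v)) := by
  let N : Matrix n n ℂ := Matrix.of fun i j => (Real.exp (-(α i + t * β i) / 2) : ℂ) * A i j *
    (Real.exp (-(α j + t * β j) / 2) : ℂ)
  have hN : ∀ a b, rform (damp α β t a) A (damp α β t b) = rform a N b := fun a b => by
    simp only [rform_eq_sum, damp, N, Matrix.of_apply]
    refine Finset.sum_congr rfl fun i _ => Finset.sum_congr rfl fun j _ => ?_
    simp [Complex.mul_re, Complex.mul_im, -Complex.ofReal_exp]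
    ring
  have hle : ∀ u, rform u N u ≤ l * nsq u := fun u => by rw [← hN]; exact h u
  have hf := first_order N hle (by rw [← hN]; exact hv) (tilt β (tilt β v))
  have h3 := hle (tilt β v)
  have e1 : ∑ i, (star (v i) * tilt β (tilt β v) i).re = nsq (tilt β v) := by
    simp only [nsq, tilt]
    refine Finset.sum_congr rfl fun i _ => ?_
    simp [Complex.normSq_apply, Complex.mul_re]
    ring
  rw [e1] at hf
  simp only [← damp_tilt, hN]
  linarith

/-- The second derivative of the damped form. -/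
theorem second_identity (A A₁ A₂ : Matrix n n ℂ) (α β : n → ℝ) (t : ℝ) (v : n → ℂ) :
    ∑ i, ∑ j, pairW α β i j t * ((star (v i) * A₂ i j * v j).re -
        (β i + β j) * (star (v i) * A₁ i j * v j).re +
        (β i + β j) ^ 2 / 4 * (star (v i) * A i j * v j).re) =
      (rform (damp α β t (-(tilt β v))) A (damp α β t (-(tilt β v))) +
        rform (damp α β t (-(tilt β v))) A₁ (damp α β t v) +
        rform (damp α β t v) A₁ (damp α β t (-(tilt β v))) +
        rform (damp α β t v) A₂ (damp α β t v)) +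
        (rform (damp α β t v) A (damp α β t (tilt β (tilt β v))) +
          rform (damp α β t (tilt β (tilt β v))) A (damp α β t v) -
          2 * rform (damp α β t (tilt β v)) A (damp α β t (tilt β v))) / 4 := by
  simp only [rform_damp, Finset.mul_sum, Finset.sum_div, ← Finset.sum_add_distrib,
    ← Finset.sum_sub_distrib]
  refine Finset.sum_congr rfl fun i _ => Finset.sum_congr rfl fun j _ => ?_
  simp [tilt, Complex.mul_re, Complex.mul_im, -Complex.ofReal_exp]
  ring

theorem hasDerivAt_re {f : ℝ → ℂ} {f' : ℂ} {τ : ℝ} (a b : ℂ) (hf : HasDerivAt f f' τ) :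
    HasDerivAt (fun t => (a * f t * b).re) (a * f' * b).re τ :=
  Complex.reCLM.hasFDerivAt.comp_hasDerivAt τ ((hf.const_mul a).mul_const b)

/-- The damped form along a curve cannot have an interior maximum in time. -/
theorem no_interior_max (F F₁ F₂ : ℝ → Matrix n n ℂ) (α β : n → ℝ)
    (h₁ : ∀ s i j, HasDerivAt (fun t => F t i j) (F₁ s i j) s)
    (h₂ : ∀ s i j, HasDerivAt (fun t => F₁ t i j) (F₂ s i j) s) {t : ℝ}
    (hker : ∀ x y : n → ℂ,
      0 ≤ rform x (F t) x + rform x (F₁ t) y + rform y (F₁ t) x + rform y (F₂ t) y)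
    {l ε : ℝ} (hε : 0 < ε) {v : n → ℂ}
    (hray : ∀ u, rform (damp α β t u) (F t) (damp α β t u) ≤ l * nsq u)
    (hv : rform (damp α β t v) (F t) (damp α β t v) = l * nsq v) :
    ¬ IsLocalMax (fun τ => rform (damp α β τ v) (F τ) (damp α β τ v) + ε * τ ^ 2) t := by
  intro hm
  set k : ℝ → ℝ := fun τ => ∑ i, ∑ j, pairW α β i j τ * (star (v i) * F τ i j * v j).re + ε * τ ^ 2
    with hk
  replace hm : IsLocalMax k t := by
    simpa only [hk, rform_damp] using hm
  set k₁ : ℝ → ℝ := fun τ => ∑ i, ∑ j, pairW α β i j τ * ((star (v i) * F₁ τ i j * v j).re -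
      (β i + β j) / 2 * (star (v i) * F τ i j * v j).re) + 2 * ε * τ with hk₁
  have hd1 : ∀ τ, HasDerivAt k (k₁ τ) τ := fun τ =>
    ((HasDerivAt.fun_sum fun i _ => HasDerivAt.fun_sum fun j _ =>
      (hasDerivAt_pairW α β i j τ).mul (hasDerivAt_re (star (v i)) (v j) (h₁ τ i j))).add
        ((hasDerivAt_pow 2 τ).const_mul ε)).congr_deriv (by
      simp only [hk₁]
      congr 1
      · exact Finset.sum_congr rfl fun i _ => Finset.sum_congr rfl fun j _ => by ring
      · ring)
  have hd2 : HasDerivAt k₁ (∑ i, ∑ j, pairW α β i j t * ((star (v i) * F₂ t i j * v j).re -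
      (β i + β j) * (star (v i) * F₁ t i j * v j).re +
      (β i + β j) ^ 2 / 4 * (star (v i) * F t i j * v j).re) + 2 * ε) t :=
    ((HasDerivAt.fun_sum fun i _ => HasDerivAt.fun_sum fun j _ =>
      (hasDerivAt_pairW α β i j t).mul ((hasDerivAt_re (star (v i)) (v j) (h₂ t i j)).sub
        ((hasDerivAt_re (star (v i)) (v j) (h₁ t i j)).const_mul ((β i + β j) / 2)))).add
        ((hasDerivAt_id' t).const_mul (2 * ε))).congr_deriv (by
      congr 1
      · exact Finset.sum_congr rfl fun i _ => Finset.sum_congr rfl fun j _ => by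
          simp only [Pi.sub_apply]; ring
      · ring)
  rw [second_identity] at hd2
  have hA := hker (damp α β t (-(tilt β v))) (damp α β t v)
  have hB := rest_nonneg (F t) α β t hray hv
  simp only [← damp_tilt] at hB
  have hder : deriv k = k₁ := funext fun τ => (hd1 τ).deriv
  have h1z : k₁ t = 0 := by rw [← hder]; exact hm.deriv_eq_zero
  have hmin : IsLocalMin k t := isLocalMin_of_deriv_deriv_pos
    (by rw [hder, hd2.deriv]; linarith) (by rw [hder]; exact h1z) (hd1 t).continuousAt
  have hconst : k =ᶠ[nhds t] fun _ => k t := by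
    filter_upwards [hmin, hm] with τ a b using le_antisymm b a
  have h0 : k₁ =ᶠ[nhds t] fun _ => (0 : ℝ) := by
    rw [← hder]
    filter_upwards [hconst.eventuallyEq_nhds] with τ hτ
    rw [hτ.deriv_eq, deriv_const]
  have := hd2.unique ((hasDerivAt_const t (0 : ℝ)).congr_of_eventuallyEq h0)
  linarith

/-- The damped form as a function of time and vector. -/
noncomputable def dampForm (F : ℝ → Matrix n n ℂ) (α β : n → ℝ) (p : ℝ × (n → ℂ)) : ℝ :=
  rform (damp α β p.1 p.2) (F p.1) (damp α β p.1 p.2)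

theorem continuous_dampForm (F : ℝ → Matrix n n ℂ) (α β : n → ℝ)
    (hF : ∀ i j, Continuous fun t => F t i j) : Continuous (dampForm F α β) := by
  unfold dampForm
  simp only [rform_eq_sum, damp]
  refine continuous_finsetSum _ fun i _ => continuous_finsetSum _ fun j _ =>
    Complex.continuous_re.comp ?_
  have := (hF i j).comp (continuous_fst : Continuous (Prod.fst : ℝ × (n → ℂ) → ℝ))
  fun_prop

theorem isCompact_sphere_nsq : IsCompact {v : n → ℂ | nsq v = 1} := by
  refine (ProperSpace.isCompact_closedBall (0 : n → ℂ) 1).of_isClosed_subset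
    (isClosed_eq (by unfold nsq; fun_prop) continuous_const) fun v hv => ?_
  rw [mem_closedBall_zero_iff, pi_norm_le_iff_of_nonneg zero_le_one]
  intro i
  have h2 : Complex.normSq (v i) ≤ nsq v :=
    Finset.single_le_sum (f := fun i => Complex.normSq (v i))
      (fun j _ => Complex.normSq_nonneg _) (Finset.mem_univ i)
  rw [show nsq v = 1 from hv, ← Complex.sq_norm] at h2
  nlinarith [norm_nonneg (v i)]

theorem dampForm_smul (F : ℝ → Matrix n n ℂ) (α β : n → ℝ) (t c : ℝ) (v : n → ℂ) :
    dampForm F α β (t, (c : ℂ) • v) = c ^ 2 * dampForm F α β (t, v) := by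
  simp only [dampForm, damp_smul, rform_smul_left, rform_smul_right]
  ring

theorem nsq_pos_of_ne {v : n → ℂ} (h : v ≠ 0) : 0 < nsq v := by
  obtain ⟨i, hi⟩ := Function.ne_iff.1 h
  exact Finset.sum_pos' (fun _ _ => Complex.normSq_nonneg _)
    ⟨i, Finset.mem_univ i, Complex.normSq_pos.2 hi⟩

/-- The maximum principle. -/
theorem maxPrinciple (F F₁ F₂ : ℝ → Matrix n n ℂ) (α β : n → ℝ)
    (h₁ : ∀ s i j, HasDerivAt (fun t => F t i j) (F₁ s i j) s)
    (h₂ : ∀ s i j, HasDerivAt (fun t => F₁ t i j) (F₂ s i j) s)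
    (hker : ∀ s ∈ Icc (0 : ℝ) 1, ∀ x y : n → ℂ,
      0 ≤ rform x (F s) x + rform x (F₁ s) y + rform y (F₁ s) x + rform y (F₂ s) y)
    (h0 : ∀ x, rform x (F 0) x ≤ ∑ i, Real.exp (α i) * Complex.normSq (x i))
    (h1 : ∀ x, rform x (F 1) x ≤ ∑ i, Real.exp (α i + β i) * Complex.normSq (x i))
    {s : ℝ} (hs : s ∈ Icc (0 : ℝ) 1) (x : n → ℂ) :
    rform x (F s) x ≤ ∑ i, Real.exp (α i + s * β i) * Complex.normSq (x i) := by
  by_contra hlt
  push Not at hlt
  set v₁ : n → ℂ := fun i => (Real.exp ((α i + s * β i) / 2) : ℂ) * x i with hv₁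
  have hdx : damp α β s v₁ = x := by
    funext i
    simp only [damp, hv₁]
    rw [← mul_assoc, ← Complex.ofReal_mul, ← Real.exp_add,
      show -(α i + s * β i) / 2 + (α i + s * β i) / 2 = 0 by ring, Real.exp_zero,
      Complex.ofReal_one, one_mul]
  have hn₁ : nsq v₁ = ∑ i, Real.exp (α i + s * β i) * Complex.normSq (x i) := by
    rw [← nsq_damp α β s v₁, hdx]
  rw [← hn₁] at hlt
  have hd0 : ∀ τ, damp α β τ (0 : n → ℂ) = 0 := fun τ => funext fun i => by simp [damp]
  have hx0 : 0 < nsq v₁ := by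
    refine nsq_pos_of_ne fun hz => ?_
    rw [← hdx, hz, hd0] at hlt
    simp [nsq, rform] at hlt
  set r : ℝ := (Real.sqrt (nsq v₁))⁻¹
  have hr2 : r ^ 2 * nsq v₁ = 1 := by
    rw [inv_pow, Real.sq_sqrt hx0.le, inv_mul_cancel₀ hx0.ne']
  have hG0 : 1 < dampForm F α β (s, (r : ℂ) • v₁) := by
    rw [dampForm_smul, ← hr2, dampForm, hdx]
    exact mul_lt_mul_of_pos_left hlt (by positivity)
  set ε : ℝ := (dampForm F α β (s, (r : ℂ) • v₁) - 1) / 2 with hε
  have hε0 : 0 < ε := by rw [hε]; linarith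
  have hFc : ∀ i j, Continuous fun t => F t i j := fun i j =>
    continuous_iff_continuousAt.2 fun t => (h₁ t i j).continuousAt
  have hcont : Continuous fun p : ℝ × (n → ℂ) => dampForm F α β p + ε * p.1 ^ 2 :=
    (continuous_dampForm F α β hFc).add (by fun_prop)
  have hmem : (s, (r : ℂ) • v₁) ∈ Icc (0 : ℝ) 1 ×ˢ {v : n → ℂ | nsq v = 1} :=
    ⟨hs, by rw [Set.mem_ofPred_eq, nsq_smul, hr2]⟩
  obtain ⟨⟨t, v⟩, hp, hmax'⟩ :=
    (isCompact_Icc.prod isCompact_sphere_nsq).exists_isMaxOn ⟨_, hmem⟩ hcont.continuousOn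
  have hmax := isMaxOn_iff.1 hmax'
  have ht : t ∈ Icc (0 : ℝ) 1 := hp.1
  have hv1 : nsq v = 1 := hp.2
  have hval : dampForm F α β (s, (r : ℂ) • v₁) ≤ dampForm F α β (t, v) + ε * t ^ 2 := by
    have := hmax _ hmem
    have h' : 0 ≤ ε * s ^ 2 := by positivity
    dsimp only at this
    linarith
  have hti : t ∈ Ioo (0 : ℝ) 1 := by
    have e := nsq_damp α β t v
    rw [hv1] at e
    refine ⟨lt_of_le_of_ne ht.1 ?_, lt_of_le_of_ne ht.2 ?_⟩
    · rintro rfl
      have := h0 (damp α β 0 v)
      simp only [zero_mul, add_zero] at e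
      rw [e] at this
      simp only [dampForm] at hval hG0
      nlinarith
    · rintro rfl
      have := h1 (damp α β 1 v)
      simp only [one_mul] at e
      rw [e] at this
      have hd : dampForm F α β (1, v) ≤ 1 := this
      nlinarith
  have hray : ∀ u, dampForm F α β (t, u) ≤ dampForm F α β (t, v) * nsq u := by
    intro u
    by_cases hu : u = 0
    · subst hu
      simp [dampForm, hd0, rform, nsq]
    · have hu' := nsq_pos_of_ne hu
      set q : ℝ := (Real.sqrt (nsq u))⁻¹
      have hq : q ^ 2 * nsq u = 1 := by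
        rw [inv_pow, Real.sq_sqrt hu'.le, inv_mul_cancel₀ hu'.ne']
      have hm := hmax (t, (q : ℂ) • u) ⟨ht, by rw [Set.mem_ofPred_eq, nsq_smul, hq]⟩
      dsimp only at hm
      rw [dampForm_smul] at hm
      have h3 := mul_le_mul_of_nonneg_right
        (show q ^ 2 * dampForm F α β (t, u) ≤ dampForm F α β (t, v) by linarith) hu'.le
      calc dampForm F α β (t, u) = q ^ 2 * dampForm F α β (t, u) * nsq u := by
            rw [mul_right_comm, hq, one_mul]
        _ ≤ _ := h3
  refine no_interior_max F F₁ F₂ α β h₁ h₂ (hker t ht) hε0 (l := dampForm F α β (t, v)) hray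
    (v := v) (by rw [hv1, mul_one]; rfl) ?_
  filter_upwards [Ioo_mem_nhds hti.1 hti.2] with τ hτ
  exact hmax (τ, v) ⟨Ioo_subset_Icc_self hτ, hv1⟩

end Vale.Agent.P358.Gen
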