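import Vale.Agent.P358.Gen.KeyVar
import Vale.Agent.P358.Gen.ExpDeriv

/-!
# Convexity and continuity of `omegaC`
-/

namespace Vale.Agent.P358.Gen

open Matrix Real Filter Topology
open scoped ComplexOrder Matrix.Norms.L2Operator

variable {ι : Type} [Fintype ι] [DecidableEq ι]

theorem posSemidef_pinch {g : ι → Fin 2} {A : Matrix ι ι ℂ} (hA : A.PosSemidef) :
    (pinch g A).PosSemidef := by
  rw [pinch_eq_half]
  have h := hA.mul_mul_conjTranspose_same (sgn g)
  rw [sgn_conjTranspose] at h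
  exact (hA.add h).smul (by norm_num [Complex.le_def])

theorem posDef_pinch {g : ι → Fin 2} {A : Matrix ι ι ℂ} (hA : A.PosDef) :
    (pinch g A).PosDef := by
  rw [pinch_eq_half]
  have h := hA.posSemidef.mul_mul_conjTranspose_same (sgn g)
  rw [sgn_conjTranspose] at h
  exact (hA.add_posSemidef h).smul (by norm_num [Complex.lt_def])

theorem continuous_pinch (g : ι → Fin 2) : Continuous (pinch g : Matrix ι ι ℂ → Matrix ι ι ℂ) := by
  refine continuous_matrix fun i j => ?_
  simp only [pinch, of_apply]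
  by_cases h : g i = g j
  · simp only [if_pos h]; exact continuous_id.matrix_elem i j
  · simp only [if_neg h]; exact continuous_const

theorem pinch_gdiag (g : ι → Fin 2) (c : Fin 2 → ℝ) : pinch g (gdiag g c) = gdiag g c := by
  ext i j
  by_cases h : i = j <;> simp [pinch, gdiag, h]

theorem isHermitian_gdiag (g : ι → Fin 2) (c : Fin 2 → ℝ) : (gdiag g c).IsHermitian :=
  isHermitian_diagonal_of_self_adjoint _ (funext fun _ => Complex.conj_ofReal _)

theorem pinch_smul_real (g : ι → Fin 2) (h : ℝ) (A : Matrix ι ι ℂ) :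
    pinch g (h • A) = h • pinch g A := by
  ext i j
  by_cases hij : g i = g j <;> simp [pinch, hij]

theorem trace_gdiag_ge {g : ι → Fin 2} {c : Fin 2 → ℝ} {R : Matrix ι ι ℂ} (hR : R.PosSemidef) :
    min (c 0) (c 1) * R.trace.re ≤ (gdiag g c * R).trace.re := by
  simp only [trace, diag, gdiag, diagonal_mul, Complex.re_sum, Complex.re_ofReal_mul,
    Finset.mul_sum]
  refine Finset.sum_le_sum fun i _ =>
    mul_le_mul_of_nonneg_right ?_ (Complex.le_def.1 (hR.diag_nonneg (i := i))).1
  rcases (show g i = 0 ∨ g i = 1 by omega) with h | h <;> simp [h]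

/-- A lower bound on the entropy of a sum. -/
theorem vN_add_ge_log {A B : Matrix ι ι ℂ} (hA : A.PosSemidef) (hB : B.PosSemidef) {l : ℝ}
    (h0 : 0 < l) (h1 : l < 1) :
    vN A + vN B + A.trace.re * Real.log l + B.trace.re * Real.log (1 - l) ≤ vN (A + B) := by
  have h1' : 0 < 1 - l := by linarith
  have e : ∀ {X : Matrix ι ι ℂ} {a : ℝ}, X.PosSemidef → 0 < a →
      a * vN (((a⁻¹ : ℝ) : ℂ) • X) = vN X + X.trace.re * Real.log a := by
    intro X a hX ha
    rw [vN_smul hX (inv_nonneg.2 ha.le), negMulLog_eq_neg]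
    simp only [Real.log_inv]
    field_simp
  have h := vN_concave ![l, 1 - l] ![((l⁻¹ : ℝ) : ℂ) • A, (((1 - l)⁻¹ : ℝ) : ℂ) • B]
    (fun j => by fin_cases j <;> simp <;> linarith) (by simp)
    (fun j => by
      fin_cases j
      · exact hA.smul (Complex.zero_le_real.2 (inv_nonneg.2 h0.le))
      · exact hB.smul (Complex.zero_le_real.2 (inv_nonneg.2 h1'.le)))
  simp only [Fin.sum_univ_two, Matrix.cons_val_zero, Matrix.cons_val_one] at h
  rw [smul_smul, smul_smul, ← Complex.ofReal_mul, ← Complex.ofReal_mul, mul_inv_cancel₀ h0.ne',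
    mul_inv_cancel₀ h1'.ne', Complex.ofReal_one, one_smul, one_smul, e hA h0, e hB h1'] at h
  linarith

/-- The radius outside which `omegaFun` is below its value at `0`. -/
noncomputable def radius (c : Fin 2 → ℝ) (T : ℝ) : ℝ :=
  -Real.log (1 - Real.exp (-(min (c 0) (c 1) / 2))) * T / (min (c 0) (c 1) / 2)

theorem omegaFun_le_zero {g : ι → Fin 2} {c : Fin 2 → ℝ} (hc : ∀ b, 0 < c b)
    {τ R : Matrix ι ι ℂ} (hτ : τ.PosSemidef) (hR : R.PosSemidef) {T : ℝ} (hT : τ.trace.re ≤ T)
    (hRT : radius c T ≤ R.trace.re) : omegaFun g c τ R ≤ omegaFun g c τ 0 := by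
  set m := min (c 0) (c 1) / 2 with hm
  have hm0 : 0 < m := half_pos (lt_min (hc 0) (hc 1))
  set l := 1 - Real.exp (-m) with hl
  have he : Real.exp (-m) < 1 := by rw [← Real.exp_zero]; exact Real.exp_lt_exp.2 (by linarith)
  have hl0 : 0 < l := by linarith
  have hl1 : l < 1 := by linarith [Real.exp_pos (-m)]
  have h := vN_add_ge_log hτ hR hl0 hl1
  rw [show 1 - l = Real.exp (-m) by rw [hl]; ring, Real.log_exp] at h
  have hg := trace_gdiag_ge (g := g) (c := c) hR
  rw [show min (c 0) (c 1) = 2 * m by rw [hm]; ring] at hg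
  have hll : Real.log l ≤ 0 := Real.log_nonpos hl0.le hl1.le
  have h2 : -Real.log l * T ≤ R.trace.re * m := by
    rw [radius, ← hm, ← hl, div_le_iff₀ hm0] at hRT
    exact hRT
  have h3 : -Real.log l * τ.trace.re ≤ -Real.log l * T :=
    mul_le_mul_of_nonneg_left hT (by linarith)
  simp only [omegaFun, vN_zero, add_zero, Matrix.mul_zero, trace_zero, Complex.zero_re, sub_zero]
  linarith

/-- The compact set of candidate maximisers. -/
def cands (g : ι → Fin 2) (M : ℝ) : Set (Matrix ι ι ℂ) :=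
  {R | R.PosSemidef ∧ pinch g R = R ∧ R.trace.re ≤ M}

theorem norm_entry_le {R : Matrix ι ι ℂ} (hR : R.PosSemidef) (i j : ι) :
    ‖R i j‖ ≤ R.trace.re := by
  set U : Matrix ι ι ℂ := (hR.1.eigenvectorUnitary : Matrix ι ι ℂ) with hU
  have h : R i j = ∑ k, U i k * (hR.1.eigenvalues k : ℂ) * star (U j k) := by
    conv_lhs => rw [eq_eigU_diag hR.1]
    simp only [Matrix.mul_apply (M := _ * _), mul_diagonal, conjTranspose_apply, hU]
  have hr : ∀ i k, ‖U i k‖ ≤ 1 := by
    intro i k
    have h2 := congrArg Complex.re (congrFun (congrFun (eigU_mul_conj hR.1) i) i)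
    rw [Matrix.mul_apply, Complex.re_sum] at h2
    have h3 : ∑ k, Complex.normSq (U i k) = 1 := by
      simpa [hU, Complex.normSq_apply, Complex.mul_re] using h2
    have h4 := Finset.single_le_sum (fun k _ => Complex.normSq_nonneg (U i k)) (Finset.mem_univ k)
    rw [h3, Complex.normSq_eq_norm_sq] at h4
    exact (pow_le_one_iff_of_nonneg (norm_nonneg _) two_ne_zero).1 h4
  rw [h, ← sum_eigenvalues_eq_trace hR.1]
  refine (norm_sum_le _ _).trans (Finset.sum_le_sum fun k _ => ?_)
  rw [norm_mul, norm_mul, norm_star, Complex.norm_real, Real.norm_eq_abs,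
    abs_of_nonneg (hR.eigenvalues_nonneg k)]
  calc ‖U i k‖ * hR.1.eigenvalues k * ‖U j k‖ ≤ 1 * hR.1.eigenvalues k * 1 := by
        gcongr
        · exact mul_nonneg zero_le_one (hR.eigenvalues_nonneg k)
        · exact hR.eigenvalues_nonneg k
        · exact hr i k
        · exact hr j k
    _ = _ := by ring

theorem isClosed_posSemidef : IsClosed {R : Matrix ι ι ℂ | R.PosSemidef} := by
  have : {R : Matrix ι ι ℂ | R.PosSemidef} = {R | R.IsHermitian} ∩
      ⋂ x : ι → ℂ, {R | 0 ≤ (star x ⬝ᵥ R *ᵥ x).re} := by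
    ext R
    simp only [Set.mem_setOf_eq, Set.mem_inter_iff, Set.mem_iInter]
    refine ⟨fun h => ⟨h.1, fun x => h.re_dotProduct_nonneg x⟩, fun h => ?_⟩
    refine PosSemidef.of_dotProduct_mulVec_nonneg h.1 fun x => Complex.nonneg_iff.2 ⟨h.2 x, ?_⟩
    exact (h.1.im_star_dotProduct_mulVec_self x).symm
  rw [this]
  refine IsClosed.inter (isClosed_eq continuous_id.matrix_conjTranspose continuous_id)
    (isClosed_iInter fun x => isClosed_le continuous_const (Complex.continuous_re.comp ?_))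
  exact continuous_const.dotProduct (continuous_id.matrix_mulVec continuous_const)

theorem isCompact_cands (g : ι → Fin 2) (M : ℝ) : IsCompact (cands g M) := by
  have hbox : IsCompact {R : Matrix ι ι ℂ | ∀ i j, R i j ∈ Metric.closedBall (0 : ℂ) M} := by
    have := isCompact_pi_infinite (fun _ : ι => isCompact_pi_infinite
      (fun _ : ι => isCompact_closedBall (0 : ℂ) M))
    exact this
  refine hbox.of_isClosed_subset ?_ fun R hR i j => ?_
  · exact isClosed_posSemidef.inter ((isClosed_eq (continuous_pinch g) continuous_id).inter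
      (isClosed_le (Complex.continuous_re.comp continuous_id.matrix_trace) continuous_const))
  · rw [mem_closedBall_zero_iff]
    exact (norm_entry_le hR.1 i j).trans hR.2.2

theorem cands_zero_mem {g : ι → Fin 2} {M : ℝ} (hM : 0 ≤ M) : (0 : Matrix ι ι ℂ) ∈ cands g M :=
  ⟨PosSemidef.zero, by ext i j; simp [pinch], by simpa using hM⟩

theorem radius_nonneg {c : Fin 2 → ℝ} (hc : ∀ b, 0 < c b) {T : ℝ} (hT : 0 ≤ T) :
    0 ≤ radius c T := by
  have hm0 : 0 < min (c 0) (c 1) / 2 := half_pos (lt_min (hc 0) (hc 1))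
  have he : Real.exp (-(min (c 0) (c 1) / 2)) < 1 := by
    rw [← Real.exp_zero]; exact Real.exp_lt_exp.2 (by linarith)
  refine div_nonneg (mul_nonneg (neg_nonneg.2 (Real.log_nonpos (by linarith) ?_)) hT) hm0.le
  linarith [Real.exp_pos (-(min (c 0) (c 1) / 2))]

theorem continuous_omegaFun {X : Type*} [TopologicalSpace X] (g : ι → Fin 2) (c : Fin 2 → ℝ)
    {τ R : X → Matrix ι ι ℂ} (hτc : Continuous τ) (hRc : Continuous R)
    (hτ : ∀ x, (τ x).PosSemidef) (hR : ∀ x, (R x).PosSemidef) {T M : ℝ}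
    (hT : ∀ x, (τ x).trace.re ≤ T) (hM : ∀ x, (R x).trace.re ≤ M) :
    Continuous fun x => omegaFun g c (τ x) (R x) := by
  unfold omegaFun
  refine ((((continuousOn_vN T).comp_continuous ((continuous_pinch g).comp hτc)
    fun x => ⟨posSemidef_pinch (hτ x), (congrArg Complex.re (trace_pinch g _)).trans_le (hT x)⟩).add
    ((continuousOn_vN M).comp_continuous hRc fun x => ⟨hR x, hM x⟩)).sub
    ((continuousOn_vN (T + M)).comp_continuous (hτc.add hRc) fun x => ⟨(hτ x).add (hR x), ?_⟩)).sub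
    (Complex.continuous_re.comp (continuous_const.matrix_mul hRc).matrix_trace)
  rw [Pi.add_apply, trace_add, Complex.add_re]
  exact add_le_add (hT x) (hM x)

/-- `omegaC` is attained on a compact set. -/
theorem omegaC_eq_sSup {g : ι → Fin 2} {c : Fin 2 → ℝ} (hc : ∀ b, 0 < c b) {τ : Matrix ι ι ℂ}
    (hτ : τ.PosSemidef) {T : ℝ} (hT : τ.trace.re ≤ T) :
    (∃ R ∈ cands g (radius c T), omegaC g c τ = omegaFun g c τ R ∧
      ∀ R', R'.PosSemidef → pinch g R' = R' → omegaFun g c τ R' ≤ omegaC g c τ) ∧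
    omegaC g c τ = sSup (omegaFun g c τ '' cands g (radius c T)) := by
  have hT0 : 0 ≤ T := le_trans (Complex.le_def.1 hτ.trace_nonneg).1 hT
  set K := cands g (radius c T) with hK
  have hne : K.Nonempty := ⟨0, cands_zero_mem (radius_nonneg hc hT0)⟩
  have hcont : ContinuousOn (omegaFun g c τ) K := by
    rw [continuousOn_iff_continuous_domRestrict]
    exact continuous_omegaFun g c continuous_const continuous_subtype_val (fun _ => hτ)
      (fun R => R.2.1) (fun _ => hT) (fun R => R.2.2.2)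
  obtain ⟨R₀, hR₀, hmax⟩ := (isCompact_cands g _).exists_isMaxOn hne hcont
  have hall : ∀ R', R'.PosSemidef → pinch g R' = R' →
      omegaFun g c τ R' ≤ omegaFun g c τ R₀ := by
    intro R' h1 h2
    by_cases h : R'.trace.re ≤ radius c T
    · exact hmax ⟨h1, h2, h⟩
    · exact (omegaFun_le_zero hc hτ h1 hT (le_of_not_ge h)).trans
        (hmax (cands_zero_mem (radius_nonneg hc hT0)))
  have he : omegaC g c τ = omegaFun g c τ R₀ := by
    refine IsGreatest.csSup_eq ⟨⟨R₀, hR₀.1, hR₀.2.1, rfl⟩, ?_⟩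
    rintro v ⟨R', h1, h2, rfl⟩
    exact hall R' h1 h2
  refine ⟨⟨R₀, hR₀, he, fun R' h1 h2 => he ▸ hall R' h1 h2⟩, he.trans (Eq.symm ?_)⟩
  refine IsGreatest.csSup_eq ⟨⟨R₀, hR₀, rfl⟩, ?_⟩
  rintro v ⟨R', h, rfl⟩
  exact hmax h

/-- The set defining `omegaC` is bounded above. -/
theorem omegaC_bddAbove (g : ι → Fin 2) (c : Fin 2 → ℝ) (hc : ∀ b, 0 < c b) {τ : Matrix ι ι ℂ}
    (hτ : τ.PosSemidef) :
    BddAbove {v : ℝ | ∃ R : Matrix ι ι ℂ, R.PosSemidef ∧ pinch g R = R ∧ v = omegaFun g c τ R} := by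
  obtain ⟨⟨R₀, -, -, hall⟩, -⟩ := omegaC_eq_sSup (g := g) hc hτ le_rfl
  exact ⟨_, by rintro v ⟨R', h1, h2, rfl⟩; exact hall R' h1 h2⟩

theorem le_omegaC {g : ι → Fin 2} {c : Fin 2 → ℝ} (hc : ∀ b, 0 < c b) {τ R : Matrix ι ι ℂ}
    (hτ : τ.PosSemidef) (hR : R.PosSemidef) (hRb : pinch g R = R) :
    omegaFun g c τ R ≤ omegaC g c τ :=
  le_csSup (omegaC_bddAbove g c hc hτ) ⟨R, hR, hRb, rfl⟩

/-- Continuity along a continuous family. -/
theorem continuousOn_omegaC_comp {g : ι → Fin 2} {c : Fin 2 → ℝ} (hc : ∀ b, 0 < c b)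
    {τ : ℝ → Matrix ι ι ℂ} {a b : ℝ} (hτc : Continuous τ)
    (hτ : ∀ t ∈ Set.Icc a b, (τ t).PosSemidef) :
    ContinuousOn (fun t => omegaC g c (τ t)) (Set.Icc a b) := by
  obtain ⟨T, hT⟩ := isCompact_Icc.bddAbove_image (K := Set.Icc a b)
    (Complex.continuous_re.comp hτc.matrix_trace).continuousOn
  rw [continuousOn_iff_continuous_domRestrict]
  have hF : Continuous fun p : Set.Icc a b × cands g (radius c T) =>
      omegaFun g c (τ p.1) p.2 :=
    continuous_omegaFun g c (hτc.comp (continuous_subtype_val.comp continuous_fst))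
      (continuous_subtype_val.comp continuous_snd) (fun p => hτ _ p.1.2) (fun p => p.2.2.1)
      (fun p => hT ⟨_, p.1.2, rfl⟩) (fun p => p.2.2.2.2)
  haveI : CompactSpace (cands g (radius c T)) :=
    isCompact_iff_compactSpace.1 (isCompact_cands g _)
  have h := IsCompact.continuous_sSup (f := fun (t : Set.Icc a b) (R : cands g (radius c T)) =>
    omegaFun g c (τ t) R) isCompact_univ hF
  refine h.congr fun t => ?_
  rw [Set.domRestrict_apply, (omegaC_eq_sSup hc (hτ _ t.2) (hT ⟨_, t.2, rfl⟩)).2]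
  congr 1
  ext v
  constructor
  · rintro ⟨⟨R, hR⟩, -, rfl⟩; exact ⟨R, hR, rfl⟩
  · rintro ⟨R, hR, rfl⟩; exact ⟨⟨R, hR⟩, trivial, rfl⟩

/-- Continuity of `omegaC` along `τ + ε`. -/
theorem omegaC_tendsto (g : ι → Fin 2) (c : Fin 2 → ℝ) (hc : ∀ b, 0 < c b) {τ : Matrix ι ι ℂ}
    (hτ : τ.PosSemidef) :
    Filter.Tendsto (fun ε : ℝ => omegaC g c (τ + (ε : ℂ) • 1)) (nhdsWithin 0 (Set.Ioi 0))
      (nhds (omegaC g c τ)) := by
  have h := continuousOn_omegaC_comp (g := g) hc (τ := fun ε : ℝ => τ + (ε : ℂ) • 1) (a := 0)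
    (b := 1) (continuous_const.add (Complex.continuous_ofReal.smul continuous_const))
    (fun t ht => hτ.add (PosSemidef.one.smul (Complex.zero_le_real.2 ht.1)))
  have h0 := h 0 (Set.left_mem_Icc.2 zero_le_one)
  simp only [ContinuousWithinAt, Complex.ofReal_zero, zero_smul, add_zero] at h0
  exact h0.mono_left (nhdsWithin_le_of_mem (Icc_mem_nhdsGT zero_lt_one))

/-- Stationarity at a maximiser. -/
theorem stationary {g : ι → Fin 2} {c : Fin 2 → ℝ} {τ R : Matrix ι ι ℂ}
    (hτ : τ.PosDef) (hR : R.PosSemidef) (hRb : pinch g R = R)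
    (hmax : ∀ R', R'.PosSemidef → pinch g R' = R' → omegaFun g c τ R' ≤ omegaFun g c τ R) :
    ∃ H K : Matrix ι ι ℂ, H.IsHermitian ∧ K.IsHermitian ∧ pinch g K = K ∧
      pinch g H = K + gdiag g c ∧ NormedSpace.exp H = τ + R ∧ NormedSpace.exp K = R := by
  obtain ⟨H, hH, hE⟩ := exists_log (hτ.add_posSemidef hR)
  set K := pinch g H - gdiag g c with hK
  have hKh : K.IsHermitian := by
    refine IsHermitian.sub ?_ (isHermitian_gdiag g c)
    rw [IsHermitian, ← pinch_conjTranspose, hH.eq]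
  have hKb : pinch g K = K := by rw [hK, pinch_sub, pinch_pinch, pinch_gdiag]
  have hR' : (NormedSpace.exp K).PosSemidef := (posDef_exp hKh).posSemidef
  have hR'b : pinch g (NormedSpace.exp K) = NormedSpace.exp K :=
    pinch_fixed_iff.2 (pinch_fixed_iff.1 hKb).exp_right
  refine ⟨H, K, hH, hKh, hKb, by rw [hK, sub_add_cancel], hE, (gibbs_eq hR hKh ?_).symm⟩
  have hRH : ∀ {Y : Matrix ι ι ℂ}, pinch g Y = Y →
      (Y * H).trace.re = (Y * K).trace.re + (gdiag g c * Y).trace.re := by
    intro Y hY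
    rw [← trace_mul_pinch hY, trace_mul_comm (gdiag g c) Y, ← Complex.add_re, ← trace_add,
      ← Matrix.mul_add, hK, sub_add_cancel]
  have h := hmax _ hR' hR'b
  simp only [omegaFun] at h
  have hg := gibbs ((hτ.posSemidef).add hR') hH
  have heq : vN (τ + R) = -((τ + R) * H).trace.re := by rw [← hE]; exact vN_exp hH
  rw [vN_exp hKh, heq] at h
  rw [hE] at hg
  simp only [Matrix.add_mul, trace_add, Complex.add_re, hRH hR'b, hRH hRb] at h hg ⊢
  linarith

/-- The exponential commutes with the grading only for block diagonal exponents. -/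
theorem pinch_of_exp {g : ι → Fin 2} {Z : Matrix ι ι ℂ} (hZ : Z.IsHermitian)
    (h : pinch g (NormedSpace.exp Z) = NormedSpace.exp Z) : pinch g Z = Z := by
  let u : (Matrix ι ι ℂ)ˣ := ⟨sgn g, sgn g, sgn_mul_sgn g, sgn_mul_sgn g⟩
  have hh : (sgn g * Z * sgn g).IsHermitian := by
    have := isHermitian_mul_mul_conjTranspose (sgn g) hZ
    rwa [sgn_conjTranspose] at this
  have he : NormedSpace.exp (sgn g * Z * sgn g) = NormedSpace.exp Z := by
    have h2 := Matrix.exp_units_conj u Z
    change NormedSpace.exp (sgn g * Z * sgn g) = sgn g * NormedSpace.exp Z * sgn g at h2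
    rw [h2, (pinch_fixed_iff.1 h).eq, Matrix.mul_assoc, sgn_mul_sgn, Matrix.mul_one]
  have hz := exp_inj hh hZ he
  refine pinch_fixed_iff.2 ?_
  unfold Commute SemiconjBy
  calc sgn g * Z = sgn g * Z * (sgn g * sgn g) := by rw [sgn_mul_sgn, Matrix.mul_one]
    _ = (sgn g * Z * sgn g) * sgn g := by simp only [Matrix.mul_assoc]
    _ = Z * sgn g := by rw [hz]

theorem duh_self_eq (L A : Matrix ι ι ℂ) (s : ℝ) :
    duh L A A L s = (L * NormedSpace.exp ((s : ℂ) • A) * L *
      NormedSpace.exp (((1 - s : ℝ) : ℂ) • A)).trace.re := by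
  rw [duh, Complex.coe_smul, Complex.coe_smul]
  simp only [Matrix.mul_assoc]

theorem trace_single_mul (i j : ι) (a : ℂ) (Y : Matrix ι ι ℂ) :
    (single j i a * Y).trace = a * Y i j := by
  rw [trace, Finset.sum_eq_single j]
  · simp [Matrix.mul_apply, Matrix.single_apply]
  · intro b _ hb
    simp [Matrix.mul_apply, Matrix.single_apply, Ne.symm hb]
  · simp

theorem hasDerivAt_affine (M X D : Matrix ι ι ℂ) :
    HasDerivAt (fun h : ℝ => (M * (X + h • D)).trace.re) (M * D).trace.re 0 := by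
  have h := ((hasDerivAt_id (0 : ℝ)).mul_const (M * D).trace.re).const_add (M * X).trace.re
  simp only [one_mul] at h
  refine h.congr_of_eventuallyEq (Eventually.of_forall fun h => ?_)
  simp [Matrix.mul_add, trace_smul]

/-- The gap in the Gibbs inequality along the tangent curve is of second order. -/
theorem gap_isLittleO {X Z D L : Matrix ι ι ℂ} (hX : NormedSpace.exp Z = X)
    (hL : ∀ M, (∫ s in (0 : ℝ)..1, duh M Z Z L s) = (M * D).trace.re) :
    (fun h : ℝ => ((X + h • D - NormedSpace.exp (Z + h • L)) *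
      (X + h • D - NormedSpace.exp (Z + h • L)) *
        NormedSpace.exp (-(Z + h • L))).trace.re) =o[𝓝 0] fun h : ℝ => h ^ 2 := by
  set Δ : ℝ → Matrix ι ι ℂ := fun h => X + h • D - NormedSpace.exp (Z + h • L) with hΔ
  have hd : ∀ M, HasDerivAt (fun h => (M * Δ h).trace.re) 0 0 := by
    intro M
    have h := (hasDerivAt_affine M X D).sub (hasDerivAt_mul_exp M Z L)
    rw [hL, sub_self] at h
    refine h.congr_of_eventuallyEq (Eventually.of_forall fun h => ?_)
    simp [hΔ, Matrix.mul_sub]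
  have hre : ∀ (z : ℂ) (Y : Matrix ι ι ℂ) i j, (single j i z * Y).trace.re = (z * Y i j).re :=
    fun z Y i j => by rw [trace_single_mul]
  have hentry : ∀ i j, (fun h => Δ h i j) =o[𝓝 0] fun h : ℝ => h := by
    intro i j
    have h1 := hd (single j i 1)
    have h2 := hd (single j i (-Complex.I))
    simp only [hre, one_mul, neg_mul, Complex.neg_re, Complex.I_mul_re, neg_neg] at h1 h2
    have h3 := h1.ofReal_comp.add (h2.ofReal_comp.mul_const Complex.I)
    have h4 : HasDerivAt (fun h => Δ h i j) (((0 : ℝ) : ℂ) + ((0 : ℝ) : ℂ) * Complex.I) 0 :=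
      h3.congr_of_eventuallyEq (Eventually.of_forall fun h => (Complex.re_add_im _).symm)
    have h5 := hasDerivAt_iff_isLittleO.1 h4
    have h0 : Δ 0 = 0 := by simp [hΔ, hX]
    simpa [h0] using h5
  have hG : ∀ k i, (fun h : ℝ => NormedSpace.exp (-(Z + h • L)) k i) =O[𝓝 0]
      fun _ => (1 : ℝ) := by
    intro k i
    have hc : Continuous fun h : ℝ => NormedSpace.exp (-(Z + h • L)) k i :=
      (continuous_exp_mat.comp
        (continuous_const.add (continuous_id.smul continuous_const)).neg).matrix_elem k i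
    exact (hc.tendsto 0).isBigO_one ℝ
  have hsum : (fun h : ℝ => ∑ i, ∑ k, (∑ j, Δ h i j * Δ h j k) *
      NormedSpace.exp (-(Z + h • L)) k i) =o[𝓝 0] fun h : ℝ => h ^ 2 := by
    apply Asymptotics.IsLittleO.fun_sum
    intro i _
    apply Asymptotics.IsLittleO.fun_sum
    intro k _
    have h6 : (fun h : ℝ => ∑ j, Δ h i j * Δ h j k) =o[𝓝 0] fun h : ℝ => h ^ 2 :=
      Asymptotics.IsLittleO.fun_sum fun j _ =>
        ((hentry i j).mul (hentry j k)).congr_right fun h => (pow_two h).symm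
    exact (h6.mul_isBigO (hG k i)).congr_right fun h => mul_one _
  refine Asymptotics.IsBigO.trans_isLittleO ?_ hsum
  refine Asymptotics.isBigO_of_le _ fun h => ?_
  rw [Real.norm_eq_abs]
  refine le_trans (le_of_eq ?_) (Complex.abs_re_le_norm _)
  simp only [hΔ, trace, diag, Matrix.mul_apply]

/-- The second difference of `omegaC` at a positive definite point is nearly nonnegative. -/
theorem omegaC_second_diff {g : ι → Fin 2} {c : Fin 2 → ℝ} (hc : ∀ b, 0 < c b)
    {τ D : Matrix ι ι ℂ} (hτ : τ.PosDef) (hD : D.IsHermitian) {ε : ℝ} (hε : 0 < ε)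
    (hpsd : ∀ᶠ h in 𝓝[>] (0 : ℝ), (τ + h • D).PosSemidef ∧ (τ + (-h) • D).PosSemidef) :
    ∀ᶠ h in 𝓝[>] (0 : ℝ),
      -ε * h ^ 2 ≤ omegaC g c (τ + h • D) + omegaC g c (τ + (-h) • D) - 2 * omegaC g c τ := by
  obtain ⟨⟨R, hRmem, hΩ, hall⟩, -⟩ := omegaC_eq_sSup (g := g) hc hτ.posSemidef le_rfl
  obtain ⟨H, K, hH, hK, hKb, hHK, hE, hexpK⟩ :=
    stationary hτ hRmem.1 hRmem.2.1 (fun R' a b => hΩ ▸ hall R' a b)
  obtain ⟨Z, hZ, hexpZ⟩ := exists_log (posDef_pinch (g := g) hτ)
  have hZb : pinch g Z = Z := pinch_of_exp hZ (by rw [hexpZ, pinch_pinch])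
  obtain ⟨L, hL, hLb, hLT⟩ := exists_preimage g hZ hZb (D := pinch g D)
    (by rw [IsHermitian, ← pinch_conjTranspose, hD.eq]) (pinch_pinch g D)
  set A : ℝ → ℝ := fun h => ((τ + h • D) * (H + h • L)).trace.re -
    (pinch g (τ + h • D) * (Z + h • L)).trace.re with hA
  set Ψ : ℝ → ℝ := fun h => (NormedSpace.exp (K + h • L)).trace.re +
    (NormedSpace.exp (Z + h • L)).trace.re - (NormedSpace.exp (H + h • L)).trace.re with hΨ
  set gap : ℝ → ℝ := fun h => ((pinch g τ + h • pinch g D - NormedSpace.exp (Z + h • L)) *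
    (pinch g τ + h • pinch g D - NormedSpace.exp (Z + h • L)) *
      NormedSpace.exp (-(Z + h • L))).trace.re with hgap
  have hherm : ∀ {Y : Matrix ι ι ℂ}, Y.IsHermitian → ∀ h : ℝ, (Y + h • L).IsHermitian :=
    fun hY h => hY.add (by rw [IsHermitian, conjTranspose_smul, hL.eq, star_trivial])
  have lower : ∀ h : ℝ, (τ + h • D).PosSemidef →
      A h + Ψ h - gap h ≤ omegaC g c (τ + h • D) := by
    intro h hh
    have hKh := hherm hK h
    have hHh := hherm hH h
    have hKhb : pinch g (K + h • L) = K + h • L := by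
      rw [pinch_add, pinch_smul_real, hKb, hLb]
    have hRb : pinch g (NormedSpace.exp (K + h • L)) = NormedSpace.exp (K + h • L) :=
      pinch_fixed_iff.2 (pinch_fixed_iff.1 hKhb).exp_right
    have hRp := (posDef_exp hKh).posSemidef
    refine le_trans ?_ (le_omegaC hc hh hRp hRb)
    have hg := gibbs (hh.add hRp) hHh
    have hl := gibbs_lower (posSemidef_pinch (g := g) hh) (hherm hZ h)
    have hRH : (NormedSpace.exp (K + h • L) * (H + h • L)).trace.re =
        (NormedSpace.exp (K + h • L) * (K + h • L)).trace.re +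
          (gdiag g c * NormedSpace.exp (K + h • L)).trace.re := by
      rw [← trace_mul_pinch hRb (H + h • L), trace_mul_comm (gdiag g c), ← Complex.add_re,
        ← trace_add, ← Matrix.mul_add, pinch_add, pinch_smul_real, hHK, hLb, add_right_comm]
    simp only [omegaFun, vN_exp hKh, hA, hΨ, hgap, pinch_add, pinch_smul_real, Matrix.add_mul,
      trace_add, Complex.add_re, trace_pinch] at hg hl ⊢
    have htr : (pinch g D).trace = D.trace := trace_pinch g D
    simp only [trace_smul, htr, trace_pinch] at hg hl ⊢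
    linarith
  have h00 : gap 0 = 0 ∧ omegaC g c τ = A 0 + Ψ 0 := by
    refine ⟨by simp [hgap, hexpZ], ?_⟩
    rw [hΩ]
    simp only [omegaFun, hA, hΨ, zero_smul, add_zero, hE, hexpK, hexpZ, trace_pinch, trace_add,
      Complex.add_re]
    have hRH : (R * H).trace.re = (R * K).trace.re + (gdiag g c * R).trace.re := by
      rw [← trace_mul_pinch hRmem.2.1 H, trace_mul_comm (gdiag g c), ← Complex.add_re,
        ← trace_add, ← Matrix.mul_add, hHK]
    have e1 : vN (τ + R) = -((τ + R) * H).trace.re := by rw [← hE]; exact vN_exp hH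
    have e2 : vN (pinch g τ) = -(pinch g τ * Z).trace.re := by rw [← hexpZ]; exact vN_exp hZ
    have e3 : vN R = -(R * K).trace.re := by rw [← hexpK]; exact vN_exp hK
    rw [Matrix.add_mul, trace_add, Complex.add_re] at e1
    linarith
  have hAd : ∀ h : ℝ, A h + A (-h) - 2 * A 0 = 0 := by
    intro h
    have e : (pinch g D * L).trace.re = (D * L).trace.re := by
      rw [trace_mul_comm, trace_mul_pinch hLb, trace_mul_comm]
    simp only [hA, zero_smul, add_zero, pinch_add, pinch_smul_real, Matrix.add_mul, Matrix.mul_add,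
      trace_add, Complex.add_re, Matrix.smul_mul, Matrix.mul_smul, trace_smul, Complex.smul_re,
      smul_eq_mul, e]
    ring
  have hΨd : ∀ h : ℝ, HasDerivAt Ψ ((L * NormedSpace.exp (K + h • L)).trace.re +
      (L * NormedSpace.exp (Z + h • L)).trace.re -
        (L * NormedSpace.exp (H + h • L)).trace.re) h :=
    fun h => ((hasDerivAt_trace_exp K L h).add (hasDerivAt_trace_exp Z L h)).sub
      (hasDerivAt_trace_exp H L h)
  have hψ := ((hasDerivAt_mul_exp L K L).add (hasDerivAt_mul_exp L Z L)).sub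
    (hasDerivAt_mul_exp L H L)
  have hvar : 0 ≤ (∫ s in (0 : ℝ)..1, duh L K K L s) + (∫ s in (0 : ℝ)..1, duh L Z Z L s) -
      ∫ s in (0 : ℝ)..1, duh L H H L s := by
    have hi : ∀ Y : Matrix ι ι ℂ,
        IntervalIntegrable (duh L Y Y L) MeasureTheory.volume 0 1 :=
      fun Y => (continuous_duh_zero L Y L).intervalIntegrable _ _
    rw [← intervalIntegral.integral_add (hi K) (hi Z), sub_nonneg]
    refine intervalIntegral.integral_mono_on zero_le_one (hi H) ((hi K).add (hi Z)) fun s hs => ?_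
    simp only [duh_self_eq]
    refine key_var g c hH hK hKb hZ hZb hHK ?_ ?_ hL hLb hs.1 hs.2
    · rw [hE, hexpK, add_sub_cancel_right]; exact hτ.posSemidef
    · rw [hexpZ, hE, hexpK, pinch_add, hRmem.2.1, add_sub_cancel_right]
  have hsd := second_diff hΨd hψ hvar (half_pos hε)
  have hg := (gap_isLittleO (X := pinch g τ) (D := pinch g D) hexpZ hLT).def
    (show 0 < ε / 4 by positivity)
  have hgp : ∀ᶠ h in 𝓝[>] (0 : ℝ), |gap h| ≤ ε / 4 * h ^ 2 := by
    filter_upwards [nhdsWithin_le_nhds hg] with h hh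
    simpa [hgap, abs_of_nonneg (sq_nonneg h)] using hh
  have hgm : ∀ᶠ h in 𝓝[>] (0 : ℝ), |gap (-h)| ≤ ε / 4 * h ^ 2 := by
    have ht : Tendsto (fun h : ℝ => -h) (𝓝[>] 0) (𝓝 0) := by
      simpa using (continuous_neg.tendsto (0 : ℝ)).mono_left nhdsWithin_le_nhds
    filter_upwards [ht.eventually hg] with h hh
    simpa [hgap, abs_of_nonneg (sq_nonneg h)] using hh
  filter_upwards [hsd, hgp, hgm, hpsd] with h h1 h2 h3 h4
  have a := lower h h4.1
  have b := lower (-h) h4.2
  have := (abs_le.1 h2).2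
  have := (abs_le.1 h3).2
  linarith [hAd h, h00.2]

/-- Convexity on positive definite matrices. -/
theorem omegaC_convexOn (g : ι → Fin 2) (c : Fin 2 → ℝ) (hc : ∀ b, 0 < c b) :
    ConvexOn ℝ {τ : Matrix ι ι ℂ | τ.PosDef} (omegaC g c) := by
  have hconv : Convex ℝ {τ : Matrix ι ι ℂ | τ.PosDef} := by
    intro x hx y hy a b ha hb hab
    rw [← Complex.coe_smul, ← Complex.coe_smul]
    rcases eq_or_lt_of_le ha with rfl | ha'
    · rw [zero_add] at hab; subst hab; simpa using hy
    · exact (hx.smul (Complex.zero_lt_real.2 ha')).add_posSemidef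
        (hy.posSemidef.smul (Complex.zero_le_real.2 hb))
  refine ⟨hconv, fun x hx y hy a b ha hb hab => ?_⟩
  set p : ℝ → Matrix ι ι ℂ := fun t => x + t • (y - x) with hp
  have hpb : p b = a • x + b • y := by
    rw [hp, show a = 1 - b by linarith]; simp only [smul_sub, sub_smul, one_smul]; abel
  have hpd : ∀ t ∈ Set.Icc (0 : ℝ) 1, (p t).PosDef := by
    intro t ht
    have := hconv hx hy (show 0 ≤ 1 - t by linarith [ht.2]) ht.1 (by ring)
    rw [show p t = (1 - t) • x + t • y by
      simp only [hp, smul_sub, sub_smul, one_smul]; abel]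
    exact this
  rw [← hpb]
  simp only [smul_eq_mul]
  have hb1 : b ∈ Set.Icc (0 : ℝ) 1 := ⟨hb, by linarith⟩
  refine le_of_forall_pos_le_add fun ε hε => ?_
  set f : ℝ → ℝ := fun t =>
    omegaC g c (p t) - ((1 - t) * omegaC g c x + t * omegaC g c y) + ε * (t ^ 2 - t) with hf
  have hpc : Continuous p := continuous_const.add (continuous_id.smul continuous_const)
  have hfc : ContinuousOn f (Set.Icc 0 1) :=
    ((continuousOn_omegaC_comp hc hpc fun t ht => (hpd t ht).posSemidef).sub
      (by fun_prop : Continuous fun t : ℝ =>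
        (1 - t) * omegaC g c x + t * omegaC g c y).continuousOn).add
      (by fun_prop : Continuous fun t : ℝ => ε * (t ^ 2 - t)).continuousOn
  obtain ⟨t₀, ht₀, hmax⟩ := isCompact_Icc.exists_isMaxOn (Set.nonempty_Icc.2 zero_le_one) hfc
  have hle : f t₀ ≤ 0 := by
    rcases eq_or_lt_of_le ht₀.1 with h0 | h0
    · simp [hf, hp, ← h0]
    rcases eq_or_lt_of_le ht₀.2 with h1 | h1
    · simp [hf, hp, h1]
    exfalso
    have hD : (y - x).IsHermitian := hy.1.sub hx.1
    have hin : ∀ᶠ h in 𝓝[>] (0 : ℝ),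
        h < t₀ ∧ h < 1 - t₀ ∧ 0 < h := by
      filter_upwards [Ioo_mem_nhdsGT h0, Ioo_mem_nhdsGT (sub_pos.2 h1)] with h a b
      exact ⟨a.2, b.2, a.1⟩
    have hsh : ∀ h : ℝ, p t₀ + h • (y - x) = p (t₀ + h) := fun h => by
      simp only [hp, add_smul]; abel
    have hpsd : ∀ᶠ h in 𝓝[>] (0 : ℝ),
        (p t₀ + h • (y - x)).PosSemidef ∧ (p t₀ + (-h) • (y - x)).PosSemidef := by
      filter_upwards [hin] with h hh
      rw [hsh, hsh]
      exact ⟨(hpd _ ⟨by linarith, by linarith⟩).posSemidef,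
        (hpd _ ⟨by linarith, by linarith⟩).posSemidef⟩
    obtain ⟨h, hsd, hh⟩ :=
      ((omegaC_second_diff (g := g) hc (hpd t₀ ht₀) hD hε hpsd).and hin).exists
    rw [hsh, hsh] at hsd
    have a1 := hmax (show t₀ + h ∈ Set.Icc (0 : ℝ) 1 from ⟨by linarith, by linarith⟩)
    have a2 := hmax (show t₀ + -h ∈ Set.Icc (0 : ℝ) 1 from ⟨by linarith, by linarith⟩)
    simp only [hf, Set.mem_setOf_eq] at a1 a2
    have := mul_pos hε (pow_pos hh.2.2 2)
    linarith
  have := (hmax hb1).trans hle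
  simp only [hf] at this
  rw [show a = 1 - b by linarith]
  nlinarith [mul_nonneg hε.le (sq_nonneg (b - 1 / 2)), sq_nonneg b]

end Vale.Agent.P358.Gen
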