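import Vale.Agent.P358.Gen.Defs
import Vale.Agent.P358.ScalarBlock

/-!
# P358: the scalar four-block function
-/

namespace Vale.Agent.P358.Gen

open Real MeasureTheory

variable {u w a b : ℝ}

theorem quad_disc_le (hu : 0 ≤ u) (hw : 0 ≤ w) (ha : 0 ≤ a) (hb : 0 ≤ b) :
    √((a + u - (b + w)) ^ 2 + 4 * (u * w)) ≤ a + u + (b + w) := by
  refine (Real.sqrt_le_left (by linarith)).2 ?_
  have h1 : 0 ≤ a * b + a * w + u * b := by positivity
  linarith

theorem quadP_nonneg (hu : 0 ≤ u) (hw : 0 ≤ w) (ha : 0 ≤ a) (hb : 0 ≤ b) :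
    0 ≤ quadP u w a b := by
  unfold quadP
  have := Real.sqrt_nonneg ((a + u - (b + w)) ^ 2 + 4 * (u * w))
  linarith

theorem quadM_nonneg (hu : 0 ≤ u) (hw : 0 ≤ w) (ha : 0 ≤ a) (hb : 0 ≤ b) :
    0 ≤ quadM u w a b := by
  unfold quadM
  have := quad_disc_le hu hw ha hb
  linarith

theorem quad_sum (u w a b : ℝ) : quadP u w a b + quadM u w a b = u + w + a + b := by
  unfold quadP quadM
  ring

theorem quad_prod (hu : 0 ≤ u) (hw : 0 ≤ w) :
    quadP u w a b * quadM u w a b = (a + u) * (b + w) - u * w := by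
  have h := Real.sq_sqrt (show 0 ≤ (a + u - (b + w)) ^ 2 + 4 * (u * w) by positivity)
  unfold quadP quadM
  linear_combination (-1 / 4 : ℝ) * h

/-- The integrand. -/
noncomputable def quadLine (t u w a b : ℝ) : ℝ :=
  log (1 + u / (t + a) + w / (t + b))

theorem quadLine_eq_logs (hu : 0 ≤ u) (hw : 0 ≤ w) (ha : 0 ≤ a) (hb : 0 ≤ b) {t : ℝ}
    (ht : 0 < t) :
    quadLine t u w a b =
      log (t + quadP u w a b) + log (t + quadM u w a b) - log (t + a) - log (t + b) := by
  have hP := quadP_nonneg hu hw ha hb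
  have hM := quadM_nonneg hu hw ha hb
  have hs := quad_sum u w a b
  have hp := quad_prod (a := a) (b := b) hu hw
  have e : (t + quadP u w a b) * (t + quadM u w a b) =
      (1 + u / (t + a) + w / (t + b)) * ((t + a) * (t + b)) := by
    field_simp
    linear_combination t * hs + hp
  have hl := congrArg log e
  rw [log_mul (by positivity) (by positivity), log_mul (by positivity) (by positivity),
    log_mul (by positivity) (by positivity)] at hl
  unfold quadLine
  linarith

/-- The slope of `quadLine` in the first background variable. -/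
noncomputable def quadSlope (t u w a b : ℝ) : ℝ :=
  u / (t + a) ^ 2 / (1 + u / (t + a) + w / (t + b))

theorem quadLine_tangent {r₀ r₁ t : ℝ} (hu : 0 ≤ u) (hw : 0 ≤ w) (ha : 0 ≤ a) (hb : 0 ≤ b)
    (hr₀ : 0 ≤ r₀) (hr₁ : 0 ≤ r₁) (ht : 0 < t) :
    quadLine t u w a b - quadLine t u w r₀ r₁ ≤
      quadSlope t u w a b * (r₀ - a) + quadSlope t w u b a * (r₁ - b) := by
  set h := 1 + u / (t + a) + w / (t + b) with hh
  have hpos : 0 < h := by positivity
  set h' := 1 + u / (t + r₀) + w / (t + r₁) with hh'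
  have hpos' : 0 < h' := by positivity
  set p₀ := u / (t + a) / h with hp₀
  set p₁ := w / (t + b) / h with hp₁
  set pe := 1 / h with hpe
  set x₀ := (t + a) / (t + r₀) with hx₀
  set x₁ := (t + b) / (t + r₁) with hx₁
  set Z := h' / h with hZ
  have hZpos : 0 < Z := div_pos hpos' hpos
  have hx₀pos : 0 < x₀ := by positivity
  have hx₁pos : 0 < x₁ := by positivity
  have hp₀0 : 0 ≤ p₀ := by positivity
  have hp₁0 : 0 ≤ p₁ := by positivity
  have hpe0 : 0 ≤ pe := by positivity
  have hone : pe + p₀ + p₁ = 1 := by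
    rw [hpe, hp₀, hp₁, ← add_div, ← add_div, ← hh, div_self hpos.ne']
  have hZeq : pe + p₀ * x₀ + p₁ * x₁ = Z := by
    rw [hpe, hp₀, hp₁, hx₀, hx₁, hZ, hh']
    field_simp
  have k : ∀ x : ℝ, 0 < x → log x - log Z ≤ x / Z - 1 := fun x hx => by
    rw [← log_div hx.ne' hZpos.ne']
    exact log_le_sub_one_of_pos (div_pos hx hZpos)
  have k0 := mul_le_mul_of_nonneg_left (k 1 one_pos) hpe0
  have k1 := mul_le_mul_of_nonneg_left (k x₀ hx₀pos) hp₀0
  have k2 := mul_le_mul_of_nonneg_left (k x₁ hx₁pos) hp₁0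
  rw [log_one] at k0
  have hjensen : p₀ * log x₀ + p₁ * log x₁ ≤ log Z := by
    have e1 : pe * (1 / Z - 1) + p₀ * (x₀ / Z - 1) + p₁ * (x₁ / Z - 1) = 0 := by
      calc _ = (pe + p₀ * x₀ + p₁ * x₁) / Z - (pe + p₀ + p₁) := by ring
        _ = 0 := by rw [hZeq, hone, div_self hZpos.ne', sub_self]
    have e2 : pe * log Z + p₀ * log Z + p₁ * log Z = log Z := by
      rw [← add_mul, ← add_mul, hone, one_mul]
    linarith
  have g : ∀ x : ℝ, 0 < x → 1 - x⁻¹ ≤ log x := fun x hx => one_sub_inv_le_log_of_pos hx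
  have g0 := mul_le_mul_of_nonneg_left (g x₀ hx₀pos) hp₀0
  have g1 := mul_le_mul_of_nonneg_left (g x₁ hx₁pos) hp₁0
  have f0 : p₀ * (1 - x₀⁻¹) = -(quadSlope t u w a b * (r₀ - a)) := by
    rw [hp₀, hx₀, quadSlope, hh, inv_div]
    field_simp
    ring
  have f1 : p₁ * (1 - x₁⁻¹) = -(quadSlope t w u b a * (r₁ - b)) := by
    rw [hp₁, hx₁, quadSlope, hh, inv_div,
      show 1 + w / (t + b) + u / (t + a) = 1 + u / (t + a) + w / (t + b) by ring]
    field_simp
    ring
  have hq : quadLine t u w a b - quadLine t u w r₀ r₁ = -log Z := by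
    rw [hZ, log_div hpos'.ne' hpos.ne', quadLine, quadLine, ← hh, ← hh']
    ring
  rw [hq]
  linarith

theorem integrable_quadSlope (hu : 0 ≤ u) (hw : 0 ≤ w) (ha : 0 < a) (hb : 0 ≤ b) :
    IntegrableOn (fun t => quadSlope t u w a b) (Set.Ioi 0) := by
  have hd : ∀ t ∈ Set.Ici (0 : ℝ),
      HasDerivAt (fun s => -(u / (s + a))) (u / (t + a) ^ 2) t := by
    intro t ht
    have ht' : 0 ≤ t := ht
    have h2 := ((hasDerivAt_const t u).fun_div ((hasDerivAt_id' t).add_const a)
      (by positivity : t + a ≠ 0)).fun_neg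
    refine h2.congr_deriv ?_
    field_simp
    ring
  have hlim : Filter.Tendsto (fun s => -(u / (s + a))) Filter.atTop (nhds 0) := by
    simpa using ((tendsto_const_nhds (x := u)).div_atTop
      (Filter.tendsto_atTop_add_const_right _ a Filter.tendsto_id)).neg
  have hbig : IntegrableOn (fun t => u / (t + a) ^ 2) (Set.Ioi 0) :=
    integrableOn_Ioi_deriv_of_nonneg' hd (fun t _ => by positivity) hlim
  refine hbig.mono' ?_ ?_
  · exact (Measurable.aestronglyMeasurable (by unfold quadSlope; fun_prop))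
  · refine (ae_restrict_iff' measurableSet_Ioi).2 (Filter.Eventually.of_forall fun t ht => ?_)
    have ht' : 0 < t := ht
    unfold quadSlope
    rw [Real.norm_of_nonneg (by positivity)]
    refine div_le_self (by positivity) ?_
    have : 0 ≤ u / (t + a) + w / (t + b) := by positivity
    linarith

theorem integral_quadLine (hu : 0 ≤ u) (hw : 0 ≤ w) (ha : 0 ≤ a) (hb : 0 ≤ b) :
    IntegrableOn (fun t => quadLine t u w a b - (u + w) / (1 + t)) (Set.Ioi 0) ∧
      ∫ t in Set.Ioi 0, (quadLine t u w a b - (u + w) / (1 + t)) =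
        negMulLog (quadP u w a b) + negMulLog (quadM u w a b) - negMulLog a - negMulLog b +
          (u + w) := by
  obtain ⟨i1, e1⟩ := integral_etaInt (quadP_nonneg hu hw ha hb)
  obtain ⟨i2, e2⟩ := integral_etaInt (quadM_nonneg hu hw ha hb)
  obtain ⟨i3, e3⟩ := integral_etaInt ha
  obtain ⟨i4, e4⟩ := integral_etaInt hb
  have i12 : IntegrableOn
      (fun t => etaInt (quadP u w a b) t + etaInt (quadM u w a b) t) (Set.Ioi 0) := i1.add i2
  have i123 : IntegrableOn
      (fun t => etaInt (quadP u w a b) t + etaInt (quadM u w a b) t - etaInt a t) (Set.Ioi 0) :=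
    i12.sub i3
  have heq : Set.EqOn (fun t => quadLine t u w a b - (u + w) / (1 + t))
      (fun t => etaInt (quadP u w a b) t + etaInt (quadM u w a b) t - etaInt a t - etaInt b t)
      (Set.Ioi 0) := by
    intro t ht
    have ht' : 0 < t := ht
    have hP := quadP_nonneg hu hw ha hb
    have hM := quadM_nonneg hu hw ha hb
    simp only
    rw [quadLine_eq_logs hu hw ha hb ht']
    have f : ∀ x : ℝ, 0 ≤ x → etaInt x t = log (t + x) - log t - x / (1 + t) := by
      intro x hx
      rw [etaInt, show 1 + x / t = (t + x) / t by field_simp,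
        log_div (by positivity) ht'.ne']
    rw [f _ hP, f _ hM, f _ ha, f _ hb]
    have hs : (u + w) / (1 + t) = quadP u w a b / (1 + t) + quadM u w a b / (1 + t) -
        a / (1 + t) - b / (1 + t) := by
      rw [← add_div, ← sub_div, ← sub_div, quad_sum]
      ring
    linarith
  refine ⟨(i123.sub i4).congr_fun heq.symm measurableSet_Ioi, ?_⟩
  rw [setIntegral_congr_fun measurableSet_Ioi heq, integral_sub i123 i4, integral_sub i12 i3,
    integral_add i1 i2, e1, e2, e3, e4]
  have := quad_sum u w a b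
  linarith

/-- A tangent plane above `quadFn` in the background variables. -/
theorem quadFn_tangent (hu : 0 ≤ u) (hw : 0 ≤ w) (ha : 0 < a) (hb : 0 < b) :
    ∃ c₀ c₁ : ℝ, 0 ≤ c₀ ∧ 0 ≤ c₁ ∧ ∀ r₀ r₁ : ℝ, 0 ≤ r₀ → 0 ≤ r₁ →
      quadFn u w r₀ r₁ ≤ quadFn u w a b + c₀ * (r₀ - a) + c₁ * (r₁ - b) := by
  have i₀ := integrable_quadSlope hu hw ha hb.le
  have i₁ := integrable_quadSlope hw hu hb ha.le
  have hnn : ∀ {u w a b : ℝ}, 0 ≤ u → 0 ≤ w → 0 ≤ a → 0 ≤ b →
      0 ≤ ∫ t in Set.Ioi 0, quadSlope t u w a b := by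
    intro u w a b hu hw ha hb
    refine setIntegral_nonneg measurableSet_Ioi fun t ht => ?_
    have ht' : 0 < t := ht
    unfold quadSlope
    positivity
  refine ⟨∫ t in Set.Ioi 0, quadSlope t u w a b, ∫ t in Set.Ioi 0, quadSlope t w u b a,
    hnn hu hw ha.le hb.le, hnn hw hu hb.le ha.le, fun r₀ r₁ h₀ h₁ => ?_⟩
  obtain ⟨ia, ea⟩ := integral_quadLine hu hw ha.le hb.le
  obtain ⟨ir, er⟩ := integral_quadLine hu hw h₀ h₁
  have hmono : ∫ t in Set.Ioi 0,
      ((quadLine t u w a b - (u + w) / (1 + t)) - (quadLine t u w r₀ r₁ - (u + w) / (1 + t))) ≤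
      ∫ t in Set.Ioi 0,
        (quadSlope t u w a b * (r₀ - a) + quadSlope t w u b a * (r₁ - b)) := by
    refine setIntegral_mono_on (ia.sub ir) ((i₀.mul_const _).add (i₁.mul_const _))
      measurableSet_Ioi fun t ht => ?_
    have h := quadLine_tangent hu hw ha.le hb.le h₀ h₁ (show 0 < t from ht)
    linarith
  rw [integral_sub ia ir, integral_add (i₀.mul_const _) (i₁.mul_const _), integral_mul_const,
    integral_mul_const, ea, er] at hmono
  unfold quadFn
  linarith

theorem continuous_quadFn (u w : ℝ) :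
    Continuous fun p : ℝ × ℝ => quadFn u w p.1 p.2 := by
  unfold quadFn quadP quadM
  fun_prop

end Vale.Agent.P358.Gen
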