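import Vale.Agent.P358.Gen.Defs
import Vale.Agent.P358.PureFn

/-!
# The scalar formula is a maximum over one parameter
-/

namespace Vale.Agent.P358.Gen

open Real

/-- The one-parameter formula, in bits. -/
noncomputable def gadFormula (γ ν : ℝ) : ℝ :=
  sSup ((fun q : ℝ => (binEntropy (outPop γ ν q) - pureGen γ ν q) / Real.log 2) '' Set.Icc 0 1)

/-- `binEntropy ((1 - √(a² - y²)) / 2)`. -/
noncomputable def discEnt (a y : ℝ) : ℝ := binEntropy ((1 - √(a ^ 2 - y ^ 2)) / 2)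

/-- The derivative of `discEnt` in `y`. -/
noncomputable def discSlope (a y : ℝ) : ℝ :=
  slope √(a ^ 2 - y ^ 2) * (y / √(1 - (a ^ 2 - y ^ 2)))

theorem hasDerivAt_discEnt {a y : ℝ} (ha1 : a ≤ 1) (h0 : 0 < y) (h1 : y < a) :
    HasDerivAt (discEnt a) (discSlope a y) y := by
  have hp : 0 < a ^ 2 - y ^ 2 := by nlinarith
  have hr0 := Real.sqrt_pos.2 hp
  have hr1 : √(a ^ 2 - y ^ 2) < 1 := by
    rw [Real.sqrt_lt' one_pos]; nlinarith
  have a' : HasDerivAt (fun y => (1 - √(a ^ 2 - y ^ 2)) / 2)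
      (-((-(2 * y)) / (2 * √(a ^ 2 - y ^ 2))) / 2) y := by
    have := (((hasDerivAt_pow 2 y).const_sub (a ^ 2)).sqrt hp.ne').const_sub 1
    simpa using this.div_const 2
  have hb : HasDerivAt binEntropy
      (log (1 - (1 - √(a ^ 2 - y ^ 2)) / 2) - log ((1 - √(a ^ 2 - y ^ 2)) / 2))
      ((1 - √(a ^ 2 - y ^ 2)) / 2) :=
    Real.hasDerivAt_binEntropy (ne_of_gt (by linarith)) (ne_of_lt (by linarith))
  refine (hb.comp y a').congr_deriv ?_
  rw [discSlope, slope, Real.sq_sqrt hp.le]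
  have hs : 0 < √(1 - (a ^ 2 - y ^ 2)) := Real.sqrt_pos.2 (by nlinarith)
  set r := √(a ^ 2 - y ^ 2)
  set s := √(1 - (a ^ 2 - y ^ 2))
  rw [show 1 - (1 - r) / 2 = (1 + r) / 2 by ring, log_div (by linarith) two_ne_zero,
    log_div (by linarith) two_ne_zero]
  field_simp
  ring

theorem slope_nonneg {r : ℝ} (h0 : 0 < r) (h1 : r < 1) : 0 ≤ slope r := by
  have := two_mul_le_logDiff h0 h1
  exact div_nonneg (mul_nonneg (by positivity) (by linarith)) (by norm_num)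

theorem discSlope_mono {a : ℝ} (ha1 : a ≤ 1) : MonotoneOn (discSlope a) (Set.Ioo 0 a) := by
  rintro x ⟨hx0, hx1⟩ y ⟨hy0, hy1⟩ hxy
  have m : ∀ z : ℝ, 0 < z → z < a → √(a ^ 2 - z ^ 2) ∈ Set.Ioo (0 : ℝ) 1 := fun z h h' =>
    ⟨Real.sqrt_pos.2 (by nlinarith), by rw [Real.sqrt_lt' one_pos]; nlinarith⟩
  have h1 : slope √(a ^ 2 - x ^ 2) ≤ slope √(a ^ 2 - y ^ 2) :=
    slope_antitone (m y hy0 hy1) (m x hx0 hx1) (Real.sqrt_le_sqrt (by nlinarith))
  have px : 0 < 1 - (a ^ 2 - x ^ 2) := by nlinarith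
  have py : 0 < 1 - (a ^ 2 - y ^ 2) := by nlinarith
  have h2 : x / √(1 - (a ^ 2 - x ^ 2)) ≤ y / √(1 - (a ^ 2 - y ^ 2)) := by
    rw [div_le_div_iff₀ (Real.sqrt_pos.2 px) (Real.sqrt_pos.2 py)]
    have e : ∀ u p : ℝ, 0 ≤ u → u * √p = √(u ^ 2 * p) := fun u p hu => by
      rw [Real.sqrt_mul (sq_nonneg u), Real.sqrt_sq hu]
    rw [e x _ hx0.le, e y _ hy0.le]
    apply Real.sqrt_le_sqrt
    have hsq : x ^ 2 ≤ y ^ 2 := by nlinarith
    nlinarith [mul_le_mul_of_nonneg_right hsq (show 0 ≤ 1 - a ^ 2 by nlinarith)]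
  exact mul_le_mul h1 h2 (by positivity) ((slope_nonneg (m y hy0 hy1).1 (m y hy0 hy1).2))

theorem discEnt_convex_mono {a : ℝ} (ha1 : a ≤ 1) :
    ConvexOn ℝ (Set.Icc 0 a) (discEnt a) ∧ MonotoneOn (discEnt a) (Set.Icc 0 a) := by
  have hc : ContinuousOn (discEnt a) (Set.Icc 0 a) :=
    (Real.binEntropy_continuous.comp (by fun_prop)).continuousOn
  have hd : DifferentiableOn ℝ (discEnt a) (interior (Set.Icc 0 a)) := by
    rw [interior_Icc]
    exact fun y hy => (hasDerivAt_discEnt ha1 hy.1 hy.2).differentiableAt.differentiableWithinAt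
  refine ⟨MonotoneOn.convexOn_of_deriv (convex_Icc 0 a) hc hd ?_,
    monotoneOn_of_deriv_nonneg (convex_Icc 0 a) hc hd ?_⟩
  · rw [interior_Icc]
    intro x hx y hy hxy
    rw [(hasDerivAt_discEnt ha1 hx.1 hx.2).deriv, (hasDerivAt_discEnt ha1 hy.1 hy.2).deriv]
    exact discSlope_mono ha1 hx hy hxy
  · rw [interior_Icc]
    intro y hy
    rw [(hasDerivAt_discEnt ha1 hy.1 hy.2).deriv]
    have hp : 0 < √(a ^ 2 - y ^ 2) := Real.sqrt_pos.2 (by nlinarith [hy.1, hy.2])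
    have hp1 : √(a ^ 2 - y ^ 2) < 1 := by
      rw [Real.sqrt_lt' one_pos]; nlinarith [hy.1, hy.2]
    exact mul_nonneg (slope_nonneg hp hp1) (div_nonneg hy.1.le (Real.sqrt_nonneg _))

theorem pureGen_convexOn {γ ν : ℝ} (hγ0 : 0 ≤ γ) (hγ1 : γ ≤ 1) (hν0 : 0 ≤ ν) (hν1 : ν ≤ 1) :
    ConvexOn ℝ (Set.Icc 0 1) (pureGen γ ν) := by
  set k := 4 * γ * (1 - γ) with hk
  have hk0 : 0 ≤ k := by rw [hk]; nlinarith
  have hb : 0 ≤ 1 - 4 * γ * (ν * (1 - ν)) := by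
    nlinarith [mul_nonneg (sub_nonneg.2 hγ1) (mul_nonneg hν0 (sub_nonneg.2 hν1)),
      sq_nonneg (2 * ν - 1)]
  set a := √(1 - 4 * γ * (ν * (1 - ν))) with ha
  have ha1 : a ≤ 1 :=
    Real.sqrt_le_one.2 (by nlinarith [mul_nonneg hγ0 (mul_nonneg hν0 (sub_nonneg.2 hν1))])
  set c := √k with hc
  have hc0 : 0 ≤ c := Real.sqrt_nonneg _
  have e : ∀ q, pureGen γ ν q = discEnt a |c * (q - ν)| := fun q => by
    rw [pureGen, discEnt, ha, sq_abs, mul_pow, Real.sq_sqrt hb, hc, Real.sq_sqrt hk0, hk, outPop]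
    congr 4
    ring
  have hin : ∀ q ∈ Set.Icc (0 : ℝ) 1, |c * (q - ν)| ∈ Set.Icc 0 a := by
    rintro q ⟨hq0, hq1⟩
    refine ⟨abs_nonneg _, Real.abs_le_sqrt ?_⟩
    rw [mul_pow, hc, Real.sq_sqrt hk0, hk]
    have t0 : 4 * (γ * ν) * (1 - γ * ν) ≤ 1 := by nlinarith [sq_nonneg (2 * (γ * ν) - 1)]
    have t1 : 4 * (γ * (1 - ν)) * (1 - γ * (1 - ν)) ≤ 1 := by
      nlinarith [sq_nonneg (2 * (γ * (1 - ν)) - 1)]
    nlinarith [mul_nonneg (mul_nonneg hk0 hq0) (sub_nonneg.2 hq1),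
      mul_le_mul_of_nonneg_left t0 (sub_nonneg.2 hq1), mul_le_mul_of_nonneg_left t1 hq0]
  obtain ⟨hconv, hmono⟩ := discEnt_convex_mono ha1
  refine ⟨convex_Icc 0 1, fun x hx y hy p r hp hr hpr => ?_⟩
  simp only [smul_eq_mul, e]
  have hz : p * x + r * y ∈ Set.Icc (0 : ℝ) 1 := convex_Icc 0 1 hx hy hp hr hpr
  have hm := hconv.1 (hin x hx) (hin y hy) hp hr hpr
  have hle : |c * (p * x + r * y - ν)| ≤ p * |c * (x - ν)| + r * |c * (y - ν)| := by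
    have : c * (p * x + r * y - ν) = p * (c * (x - ν)) + r * (c * (y - ν)) := by
      linear_combination c * ν * hpr
    rw [this]
    refine (abs_add_le _ _).trans (le_of_eq ?_)
    rw [abs_mul p, abs_mul r, abs_of_nonneg hp, abs_of_nonneg hr]
  exact (hmono (hin _ hz) hm hle).trans (hconv.2 (hin x hx) (hin y hy) hp hr hpr)

theorem genFormula_eq {γ ν : ℝ} (hγ0 : 0 ≤ γ) (hγ1 : γ ≤ 1) (hν0 : 0 ≤ ν) (hν1 : ν ≤ 1) :
    genFormula γ ν = gadFormula γ ν := by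
  set F := fun q : ℝ => (binEntropy (outPop γ ν q) - pureGen γ ν q) / Real.log 2 with hF
  have hcont : Continuous F := by
    simp only [hF, pureGen, outPop]; fun_prop
  obtain ⟨q₀, hq₀, hmax⟩ := isCompact_Icc.exists_isMaxOn (Set.nonempty_Icc.mpr zero_le_one)
    hcont.continuousOn
  have hM : gadFormula γ ν = F q₀ :=
    IsGreatest.csSup_eq ⟨⟨q₀, hq₀, rfl⟩, by rintro _ ⟨q, hq, rfl⟩; exact hmax hq⟩
  rw [hM, genFormula]
  refine IsGreatest.csSup_eq ⟨⟨1, fun _ => 1, fun _ => q₀, fun _ => zero_le_one, by simp,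
    fun _ => hq₀, by simp [hF]⟩, ?_⟩
  rintro r ⟨m, w, q, hw, hw1, hq, rfl⟩
  have hmem : ∑ a, w a * q a ∈ Set.Icc (0 : ℝ) 1 := by
    have := (convex_Icc (0 : ℝ) 1).sum_mem (fun a _ => hw a) hw1 (fun a _ => hq a)
    simpa using this
  have hj : pureGen γ ν (∑ a, w a * q a) ≤ ∑ a, w a * pureGen γ ν (q a) := by
    have := (pureGen_convexOn hγ0 hγ1 hν0 hν1).map_sum_le (fun a _ => hw a) hw1 (fun a _ => hq a)
    simpa using this
  refine le_trans ?_ (hmax hmem)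
  simp only [hF]
  exact div_le_div_of_nonneg_right (by linarith) (Real.log_pos one_lt_two).le

end Vale.Agent.P358.Gen
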