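import Vale.Agent.P358.Gen.Twirl
import Vale.Agent.P358.Gen.Omega

/-!
# P358: the twirl, the four-block inequality and the one-step bound
-/

namespace Vale.Agent.P358.Gen

open Matrix Real
open scoped ComplexOrder Kronecker

section signedPerm

variable {ι : Type} [Fintype ι] [DecidableEq ι]

/-- Conjugation by a signed permutation matrix. -/
noncomputable def sigPerm (e : ι ≃ ι) (s : ι → ℝ) (M : Matrix ι ι ℂ) : Matrix ι ι ℂ :=
  diagonal (fun p => (s p : ℂ)) * M.submatrix e e * diagonal (fun p => (s p : ℂ))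

theorem sigPerm_apply (e : ι ≃ ι) (s : ι → ℝ) (M : Matrix ι ι ℂ) (p q : ι) :
    sigPerm e s M p q = (s p : ℂ) * M (e p) (e q) * (s q : ℂ) := by
  simp [sigPerm]

theorem sigPerm_add (e : ι ≃ ι) (s : ι → ℝ) (M N : Matrix ι ι ℂ) :
    sigPerm e s (M + N) = sigPerm e s M + sigPerm e s N := by
  ext p q; simp [sigPerm_apply]; ring

theorem sigPerm_smul_one (e : ι ≃ ι) (s : ι → ℝ) (hs : ∀ p, s p * s p = 1) (ε : ℂ) :
    sigPerm e s (ε • 1) = ε • 1 := by
  ext p q
  rw [sigPerm_apply]
  by_cases h : p = q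
  · subst h
    have : (s p : ℂ) * (s p : ℂ) = 1 := by exact_mod_cast hs p
    simp only [Matrix.smul_apply, one_apply_eq, smul_eq_mul, mul_one]
    linear_combination ε * this
  · simp [one_apply_ne h, one_apply_ne (e.injective.ne h)]

theorem sigPerm_posSemidef (e : ι ≃ ι) (s : ι → ℝ) {M : Matrix ι ι ℂ} (hM : M.PosSemidef) :
    (sigPerm e s M).PosSemidef := by
  have h := (hM.submatrix e).conjTranspose_mul_mul_same (diagonal fun p => (s p : ℂ))
  rwa [diagonal_conjTranspose,
    show star (fun p => (s p : ℂ)) = fun p => (s p : ℂ) by funext p; simp] at h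

theorem vN_sigPerm (e : ι ≃ ι) (s : ι → ℝ) (hs : ∀ p, s p * s p = 1) (M : Matrix ι ι ℂ) :
    vN (sigPerm e s M) = vN M := by
  set U : Matrix ι ι ℂ := diagonal fun p => (s p : ℂ) with hU
  have hUc : Uᴴ = U := by
    rw [hU, diagonal_conjTranspose]; congr 1; funext p; simp
  have hUm : U ∈ Matrix.unitaryGroup ι ℂ := by
    rw [Matrix.mem_unitaryGroup_iff, star_eq_conjTranspose, hUc, hU, diagonal_mul_diagonal,
      ← diagonal_one]
    congr 1
    funext p
    exact_mod_cast hs p
  rw [sigPerm, ← hU]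
  conv_lhs => arg 1; arg 2; rw [← hUc]
  rw [vN_unitary_conj hUm, vN_submatrix]

variable (g : ι → Fin 2) (c : Fin 2 → ℝ)

theorem pinch_sigPerm (e : ι ≃ ι) (he : ∀ p, g (e p) = g p) (s : ι → ℝ) (M : Matrix ι ι ℂ) :
    pinch g (sigPerm e s M) = sigPerm e s (pinch g M) := by
  ext p q
  simp only [pinch, of_apply, sigPerm_apply, he]
  split_ifs <;> simp

theorem trace_gdiag_mul (M : Matrix ι ι ℂ) :
    (gdiag g c * M).trace.re = ∑ p, c (g p) * (M p p).re := by
  simp [gdiag, trace, diag]

theorem omegaFun_sigPerm (e : ι ≃ ι) (he : ∀ p, g (e p) = g p) (s : ι → ℝ)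
    (hs : ∀ p, s p * s p = 1) (τ R : Matrix ι ι ℂ) :
    omegaFun g c (sigPerm e s τ) (sigPerm e s R) = omegaFun g c τ R := by
  unfold omegaFun
  rw [pinch_sigPerm g e he, ← sigPerm_add, vN_sigPerm e s hs, vN_sigPerm e s hs,
    vN_sigPerm e s hs, trace_gdiag_mul, trace_gdiag_mul]
  congr 1
  conv_rhs => rw [← e.sum_comp (fun p => c (g p) * (R p p).re)]
  refine Finset.sum_congr rfl fun p _ => ?_
  rw [sigPerm_apply, he, show (s p : ℂ) * R (e p) (e p) * (s p : ℂ) =
    ((s p * s p : ℝ) : ℂ) * R (e p) (e p) by push_cast; ring, hs p]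
  simp

theorem omega_set_nonempty (τ : Matrix ι ι ℂ) :
    {v : ℝ | ∃ R : Matrix ι ι ℂ, R.PosSemidef ∧ pinch g R = R ∧ v = omegaFun g c τ R}.Nonempty :=
  ⟨_, 0, PosSemidef.zero, by ext p q; simp [pinch], rfl⟩

theorem omegaC_sigPerm_le (hc : ∀ b, 0 < c b) (e : ι ≃ ι) (he : ∀ p, g (e p) = g p) (s : ι → ℝ)
    (hs : ∀ p, s p * s p = 1) {τ : Matrix ι ι ℂ} (hτ : τ.PosSemidef) :
    omegaC g c (sigPerm e s τ) ≤ omegaC g c τ := by
  refine csSup_le (omega_set_nonempty g c _) ?_
  rintro v ⟨R, hR, hRb, rfl⟩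
  have he' : ∀ p, g (e.symm p) = g p := fun p => by
    conv_rhs => rw [← e.apply_symm_apply p, he]
  set R' := sigPerm e.symm (fun p => s (e.symm p)) R with hR'
  have hback : sigPerm e s R' = R := by
    ext p q
    rw [sigPerm_apply, hR', sigPerm_apply]
    simp only [Equiv.symm_apply_apply]
    calc (s p : ℂ) * ((s p : ℂ) * R p q * (s q : ℂ)) * (s q : ℂ)
        = ((s p * s p : ℝ) : ℂ) * R p q * ((s q * s q : ℝ) : ℂ) := by push_cast; ring
      _ = R p q := by rw [hs, hs]; simp
  refine le_csSup (omegaC_bddAbove g c hc hτ) ⟨R', sigPerm_posSemidef _ _ hR, ?_, ?_⟩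
  · rw [hR', pinch_sigPerm g e.symm he', hRb]
  · rw [← omegaFun_sigPerm g c e he s hs τ R', hback]

end signedPerm

section twirl

variable {d m : Type} [Fintype d] [DecidableEq d] [Fintype m] [DecidableEq m]

/-- The grading of the two branches. -/
def branch : (d × m) ⊕ (d × m) → Fin 2 := Sum.elim (fun _ => 0) fun _ => 1

/-- The permutation of the column index in both branches. -/
def colPerm (pm : Equiv.Perm m) : ((d × m) ⊕ (d × m)) ≃ ((d × m) ⊕ (d × m)) :=
  Equiv.sumCongr (Equiv.prodCongr (Equiv.refl d) pm) (Equiv.prodCongr (Equiv.refl d) pm)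

/-- The column index. -/
def colOf : (d × m) ⊕ (d × m) → m := Sum.elim Prod.snd Prod.snd

/-- The row index. -/
def rowOf : (d × m) ⊕ (d × m) → d ⊕ d := Sum.elim (fun p => Sum.inl p.1) fun p => Sum.inr p.1

theorem branch_colPerm (pm : Equiv.Perm m) (p : (d × m) ⊕ (d × m)) :
    branch (colPerm pm p) = branch p := by
  rcases p with p | p <;> rfl

/-- The sign attached to a choice of signs of the columns. -/
noncomputable def colSign (s : m → Bool) (p : (d × m) ⊕ (d × m)) : ℝ :=
  if s (colOf p) then 1 else -1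

/-- `X ⊗ 1/|m|`, indexed by branches. -/
noncomputable def spread (X : Matrix (d ⊕ d) (d ⊕ d) ℂ) :
    Matrix ((d × m) ⊕ (d × m)) ((d × m) ⊕ (d × m)) ℂ :=
  Matrix.of fun p q =>
    if colOf p = colOf q then ((Fintype.card m : ℝ)⁻¹ : ℂ) * X (rowOf p) (rowOf q) else 0

theorem sum_signs (j l : m) :
    ∑ s : m → Bool, ((if s j then (1 : ℝ) else -1) * (if s l then (1 : ℝ) else -1)) =
      if j = l then (Fintype.card (m → Bool) : ℝ) else 0 := by
  by_cases h : j = l
  · subst h
    rw [if_pos rfl]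
    have : ∀ s : m → Bool, ((if s j then (1 : ℝ) else -1) * (if s j then (1 : ℝ) else -1)) = 1 := by
      intro s; split_ifs <;> norm_num
    simp [this]
  · rw [if_neg h]
    let F : Equiv.Perm (m → Bool) := Function.Involutive.toPerm
      (fun s => Function.update s j (!s j)) (by
        intro s
        funext k
        by_cases hk : k = j
        · subst hk; simp
        · simp [hk])
    have hF := Equiv.sum_comp F
      (fun s : m → Bool => ((if s j then (1 : ℝ) else -1) * (if s l then (1 : ℝ) else -1)))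
    have e1 : ∀ s : m → Bool, F s j = !(s j) := fun s => Function.update_self _ _ _
    have e2 : ∀ s : m → Bool, F s l = s l := fun s => Function.update_of_ne (Ne.symm h) _ _
    have hneg : ∀ s : m → Bool,
        ((if F s j then (1 : ℝ) else -1) * (if F s l then (1 : ℝ) else -1)) =
        -((if s j then (1 : ℝ) else -1) * (if s l then (1 : ℝ) else -1)) := by
      intro s
      rw [e1, e2]
      cases s j <;> cases s l <;> simp
    simp only [hneg, Finset.sum_neg_distrib] at hF
    linarith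

theorem sum_perm_apply (f : m → ℂ) (j : m) :
    (Fintype.card m : ℂ) * ∑ pm : Equiv.Perm m, f (pm j) =
      (Fintype.card (Equiv.Perm m) : ℂ) * ∑ l, f l := by
  have hj : ∀ k, ∑ pm : Equiv.Perm m, f (pm k) = ∑ pm : Equiv.Perm m, f (pm j) := by
    intro k
    rw [← Equiv.sum_comp (Equiv.mulRight (Equiv.swap j k))
      (fun pm : Equiv.Perm m => f (pm k))]
    refine Finset.sum_congr rfl fun pm _ => ?_
    simp [Equiv.Perm.mul_apply]
  have h2 : ∑ k, ∑ pm : Equiv.Perm m, f (pm k) = (Fintype.card m : ℂ) *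
      ∑ pm : Equiv.Perm m, f (pm j) := by
    rw [Finset.sum_congr rfl fun k _ => hj k]
    simp
  rw [← h2, Finset.sum_comm, Finset.sum_congr rfl fun pm _ => Equiv.sum_comp pm f]
  simp

/-- The vector with components `P` and `Q`. -/
def branchVec (P Q : Matrix d m ℂ) : (d × m) ⊕ (d × m) → ℂ :=
  Sum.elim (fun p => P p.1 p.2) fun p => Q p.1 p.2

theorem twirl_average [Nonempty m] (P Q : Matrix d m ℂ) :
    ∑ x : (m → Bool) × Equiv.Perm m,
      (Fintype.card ((m → Bool) × Equiv.Perm m) : ℝ)⁻¹ •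
        sigPerm (colPerm x.2) (colSign x.1)
          (vecMulVec (branchVec P Q) (star (branchVec P Q))) =
      spread (fromBlocks (P * Pᴴ) (P * Qᴴ) (Q * Pᴴ) (Q * Qᴴ)) := by
  ext p q
  have hn : (Fintype.card m : ℂ) ≠ 0 := by exact_mod_cast Fintype.card_ne_zero
  have hg : (Fintype.card (m → Bool) : ℂ) ≠ 0 := by exact_mod_cast Fintype.card_ne_zero
  have hp : (Fintype.card (Equiv.Perm m) : ℂ) ≠ 0 := by exact_mod_cast Fintype.card_ne_zero
  simp only [Matrix.sum_apply, Matrix.smul_apply, sigPerm_apply, Complex.real_smul,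
    vecMulVec_apply, Pi.star_apply, spread, of_apply, Fintype.sum_prod_type, Fintype.card_prod]
  rw [Finset.sum_comm]
  set K : ℂ := ((((Fintype.card (m → Bool) * Fintype.card (Equiv.Perm m) : ℕ) : ℝ)⁻¹ : ℝ) : ℂ) with hK
  have e : ∀ pm : Equiv.Perm m, ∑ s : m → Bool, K * ((colSign s p : ℂ) *
      (branchVec P Q (colPerm pm p) * star (branchVec P Q (colPerm pm q))) * (colSign s q : ℂ)) =
      K * (branchVec P Q (colPerm pm p) * star (branchVec P Q (colPerm pm q))) *
        ((if colOf p = colOf q then (Fintype.card (m → Bool) : ℝ) else 0 : ℝ) : ℂ) := by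
    intro pm
    rw [← sum_signs, Complex.ofReal_sum, Finset.mul_sum]
    refine Finset.sum_congr rfl fun s _ => ?_
    simp only [colSign, Complex.ofReal_mul]
    ring
  rw [Finset.sum_congr rfl fun pm _ => e pm]
  by_cases h : colOf p = colOf q
  swap
  · simp [h]
  · simp only [if_pos h, Complex.ofReal_natCast, ← Finset.sum_mul, ← Finset.mul_sum]
    have key : (Fintype.card m : ℂ) * ∑ pm : Equiv.Perm m,
        branchVec P Q (colPerm pm p) * star (branchVec P Q (colPerm pm q)) =
        (Fintype.card (Equiv.Perm m) : ℂ) *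
          fromBlocks (P * Pᴴ) (P * Qᴴ) (Q * Pᴴ) (Q * Qᴴ) (rowOf p) (rowOf q) := by
      rcases p with ⟨i, j⟩ | ⟨i, j⟩ <;> rcases q with ⟨k, l⟩ | ⟨k, l⟩ <;>
        obtain rfl : j = l := h <;>
        simp only [branchVec, colPerm, rowOf, Equiv.sumCongr_apply, Sum.map_inl, Sum.map_inr,
          Sum.elim_inl, Sum.elim_inr, Equiv.prodCongr_apply, Prod.map_apply, Equiv.refl_apply,
          fromBlocks_apply₁₁, fromBlocks_apply₁₂, fromBlocks_apply₂₁, fromBlocks_apply₂₂,
          mul_apply, conjTranspose_apply]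
      · exact sum_perm_apply (fun l => P i l * star (P k l)) j
      · exact sum_perm_apply (fun l => P i l * star (Q k l)) j
      · exact sum_perm_apply (fun l => Q i l * star (P k l)) j
      · exact sum_perm_apply (fun l => Q i l * star (Q k l)) j
    rw [hK]
    push_cast
    field_simp
    linear_combination key

theorem spread_add (X Y : Matrix (d ⊕ d) (d ⊕ d) ℂ) :
    (spread (X + Y) : Matrix ((d × m) ⊕ (d × m)) ((d × m) ⊕ (d × m)) ℂ) = spread X + spread Y := by
  ext p q
  simp only [spread, of_apply, Matrix.add_apply]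
  split_ifs <;> ring

theorem spread_eq_kron (X : Matrix (d ⊕ d) (d ⊕ d) ℂ) :
    (spread X : Matrix ((d × m) ⊕ (d × m)) ((d × m) ⊕ (d × m)) ℂ) =
      (X ⊗ₖ diagonal (fun _ : m => (((Fintype.card m : ℝ)⁻¹ : ℝ) : ℂ))).submatrix
        (Equiv.sumProdDistrib d d m).symm (Equiv.sumProdDistrib d d m).symm := by
  ext p q
  rcases p with ⟨i, j⟩ | ⟨i, j⟩ <;> rcases q with ⟨k, l⟩ | ⟨k, l⟩ <;>
    simp only [spread, colOf, rowOf, submatrix_apply, kroneckerMap_apply, diagonal_apply,
      Sum.elim_inl, Sum.elim_inr, of_apply, Equiv.sumProdDistrib_symm_apply_left,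
      Equiv.sumProdDistrib_symm_apply_right, mul_ite, mul_zero] <;>
    by_cases hjl : j = l <;> simp [hjl, mul_comm]

theorem spread_posSemidef {X : Matrix (d ⊕ d) (d ⊕ d) ℂ} (hX : X.PosSemidef) :
    (spread X : Matrix ((d × m) ⊕ (d × m)) ((d × m) ⊕ (d × m)) ℂ).PosSemidef := by
  rw [spread_eq_kron]
  refine (hX.kronecker ?_).submatrix _
  rw [posSemidef_diagonal_iff]
  intro _
  exact Complex.zero_le_real.2 (by positivity)

theorem vN_spread [Nonempty m] {X : Matrix (d ⊕ d) (d ⊕ d) ℂ} (hX : X.PosSemidef) :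
    vN (spread X : Matrix ((d × m) ⊕ (d × m)) ((d × m) ⊕ (d × m)) ℂ) =
      vN X + (Fintype.card m : ℝ) * negMulLog (Fintype.card m : ℝ)⁻¹ * X.trace.re := by
  rw [spread_eq_kron, vN_submatrix]
  set U : Matrix (d ⊕ d) (d ⊕ d) ℂ := (hX.1.eigenvectorUnitary : Matrix (d ⊕ d) (d ⊕ d) ℂ)
  set k : ℝ := (Fintype.card m : ℝ)⁻¹ with hk
  have e : X ⊗ₖ diagonal (fun _ : m => (k : ℂ)) = (U ⊗ₖ (1 : Matrix m m ℂ)) *
      diagonal (fun p : (d ⊕ d) × m => ((hX.1.eigenvalues p.1 * k : ℝ) : ℂ)) *
        (U ⊗ₖ (1 : Matrix m m ℂ))ᴴ := by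
    have hd : diagonal (fun p : (d ⊕ d) × m => ((hX.1.eigenvalues p.1 * k : ℝ) : ℂ)) =
        diagonal (fun i => (hX.1.eigenvalues i : ℂ)) ⊗ₖ diagonal (fun _ : m => (k : ℂ)) := by
      rw [diagonal_kronecker_diagonal]
      simp
    rw [hd, conjTranspose_kronecker, conjTranspose_one, ← mul_kronecker_mul, ← mul_kronecker_mul,
      Matrix.one_mul, Matrix.mul_one, ← eq_eigU_diag hX.1]
  have hW : (U ⊗ₖ (1 : Matrix m m ℂ))ᴴ * (U ⊗ₖ (1 : Matrix m m ℂ)) = 1 := by
    rw [conjTranspose_kronecker, conjTranspose_one, ← mul_kronecker_mul, eigU_conj_mul hX.1,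
      Matrix.one_mul, one_kronecker_one]
  rw [e, vN_isometry_conj _ hW, vN_diagonal, Fintype.sum_prod_type]
  simp only [negMulLog_mul, Finset.sum_add_distrib, Finset.sum_const, Finset.card_univ,
    nsmul_eq_mul]
  rw [vN, dif_pos hX.1, ← sum_eigenvalues_eq_trace hX.1, Finset.mul_sum, ← Finset.sum_add_distrib,
    ← Finset.sum_add_distrib]
  refine Finset.sum_congr rfl fun i _ => ?_
  have hne : (Fintype.card m : ℝ) ≠ 0 := by exact_mod_cast Fintype.card_ne_zero
  rw [hk]
  field_simp

theorem pinch_spread (A B C D : Matrix d d ℂ) :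
    pinch branch (spread (fromBlocks A B C D) :
      Matrix ((d × m) ⊕ (d × m)) ((d × m) ⊕ (d × m)) ℂ) = spread (fromBlocks A 0 0 D) := by
  ext p q
  rcases p with ⟨i, j⟩ | ⟨i, j⟩ <;> rcases q with ⟨k, l⟩ | ⟨k, l⟩ <;>
    simp [pinch, branch, spread, rowOf, colOf]

theorem trace_gdiag_spread [Nonempty m] (c : Fin 2 → ℝ) (A B : Matrix d d ℂ) :
    (gdiag branch c * (spread (fromBlocks A 0 0 B) :
      Matrix ((d × m) ⊕ (d × m)) ((d × m) ⊕ (d × m)) ℂ)).trace.re =
      c 0 * A.trace.re + c 1 * B.trace.re := by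
  have hne : (Fintype.card m : ℝ) ≠ 0 := by exact_mod_cast Fintype.card_ne_zero
  rw [trace_gdiag_mul]
  simp only [Fintype.sum_sum_type, Fintype.sum_prod_type, spread, branch, rowOf, colOf, of_apply,
    Sum.elim_inl, Sum.elim_inr, if_true, fromBlocks_apply₁₁, fromBlocks_apply₂₂, trace, diag,
    Complex.re_sum, Finset.mul_sum, Complex.re_ofReal_mul, Finset.sum_const, Finset.card_univ,
    nsmul_eq_mul, ← Complex.ofReal_inv]
  congr 1 <;>
  · refine Finset.sum_congr rfl fun i _ => ?_
    field_simp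

theorem vN_vecMulVec {α : Type} [Fintype α] [DecidableEq α] (v : α → ℂ) :
    vN (vecMulVec v (star v)) = negMulLog (∑ x, Complex.normSq (v x)) := by
  have e : vecMulVec v (star v) = replicateCol Unit v * (replicateCol Unit v)ᴴ := by
    rw [conjTranspose_replicateCol, ← vecMulVec_eq]
  rw [e, ← vN_mul_conjTranspose_comm, vN_unique (isHermitian_conjTranspose_mul_self _)]
  congr 1
  simp [mul_apply, Complex.normSq_apply]

end twirl

theorem trace_blocks {d : Type} [Fintype d] (A B C D : Matrix d d ℂ) :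
    (fromBlocks A B C D).trace = A.trace + D.trace := by
  simp [trace, Fintype.sum_sum_type]

theorem sum_normSq_eq_trace {d m : Type} [Fintype d] [Fintype m] (P : Matrix d m ℂ) :
    ∑ p : d × m, Complex.normSq (P p.1 p.2) = (P * Pᴴ).trace.re := by
  simp [Fintype.sum_prod_type, trace, diag, mul_apply, Complex.normSq_apply]

/-- The upper bound on `omegaC` at the rank-one point. -/
theorem omegaC_branchVec_le {d m : Type} [Fintype d] [DecidableEq d] [Fintype m] [DecidableEq m]
    (P Q : Matrix d m ℂ) {a b c₀ c₁ : ℝ} (c : Fin 2 → ℝ) (h₀ : c₀ ≤ c 0) (h₁ : c₁ ≤ c 1)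
    (htan : ∀ r₀ r₁ : ℝ, 0 ≤ r₀ → 0 ≤ r₁ →
      quadFn (P * Pᴴ).trace.re (Q * Qᴴ).trace.re r₀ r₁ ≤
        quadFn (P * Pᴴ).trace.re (Q * Qᴴ).trace.re a b + c₀ * (r₀ - a) + c₁ * (r₁ - b)) :
    omegaC branch c (vecMulVec (branchVec P Q) (star (branchVec P Q))) ≤
      quadFn (P * Pᴴ).trace.re (Q * Qᴴ).trace.re a b - c₀ * a - c₁ * b := by
  refine csSup_le (omega_set_nonempty _ _ _) ?_
  rintro v ⟨R, hR, hRb, rfl⟩
  set ψ₀ : d × m → ℂ := fun p => P p.1 p.2 with hψ₀
  set ψ₁ : d × m → ℂ := fun p => Q p.1 p.2 with hψ₁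
  set R₀ := R.submatrix Sum.inl Sum.inl with hR₀
  set R₁ := R.submatrix Sum.inr Sum.inr with hR₁
  have hRe : R = fromBlocks R₀ 0 0 R₁ := by
    ext p q
    have h := congrFun (congrFun hRb p) q
    rcases p with p | p <;> rcases q with q | q <;> simp [pinch, branch] at h ⊢
    · rfl
    · exact h.symm
    · exact h.symm
    · rfl
  have hg := vN_rankOne_gain R₀ R₁ (hR.submatrix _) (hR.submatrix _) ψ₀ ψ₁
  have hψ : branchVec P Q = Sum.elim ψ₀ ψ₁ := rfl
  have hpinch : pinch branch (vecMulVec (branchVec P Q) (star (branchVec P Q))) =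
      fromBlocks (vecMulVec ψ₀ (star ψ₀)) 0 0 (vecMulVec ψ₁ (star ψ₁)) := by
    ext p q
    rcases p with p | p <;> rcases q with q | q <;>
      simp [pinch, branch, branchVec, vecMulVec, hψ₀, hψ₁]
  have h1 := htan R₀.trace.re R₁.trace.re (re_trace_nonneg (hR.submatrix _))
    (re_trace_nonneg (hR.submatrix _))
  have htr : (gdiag branch c * R).trace.re = c 0 * R₀.trace.re + c 1 * R₁.trace.re := by
    rw [trace_gdiag_mul]
    simp only [Fintype.sum_sum_type, branch, Sum.elim_inl, Sum.elim_inr, ← Finset.mul_sum]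
    simp [hR₀, hR₁, trace]
  have h2 := mul_le_mul_of_nonneg_right h₀ (re_trace_nonneg (hR.submatrix Sum.inl))
  have h3 := mul_le_mul_of_nonneg_right h₁ (re_trace_nonneg (hR.submatrix Sum.inr))
  unfold omegaFun
  rw [htr, hpinch, vN_fromBlocks (posSemidef_vecMulVec_self_star ψ₀).1
    (posSemidef_vecMulVec_self_star ψ₁).1, vN_vecMulVec, vN_vecMulVec, hψ]
  rw [hRe]
  simp only [hψ₀, hψ₁, sum_normSq_eq_trace] at hg ⊢
  simp only [← hR₀, ← hR₁] at h2 h3
  unfold quadFn at h1 ⊢
  have : (fromBlocks R₀ 0 0 R₁).submatrix Sum.inl Sum.inl = R₀ := rfl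
  linarith

/-- The four-block inequality. -/
theorem four_block {d m : Type} [Fintype d] [DecidableEq d] [Fintype m] [DecidableEq m]
    (P Q : Matrix d m ℂ) {A B : Matrix d d ℂ} (hA : A.PosSemidef) (hB : B.PosSemidef) :
    vN (P * Pᴴ) + vN (Q * Qᴴ) + vN A + vN B -
        vN (fromBlocks (P * Pᴴ + A) (P * Qᴴ) (Q * Pᴴ) (Q * Qᴴ + B)) ≤
      quadFn (P * Pᴴ).trace.re (Q * Qᴴ).trace.re A.trace.re B.trace.re := by
  have ha := re_trace_nonneg hA
  have hb := re_trace_nonneg hB
  cases isEmpty_or_nonempty m with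
  | inl hm =>
    have hP : P = 0 := by ext i j; exact hm.elim j
    have hQ : Q = 0 := by ext i j; exact hm.elim j
    subst hP hQ
    simp only [Matrix.zero_mul, zero_add, vN_zero, trace_zero, Complex.zero_re,
      vN_fromBlocks hA.1 hB.1]
    generalize A.trace.re = a at ha ⊢
    generalize B.trace.re = b at hb ⊢
    unfold quadFn quadP quadM
    simp only [mul_zero, add_zero, negMulLog_zero, zero_add, Real.sqrt_sq_eq_abs]
    rcases le_total b a with h | h
    · rw [abs_of_nonneg (by linarith), show (a + b + (a - b)) / 2 = a by ring,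
        show (a + b - (a - b)) / 2 = b by ring]
      linarith
    · rw [abs_of_nonpos (by linarith), show (a + b + -(a - b)) / 2 = b by ring,
        show (a + b - -(a - b)) / 2 = a by ring]
      linarith
  | inr hm =>
    set u := (P * Pᴴ).trace.re with hu
    set w := (Q * Qᴴ).trace.re with hw
    set a := A.trace.re with hadef
    set b := B.trace.re with hbdef
    have hu0 : 0 ≤ u := re_trace_nonneg (posSemidef_self_mul_conjTranspose P)
    have hw0 : 0 ≤ w := re_trace_nonneg (posSemidef_self_mul_conjTranspose Q)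
    set ρ := fromBlocks (P * Pᴴ) (P * Qᴴ) (Q * Pᴴ) (Q * Qᴴ) with hρdef
    set ω := fromBlocks (P * Pᴴ + A) (P * Qᴴ) (Q * Pᴴ) (Q * Qᴴ + B) with hωdef
    have key : ∀ ε : ℝ, 0 < ε → vN (P * Pᴴ) + vN (Q * Qᴴ) + vN A + vN B - vN ω ≤
        quadFn u w (a + ε) (b + ε) + ε * (a + b) := by
      intro ε hε
      obtain ⟨c₀, c₁, hc₀, hc₁, htan⟩ := quadFn_tangent hu0 hw0 (by linarith : 0 < a + ε)
        (by linarith : 0 < b + ε)
      set c : Fin 2 → ℝ := ![c₀ + ε, c₁ + ε] with hc
      have hcpos : ∀ i, 0 < c i := by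
        intro i
        fin_cases i <;> simp [hc] <;> linarith
      have hup := omegaC_branchVec_le P Q c (by simp [hc]; linarith) (by simp [hc]; linarith) htan
      set σ := vecMulVec (branchVec P Q) (star (branchVec P Q)) with hσ
      have hσp : σ.PosSemidef := posSemidef_vecMulVec_self_star _
      set K : ℝ := (Fintype.card ((m → Bool) × Equiv.Perm m) : ℝ)⁻¹ with hK
      have hK1 : ∑ _x : (m → Bool) × Equiv.Perm m, K = 1 := by
        have : (Fintype.card ((m → Bool) × Equiv.Perm m) : ℝ) ≠ 0 := by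
          exact_mod_cast Fintype.card_ne_zero
        rw [Finset.sum_const, Finset.card_univ, nsmul_eq_mul, hK, mul_inv_cancel₀ this]
      have hK0 : 0 ≤ K := by positivity
      have hsq : ∀ s : m → Bool, ∀ p : (d × m) ⊕ (d × m), colSign s p * colSign s p = 1 := by
        intro s p
        unfold colSign
        split_ifs <;> norm_num
      have hjensen : ∀ δ : ℝ, 0 < δ →
          omegaC branch c (spread (m := m) ρ + (δ : ℂ) • 1) ≤ ∑ x : (m → Bool) × Equiv.Perm m,
            K * omegaC branch c (sigPerm (colPerm x.2) (colSign x.1) σ + (δ : ℂ) • 1) := by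
        intro δ hδ
        have h := (omegaC_convexOn (branch (d := d) (m := m)) c hcpos).map_sum_le
          (t := Finset.univ) (w := fun _ : (m → Bool) × Equiv.Perm m => K)
          (p := fun x => sigPerm (colPerm x.2) (colSign x.1) σ + (δ : ℂ) • 1)
          (fun _ _ => hK0) hK1
          (fun x _ => PosDef.posSemidef_add (sigPerm_posSemidef _ _ hσp)
            (PosDef.one.smul (by exact_mod_cast hδ)))
        simp only [smul_add, Finset.sum_add_distrib, ← Finset.sum_smul, hK1, one_smul,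
          smul_eq_mul] at h
        rwa [hK, hσ, twirl_average] at h
      have hspread : (spread ρ : Matrix ((d × m) ⊕ (d × m)) ((d × m) ⊕ (d × m)) ℂ).PosSemidef := by
        rw [← twirl_average]
        exact posSemidef_sum _ fun x _ => (sigPerm_posSemidef _ _ hσp).smul hK0
      have hlim : omegaC branch c (spread (m := m) ρ) ≤ ∑ x : (m → Bool) × Equiv.Perm m,
          K * omegaC branch c (sigPerm (colPerm x.2) (colSign x.1) σ) := by
        refine le_of_tendsto_of_tendsto (omegaC_tendsto _ c hcpos hspread)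
          (tendsto_finsetSum _ fun x _ =>
            (omegaC_tendsto _ c hcpos (sigPerm_posSemidef _ _ hσp)).const_mul K)
          (eventually_nhdsWithin_of_forall fun δ hδ => hjensen δ hδ)
      have hle : ∑ x : (m → Bool) × Equiv.Perm m,
          K * omegaC branch c (sigPerm (colPerm x.2) (colSign x.1) σ) ≤ omegaC branch c σ := by
        calc _ ≤ ∑ _x : (m → Bool) × Equiv.Perm m, K * omegaC branch c σ :=
              Finset.sum_le_sum fun x _ => mul_le_mul_of_nonneg_left
                (omegaC_sigPerm_le _ c hcpos _ (branch_colPerm x.2) _ (hsq x.1) hσp) hK0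
          _ = _ := by rw [← Finset.sum_mul, hK1, one_mul]
      have hAB : (fromBlocks A 0 0 B).PosSemidef := by
        refine PosSemidef.of_dotProduct_mulVec_nonneg
          (hA.1.fromBlocks (by simp) hB.1) fun z => ?_
        rw [fromBlocks_mulVec]
        simp only [zero_mulVec, add_zero, zero_add, dotProduct, Fintype.sum_sum_type, Sum.elim_inl,
          Sum.elim_inr]
        exact add_nonneg (hA.dotProduct_mulVec_nonneg (z ∘ Sum.inl))
          (hB.dotProduct_mulVec_nonneg (z ∘ Sum.inr))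
      have hρ : ρ.PosSemidef := by
        have e : ρ = fromRows P Q * (fromRows P Q)ᴴ := by
          rw [conjTranspose_fromRows_eq_fromCols_conjTranspose, fromRows_mul_fromCols]
        rw [e]
        exact posSemidef_self_mul_conjTranspose _
      have hω : ω.PosSemidef := by
        have : ω = ρ + fromBlocks A 0 0 B := by simp [hρdef, hωdef, fromBlocks_add]
        rw [this]
        exact hρ.add hAB
      have hUW : (fromBlocks (P * Pᴴ) 0 0 (Q * Qᴴ)).PosSemidef := by
        refine PosSemidef.of_dotProduct_mulVec_nonneg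
          ((posSemidef_self_mul_conjTranspose P).1.fromBlocks (by simp)
            (posSemidef_self_mul_conjTranspose Q).1) fun z => ?_
        rw [fromBlocks_mulVec]
        simp only [zero_mulVec, add_zero, zero_add, dotProduct, Fintype.sum_sum_type, Sum.elim_inl,
          Sum.elim_inr]
        exact add_nonneg
          ((posSemidef_self_mul_conjTranspose P).dotProduct_mulVec_nonneg (z ∘ Sum.inl))
          ((posSemidef_self_mul_conjTranspose Q).dotProduct_mulVec_nonneg (z ∘ Sum.inr))
      have hlow : omegaFun branch c (spread ρ : Matrix ((d × m) ⊕ (d × m)) ((d × m) ⊕ (d × m)) ℂ)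
          (spread (fromBlocks A 0 0 B)) ≤ omegaC branch c (spread (m := m) ρ) :=
        le_csSup (omegaC_bddAbove _ c hcpos hspread) ⟨spread (fromBlocks A 0 0 B),
          spread_posSemidef hAB, by rw [pinch_spread], rfl⟩
      have hval : omegaFun branch c (spread ρ : Matrix ((d × m) ⊕ (d × m)) ((d × m) ⊕ (d × m)) ℂ)
          (spread (fromBlocks A 0 0 B)) = vN (P * Pᴴ) + vN (Q * Qᴴ) + vN A + vN B - vN ω -
            (c₀ + ε) * a - (c₁ + ε) * b := by
        unfold omegaFun
        rw [← spread_add, hρdef, pinch_spread, trace_gdiag_spread, fromBlocks_add, add_zero,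
          add_zero, ← hωdef, vN_spread hUW, vN_spread hAB, vN_spread hω,
          vN_fromBlocks (posSemidef_self_mul_conjTranspose P).1
            (posSemidef_self_mul_conjTranspose Q).1, vN_fromBlocks hA.1 hB.1,
          trace_blocks, trace_blocks]
        have : ω.trace.re = u + w + a + b := by
          rw [hωdef, trace_blocks, trace_add, trace_add]
          simp only [Complex.add_re, ← hu, ← hw, ← hadef, ← hbdef]
          ring
        rw [this]
        simp only [Complex.add_re, ← hu, ← hw, ← hadef, ← hbdef, hc, Matrix.cons_val_zero,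
          Matrix.cons_val_one]
        ring
      have hc₀ε : 0 ≤ c₀ * ε := by positivity
      have hc₁ε : 0 ≤ c₁ * ε := by positivity
      linarith
    have hcont : Filter.Tendsto (fun ε : ℝ => quadFn u w (a + ε) (b + ε) + ε * (a + b))
        (nhdsWithin 0 (Set.Ioi 0)) (nhds (quadFn u w a b)) := by
      have h : Continuous fun ε : ℝ => quadFn u w (a + ε) (b + ε) + ε * (a + b) :=
        ((continuous_quadFn u w).comp
          ((continuous_const.add continuous_id).prodMk (continuous_const.add continuous_id))).add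
          (continuous_id.mul continuous_const)
      have h2 := (h.tendsto 0).mono_left (nhdsWithin_le_nhds (s := Set.Ioi (0 : ℝ)))
      simpa using h2
    exact ge_of_tendsto hcont (eventually_nhdsWithin_of_forall fun ε hε => key ε hε)

/-- Superadditivity of the normalised entropy. -/
theorem vN_normalised_superadd {d : Type} [Fintype d] [DecidableEq d] {X Y : Matrix d d ℂ} (hX : X.PosSemidef)
    (hY : Y.PosSemidef) :
    (vN X - negMulLog X.trace.re) + (vN Y - negMulLog Y.trace.re) ≤
      vN (X + Y) - negMulLog (X.trace.re + Y.trace.re) := by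
  have zero_case : ∀ {Z : Matrix d d ℂ}, Z.PosSemidef → Z.trace.re = 0 → Z = 0 := by
    intro Z hZ hz
    refine hZ.trace_eq_zero_iff.1 (Complex.ext ?_ ?_)
    · simpa using hz
    · simpa using ((Complex.le_def.1 hZ.trace_nonneg).2).symm
  by_cases hx : X.trace.re = 0
  · rw [zero_case hX hx]; simp [vN_zero]
  by_cases hy : Y.trace.re = 0
  · rw [zero_case hY hy]; simp [vN_zero]
  set x := X.trace.re with hxdef
  set y := Y.trace.re with hydef
  have hxp : 0 < x := lt_of_le_of_ne (re_trace_nonneg hX) (Ne.symm hx)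
  have hyp : 0 < y := lt_of_le_of_ne (re_trace_nonneg hY) (Ne.symm hy)
  set s := x + y with hs
  have hsp : 0 < s := by linarith
  have h := vN_concave (J := Fin 2) ![x / s, y / s]
    ![((s / x : ℝ) : ℂ) • X, ((s / y : ℝ) : ℂ) • Y]
    (by intro j; fin_cases j <;> simp <;> positivity)
    (by simp only [Fin.sum_univ_two, Matrix.cons_val_zero, Matrix.cons_val_one]
        rw [← add_div, ← hs, div_self hsp.ne'])
    (by
      intro j; fin_cases j
      · exact hX.smul (Complex.zero_le_real.2 (by positivity))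
      · exact hY.smul (Complex.zero_le_real.2 (by positivity)))
  simp only [Fin.sum_univ_two, Matrix.cons_val_zero, Matrix.cons_val_one, smul_smul,
    ← Complex.ofReal_mul] at h
  rw [show x / s * (s / x) = 1 by field_simp, show y / s * (s / y) = 1 by field_simp,
    Complex.ofReal_one, one_smul, one_smul, vN_smul hX (by positivity),
    vN_smul hY (by positivity), ← hxdef, ← hydef] at h
  have f : ∀ z, 0 < z → ∀ V : ℝ, z / s * (s / z * V + negMulLog (s / z) * z) =
      V - negMulLog z - z * Real.log s := by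
    intro z hz V
    rw [negMulLog, negMulLog, Real.log_div hsp.ne' hz.ne']
    field_simp
    ring
  rw [f x hxp, f y hyp] at h
  have : negMulLog s = -(x * Real.log s) - y * Real.log s := by rw [negMulLog, hs]; ring
  linarith

/-- The one-step bound. -/
theorem genStep {γ ν : ℝ} (hγ0 : 0 ≤ γ) (hγ1 : γ ≤ 1) (hν0 : 0 ≤ ν) (hν1 : ν ≤ 1) :
    GenStep γ ν := by
  intro d m _ _ _ _ P Q
  set g : ℝ := γ * ν with hg
  have hg0 : 0 ≤ g := mul_nonneg hγ0 hν0
  have hgg : g ≤ γ := mul_le_of_le_one_right hγ0 hν1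
  set b' : ℝ := 1 - γ * (1 - ν) with hb'
  set bb : ℝ := γ * (1 - ν) with hbb
  have hbb0 : 0 ≤ bb := mul_nonneg hγ0 (sub_nonneg.2 hν1)
  have hb'0 : 0 ≤ b' := by
    have : bb ≤ γ := mul_le_of_le_one_right hγ0 (by linarith)
    linarith
  set a1 : ℝ := (1 - γ) / b' with ha1
  have hb'g : b' = 1 - γ + g := by rw [hb', hg]; ring
  have hprod : a1 * b' = 1 - γ := by
    rcases eq_or_ne b' 0 with h | h
    · rw [h, mul_zero]; linarith
    · exact div_mul_cancel₀ _ h
  have ha10 : 0 ≤ a1 := div_nonneg (by linarith) hb'0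
  have ha2 : 0 ≤ 1 - g - a1 := by
    rcases eq_or_lt_of_le hb'0 with h | h
    · rw [ha1, ← h, div_zero]; linarith
    · have : a1 ≤ 1 - g := by
        rw [ha1, div_le_iff₀ h]
        have e : (1 - g) * b' = 1 - γ + g * bb := by
          rw [hb', hbb, hg]; ring
        have := mul_nonneg hg0 hbb0
        linarith
      linarith
  set P' : Matrix d m ℂ := ((√a1 : ℝ) : ℂ) • P with hP'
  set Q' : Matrix d m ℂ := ((√b' : ℝ) : ℂ) • Q with hQ'
  set U := P * Pᴴ with hU
  set W := Q * Qᴴ with hW
  have hUp : U.PosSemidef := posSemidef_self_mul_conjTranspose P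
  have hWp : W.PosSemidef := posSemidef_self_mul_conjTranspose Q
  have hsa : (√a1 : ℝ) * √a1 = a1 := Real.mul_self_sqrt ha10
  have hsb : (√b' : ℝ) * √b' = b' := Real.mul_self_sqrt hb'0
  have hsab : (√a1 : ℝ) * √b' = √(1 - γ) := by rw [← Real.sqrt_mul ha10, hprod]
  have hsba : (√b' : ℝ) * √a1 = √(1 - γ) := by rw [mul_comm]; exact hsab
  set A := ((1 - g - a1 : ℝ) : ℂ) • U + ((bb : ℝ) : ℂ) • W with hA
  set B := ((g : ℝ) : ℂ) • U with hB
  have hAp1 : (((1 - g - a1 : ℝ) : ℂ) • U).PosSemidef :=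
    hUp.smul (Complex.zero_le_real.2 ha2)
  have hAp2 : (((bb : ℝ) : ℂ) • W).PosSemidef := hWp.smul (Complex.zero_le_real.2 hbb0)
  have hBp : B.PosSemidef := hUp.smul (Complex.zero_le_real.2 hg0)
  have eU : P' * P'ᴴ = ((a1 : ℝ) : ℂ) • U := by
    rw [hP', conjTranspose_smul, Complex.star_def, Complex.conj_ofReal, Matrix.smul_mul,
      Matrix.mul_smul, smul_smul, ← Complex.ofReal_mul, hsa]
  have eW : Q' * Q'ᴴ = ((b' : ℝ) : ℂ) • W := by
    rw [hQ', conjTranspose_smul, Complex.star_def, Complex.conj_ofReal, Matrix.smul_mul,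
      Matrix.mul_smul, smul_smul, ← Complex.ofReal_mul, hsb]
  have eout : fromBlocks (P' * P'ᴴ + A) (P' * Q'ᴴ) (Q' * P'ᴴ) (Q' * Q'ᴴ + B) =
      stepOut γ ν P Q := by
    unfold stepOut
    rw [eU, eW]
    congr 1
    · rw [hA, ← hU, ← hW, ← hbb, ← hg, ← add_assoc, ← add_smul, ← Complex.ofReal_add]
      congr 3
      ring
    · rw [hP', hQ', conjTranspose_smul, Complex.star_def, Complex.conj_ofReal, Matrix.smul_mul,
        Matrix.mul_smul, smul_smul, ← Complex.ofReal_mul, hsab]
    · rw [hP', hQ', conjTranspose_smul, Complex.star_def, Complex.conj_ofReal, Matrix.smul_mul,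
        Matrix.mul_smul, smul_smul, ← Complex.ofReal_mul, hsba]
    · rw [hB, ← hU, ← hW, ← hg, add_comm]
  have h4 := four_block P' Q' (hAp1.add hAp2) hBp
  rw [eout, eU, eW] at h4
  have hsup := vN_normalised_superadd hAp1 hAp2
  set p := U.trace.re with hp
  set q := W.trace.re with hq
  have hp0 : 0 ≤ p := re_trace_nonneg hUp
  have hq0 : 0 ≤ q := re_trace_nonneg hWp
  simp only [trace_add, trace_smul, smul_eq_mul, Complex.add_re, Complex.re_ofReal_mul,
    ← hp, ← hq, hA, hB, vN_smul hUp ha10, vN_smul hUp ha2, vN_smul hUp hg0, vN_smul hWp hb'0,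
    vN_smul hWp hbb0] at h4 hsup
  set T := p + q with hT
  set t := outPop γ ν (q / T) with ht
  have hquad : negMulLog (quadP (a1 * p) (b' * q) ((1 - g - a1) * p + bb * q) (g * p)) +
      negMulLog (quadM (a1 * p) (b' * q) ((1 - g - a1) * p + bb * q) (g * p)) =
      T * pureGen γ ν (q / T) + negMulLog T := by
    rcases eq_or_ne T 0 with h0 | h0
    · have h1 : p = 0 := by linarith
      have h2 : q = 0 := by linarith
      simp [h1, h2, h0, quadP, quadM]
    set x := q / T with hx
    set D := 1 - 4 * (t * (1 - t) - (1 - γ) * (x * (1 - x))) with hD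
    have eq' : q = T * x := (mul_div_cancel₀ q h0).symm
    have ep : p = T * (1 - x) := by rw [mul_sub, ← eq', hT]; ring
    have hTn : 0 ≤ T := by linarith
    have eD : ((1 - g - a1) * p + bb * q + a1 * p - (g * p + b' * q)) ^ 2 +
        4 * (a1 * p * (b' * q)) = T ^ 2 * D := by
      have e1 : a1 * p * (b' * q) = (1 - γ) * p * q := by rw [← hprod]; ring
      rw [e1, hD, ht, outPop, ep, eq', hb', hbb, hg]
      ring
    have esum : (1 - g - a1) * p + bb * q + a1 * p + (g * p + b' * q) = T := by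
      rw [hb', hbb, hT]; ring
    have eP : quadP (a1 * p) (b' * q) ((1 - g - a1) * p + bb * q) (g * p) =
        T * ((1 + √D) / 2) := by
      unfold quadP
      rw [eD, esum, Real.sqrt_mul (sq_nonneg T), Real.sqrt_sq hTn]
      ring
    have eM : quadM (a1 * p) (b' * q) ((1 - g - a1) * p + bb * q) (g * p) =
        T * ((1 - √D) / 2) := by
      unfold quadM
      rw [eD, esum, Real.sqrt_mul (sq_nonneg T), Real.sqrt_sq hTn]
      ring
    rw [eP, eM, negMulLog_mul, negMulLog_mul, pureGen, ← ht, ← hD,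
      binEntropy_eq_negMulLog_add_negMulLog_one_sub,
      show 1 - (1 - √D) / 2 = (1 + √D) / 2 by ring]
    ring
  show T * pureGen γ ν (q / T) + (vN U - negMulLog p) + (vN W - negMulLog q) + negMulLog T ≤ _
  unfold quadFn at h4
  have hb1 : b' + bb = 1 := by rw [hb', hbb]; ring
  have k1 : vN U = a1 * vN U + (1 - g - a1) * vN U + g * vN U := by ring
  have k2 : vN W = b' * vN W + bb * vN W := by rw [← add_mul, hb1, one_mul]
  have k3 : negMulLog p = a1 * negMulLog p + (1 - g - a1) * negMulLog p + g * negMulLog p := by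
    ring
  have k4 : negMulLog q = b' * negMulLog q + bb * negMulLog q := by rw [← add_mul, hb1, one_mul]
  simp only [negMulLog_mul a1 p, negMulLog_mul (1 - g - a1) p, negMulLog_mul g p,
    negMulLog_mul b' q, negMulLog_mul bb q] at h4 hsup
  linarith

end Vale.Agent.P358.Gen
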