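import Vale.Agent.P358.Gen.Defs
import Vale.Agent.P358.Gen.Scalar
import Vale.Agent.P358.Entropy

/-!
# P358: rank-one bound and the twirl
-/

namespace Vale.Agent.P358.Gen

open Matrix Real
open scoped ComplexOrder Kronecker

variable {α β : Type} [Fintype α] [DecidableEq α] [Fintype β] [DecidableEq β]

theorem re_trace_nonneg {X : Matrix α α ℂ} (hX : X.PosSemidef) : 0 ≤ X.trace.re :=
  (Complex.le_def.1 hX.trace_nonneg).1

theorem re_dot_eq_sum (z : α → ℂ) : (star z ⬝ᵥ z).re = ∑ x, Complex.normSq (z x) := by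
  simp [dotProduct, Complex.normSq_apply]

theorem quadForm_le_trace {X : Matrix α α ℂ} (hX : X.PosSemidef) (z : α → ℂ) :
    (star z ⬝ᵥ X *ᵥ z).re ≤ X.trace.re * ∑ x, Complex.normSq (z x) := by
  obtain ⟨v, rfl⟩ := exists_pure_decomp hX
  simp only [sum_mulVec, dotProduct_sum, Complex.re_sum, trace_sum, Finset.sum_mul]
  refine Finset.sum_le_sum fun j _ => ?_
  have e1 : (star z ⬝ᵥ vecMulVec (v j) (star (v j)) *ᵥ z).re =
      Complex.normSq (star (v j) ⬝ᵥ z) := by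
    rw [vecMulVec_mulVec, dotProduct_smul, MulOpposite.smul_eq_mul_unop, MulOpposite.unop_op]
    have : star z ⬝ᵥ v j = star (star (v j) ⬝ᵥ z) := by
      exact star_dotProduct _ _
    rw [this, Complex.star_def, ← Complex.normSq_eq_conj_mul_self, Complex.ofReal_re]
  have e2 : (vecMulVec (v j) (star (v j))).trace.re = ∑ x, Complex.normSq (v j x) := by
    rw [trace_vecMulVec, dotProduct_comm, re_dot_eq_sum]
  rw [e1, e2]
  have h1 : Complex.normSq (star (v j) ⬝ᵥ z) ≤ (∑ x, ‖v j x‖ * ‖z x‖) ^ 2 := by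
    rw [Complex.normSq_eq_norm_sq]
    refine pow_le_pow_left₀ (norm_nonneg _) ((norm_sum_le _ _).trans (le_of_eq ?_)) 2
    simp
  refine h1.trans ((Finset.sum_mul_sq_le_sq_mul_sq _ _ _).trans (le_of_eq ?_))
  simp [Complex.normSq_eq_norm_sq]

/-- The log-determinant gain of a rank-one perturbation. -/
theorem det_rankOne_gain (R₀ : Matrix α α ℂ) (R₁ : Matrix β β ℂ) (hR₀ : R₀.PosSemidef)
    (hR₁ : R₁.PosSemidef) (ψ₀ : α → ℂ) (ψ₁ : β → ℂ) {u w r₀ r₁ t : ℝ}
    (hu : u = ∑ x, Complex.normSq (ψ₀ x)) (hw : w = ∑ x, Complex.normSq (ψ₁ x))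
    (hr₀ : r₀ = R₀.trace.re) (hr₁ : r₁ = R₁.trace.re) (ht : 0 < t) :
    Real.log ‖(fromBlocks R₀ 0 0 R₁ + (t : ℂ) • 1).det‖ + quadLine t u w r₀ r₁ ≤
      Real.log ‖(vecMulVec (Sum.elim ψ₀ ψ₁) (star (Sum.elim ψ₀ ψ₁)) + fromBlocks R₀ 0 0 R₁ +
        (t : ℂ) • 1).det‖ := by
  have h0 : 0 ≤ r₀ := hr₀ ▸ re_trace_nonneg hR₀
  have h1 : 0 ≤ r₁ := hr₁ ▸ re_trace_nonneg hR₁
  have hu0 : 0 ≤ u := hu ▸ Finset.sum_nonneg fun x _ => Complex.normSq_nonneg _
  have hw0 : 0 ≤ w := hw ▸ Finset.sum_nonneg fun x _ => Complex.normSq_nonneg _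
  have hR : (fromBlocks R₀ 0 0 R₁).PosSemidef := by
    refine PosSemidef.of_dotProduct_mulVec_nonneg
      (hR₀.1.fromBlocks (by simp) hR₁.1) fun z => ?_
    rw [fromBlocks_mulVec]
    simp only [zero_mulVec, add_zero, zero_add, dotProduct, Fintype.sum_sum_type, Sum.elim_inl,
      Sum.elim_inr]
    exact add_nonneg (hR₀.dotProduct_mulVec_nonneg (z ∘ Sum.inl))
      (hR₁.dotProduct_mulVec_nonneg (z ∘ Sum.inr))
  set ψ := Sum.elim ψ₀ ψ₁ with hψ
  set D := fromBlocks R₀ 0 0 R₁ + (t : ℂ) • (1 : Matrix (α ⊕ β) (α ⊕ β) ℂ) with hD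
  have hDp : D.PosDef := PosDef.posSemidef_add hR (PosDef.one.smul (by exact_mod_cast ht))
  have hDu : IsUnit D.det := isUnit_iff_ne_zero.2 hDp.det_pos.ne'
  set x := D⁻¹ *ᵥ ψ with hx
  set z : α ⊕ β → ℂ := Sum.elim (fun i => ψ₀ i / ((t + r₀ : ℝ) : ℂ))
    (fun i => ψ₁ i / ((t + r₁ : ℝ) : ℂ)) with hz
  have hDx : D *ᵥ x = ψ := by rw [hx, mulVec_mulVec, mul_nonsing_inv _ hDu, one_mulVec]
  set S := u / (t + r₀) + w / (t + r₁) with hS
  have hzψ : (star z ⬝ᵥ ψ).re = S := by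
    simp only [hz, hψ, dotProduct, Fintype.sum_sum_type, Pi.star_apply, Sum.elim_inl,
      Sum.elim_inr, Complex.add_re, Complex.re_sum, hS, hu, hw, Finset.sum_div]
    congr 1 <;>
    · refine Finset.sum_congr rfl fun i _ => ?_
      rw [Complex.star_def, map_div₀, Complex.conj_ofReal, div_mul_eq_mul_div,
        ← Complex.normSq_eq_conj_mul_self, ← Complex.ofReal_div, Complex.ofReal_re]
  have hDz : (star z ⬝ᵥ D *ᵥ z).re ≤ S := by
    have e : (star z ⬝ᵥ D *ᵥ z).re = (star (z ∘ Sum.inl) ⬝ᵥ R₀ *ᵥ (z ∘ Sum.inl)).re +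
        (star (z ∘ Sum.inr) ⬝ᵥ R₁ *ᵥ (z ∘ Sum.inr)).re +
        t * (∑ i, Complex.normSq (z (Sum.inl i)) + ∑ i, Complex.normSq (z (Sum.inr i))) := by
      rw [hD, add_mulVec, dotProduct_add, smul_mulVec, one_mulVec, dotProduct_smul,
        Complex.add_re, smul_eq_mul, Complex.re_ofReal_mul, re_dot_eq_sum, Fintype.sum_sum_type,
        fromBlocks_mulVec]
      simp only [zero_mulVec, add_zero, zero_add, dotProduct, Fintype.sum_sum_type, Sum.elim_inl,
        Sum.elim_inr, Complex.add_re]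
      rfl
    have q0 := quadForm_le_trace hR₀ (z ∘ Sum.inl)
    have q1 := quadForm_le_trace hR₁ (z ∘ Sum.inr)
    rw [← hr₀] at q0
    rw [← hr₁] at q1
    simp only [Function.comp_apply] at q0 q1
    have n0 : (r₀ + t) * ∑ i, Complex.normSq (z (Sum.inl i)) = u / (t + r₀) := by
      simp only [hz, Sum.elim_inl, Complex.normSq_div, Complex.normSq_ofReal, ← Finset.sum_div,
        ← hu]
      field_simp
      ring
    have n1 : (r₁ + t) * ∑ i, Complex.normSq (z (Sum.inr i)) = w / (t + r₁) := by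
      simp only [hz, Sum.elim_inr, Complex.normSq_div, Complex.normSq_ofReal, ← Finset.sum_div,
        ← hw]
      field_simp
      ring
    rw [e, hS]
    linarith
  have hquad : S ≤ (star ψ ⬝ᵥ x).re := by
    have h := hDp.posSemidef.dotProduct_mulVec_nonneg (x - z)
    have hre := (Complex.le_def.1 h).1
    rw [mulVec_sub, star_sub, sub_dotProduct, dotProduct_sub, dotProduct_sub, hDx] at hre
    have e1 : (star x ⬝ᵥ ψ).re = (star ψ ⬝ᵥ x).re := by
      rw [star_dotProduct, Complex.star_def, Complex.conj_re]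
    have e2 : (star x ⬝ᵥ D *ᵥ z).re = S := by
      rw [dotProduct_mulVec, ← hDp.1.eq, ← star_mulVec, hDx, star_dotProduct, Complex.star_def,
        Complex.conj_re, hzψ]
    simp only [Complex.sub_re, Complex.zero_re, e1, e2, hzψ] at hre
    linarith
  have hdet : (vecMulVec ψ (star ψ) + D).det = D.det * (1 + star ψ ⬝ᵥ x) := by
    have hunit : (1 + replicateRow Unit (star ψ) * D⁻¹ * replicateCol Unit ψ).det =
        1 + star ψ ⬝ᵥ x := by
      rw [Matrix.det_unique (n := Unit), Matrix.add_apply, one_apply_eq, Matrix.mul_assoc]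
      rfl
    rw [add_comm, vecMulVec_eq Unit, det_add_replicateCol_mul_replicateRow hDu, hunit]
  have hre1 : 0 ≤ S := by positivity
  have hpos : 0 < 1 + (star ψ ⬝ᵥ x).re := by linarith
  have hnorm : 1 + S ≤ ‖1 + star ψ ⬝ᵥ x‖ := by
    have := Complex.re_le_norm (1 + star ψ ⬝ᵥ x)
    simp only [Complex.add_re, Complex.one_re] at this
    linarith
  rw [add_assoc (vecMulVec ψ (star ψ)), ← hD, hdet, norm_mul,
    Real.log_mul (norm_pos_iff.2 hDp.det_pos.ne').ne' (by linarith : ‖1 + star ψ ⬝ᵥ x‖ ≠ 0)]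
  have : quadLine t u w r₀ r₁ ≤ Real.log ‖1 + star ψ ⬝ᵥ x‖ := by
    unfold quadLine
    rw [add_assoc, ← hS]
    exact Real.log_le_log (by linarith) hnorm
  linarith

/-- Entropy form of the rank-one bound. -/
theorem vN_rankOne_gain (R₀ : Matrix α α ℂ) (R₁ : Matrix β β ℂ) (hR₀ : R₀.PosSemidef)
    (hR₁ : R₁.PosSemidef) (ψ₀ : α → ℂ) (ψ₁ : β → ℂ) :
    negMulLog (quadP (∑ x, Complex.normSq (ψ₀ x)) (∑ x, Complex.normSq (ψ₁ x))
          R₀.trace.re R₁.trace.re) +
        negMulLog (quadM (∑ x, Complex.normSq (ψ₀ x)) (∑ x, Complex.normSq (ψ₁ x))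
          R₀.trace.re R₁.trace.re) -
        negMulLog R₀.trace.re - negMulLog R₁.trace.re + vN (fromBlocks R₀ 0 0 R₁) ≤
      vN (vecMulVec (Sum.elim ψ₀ ψ₁) (star (Sum.elim ψ₀ ψ₁)) + fromBlocks R₀ 0 0 R₁) := by
  set u := ∑ x, Complex.normSq (ψ₀ x) with hu
  set w := ∑ x, Complex.normSq (ψ₁ x) with hw
  set r₀ := R₀.trace.re with hr₀
  set r₁ := R₁.trace.re with hr₁
  have h0 : 0 ≤ r₀ := re_trace_nonneg hR₀
  have h1 : 0 ≤ r₁ := re_trace_nonneg hR₁
  have hu0 : 0 ≤ u := Finset.sum_nonneg fun x _ => Complex.normSq_nonneg _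
  have hw0 : 0 ≤ w := Finset.sum_nonneg fun x _ => Complex.normSq_nonneg _
  have hR : (fromBlocks R₀ 0 0 R₁).PosSemidef := by
    refine PosSemidef.of_dotProduct_mulVec_nonneg
      (hR₀.1.fromBlocks (by simp) hR₁.1) fun z => ?_
    rw [fromBlocks_mulVec]
    simp only [zero_mulVec, add_zero, zero_add, dotProduct, Fintype.sum_sum_type, Sum.elim_inl,
      Sum.elim_inr]
    exact add_nonneg (hR₀.dotProduct_mulVec_nonneg (z ∘ Sum.inl))
      (hR₁.dotProduct_mulVec_nonneg (z ∘ Sum.inr))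
  have hσ : (vecMulVec (Sum.elim ψ₀ ψ₁) (star (Sum.elim ψ₀ ψ₁))).PosSemidef :=
    posSemidef_vecMulVec_self_star _
  have hO := hσ.add hR
  let c : ((α ⊕ β) ⊕ (α ⊕ β)) ⊕ (Fin 2 ⊕ Fin 2) → ℝ :=
    Sum.elim (Sum.elim (fun _ => 1) (fun _ => -1)) (Sum.elim (fun _ => -1) (fun _ => 1))
  let E : ((α ⊕ β) ⊕ (α ⊕ β)) ⊕ (Fin 2 ⊕ Fin 2) → ℝ :=
    Sum.elim (Sum.elim hO.1.eigenvalues hR.1.eigenvalues)
      (Sum.elim ![quadP u w r₀ r₁, quadM u w r₀ r₁] ![r₀, r₁])
  have htr : ∑ i, hO.1.eigenvalues i = ∑ i, hR.1.eigenvalues i + (u + w) := by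
    rw [sum_eigenvalues_eq_trace, sum_eigenvalues_eq_trace, trace_add, Complex.add_re,
      trace_vecMulVec, dotProduct_comm, re_dot_eq_sum, Fintype.sum_sum_type]
    simp only [Sum.elim_inl, Sum.elim_inr, ← hu, ← hw]
    ring
  have main := sum_negMulLog_nonneg c E
    (by
      rintro ((i | i) | (i | i))
      · exact hO.eigenvalues_nonneg _
      · exact hR.eigenvalues_nonneg _
      · fin_cases i
        · exact quadP_nonneg hu0 hw0 h0 h1
        · exact quadM_nonneg hu0 hw0 h0 h1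
      · fin_cases i
        · exact h0
        · exact h1)
    (by simp [c, Fintype.sum_sum_type])
    (by
      have := quad_sum u w r₀ r₁
      simp only [c, E, Fintype.sum_sum_type, Sum.elim_inl, Sum.elim_inr, one_mul, neg_one_mul,
        Finset.sum_neg_distrib, Fin.sum_univ_two, Matrix.cons_val_zero, Matrix.cons_val_one]
      simp only [Fintype.sum_sum_type] at htr
      linarith)
    (fun t ht => by
      have h := det_rankOne_gain R₀ R₁ hR₀ hR₁ ψ₀ ψ₁ hu hw hr₀ hr₁ ht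
      rw [quadLine_eq_logs hu0 hw0 h0 h1 ht, det_add_smul_one hO.1, det_add_smul_one hR.1,
        Complex.norm_real, Complex.norm_real, Real.norm_eq_abs, Real.norm_eq_abs,
        abs_of_pos (Finset.prod_pos fun i _ => by linarith [hO.eigenvalues_nonneg i, hR.eigenvalues_nonneg i]),
        abs_of_pos (Finset.prod_pos fun i _ => by linarith [hO.eigenvalues_nonneg i, hR.eigenvalues_nonneg i]),
        Real.log_prod fun i _ => by linarith [hO.eigenvalues_nonneg i, hR.eigenvalues_nonneg i],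
        Real.log_prod fun i _ => by linarith [hO.eigenvalues_nonneg i, hR.eigenvalues_nonneg i]] at h
      simp only [add_comm _ t] at h
      simp only [Fintype.sum_sum_type] at h
      simp only [c, E, Fintype.sum_sum_type, Sum.elim_inl, Sum.elim_inr, one_mul, neg_one_mul,
        Finset.sum_neg_distrib, Fin.sum_univ_two, Matrix.cons_val_zero, Matrix.cons_val_one]
      linarith)
  simp only [c, E, Fintype.sum_sum_type, Sum.elim_inl, Sum.elim_inr, one_mul, neg_one_mul,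
    Finset.sum_neg_distrib, Fin.sum_univ_two, Matrix.cons_val_zero, Matrix.cons_val_one] at main
  rw [vN, dif_pos hR.1, vN, dif_pos hO.1, Fintype.sum_sum_type, Fintype.sum_sum_type]
  linarith

end Vale.Agent.P358.Gen
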